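import Vale.Agent.P157.Par.Close
import Vale.Agent.P157.Par.UpperSlope
import Vale.Agent.P157.Par.Lip

/-! First order expansion of the nested functional in the profile, with a quadratic error. -/

open MeasureTheory ProbabilityTheory Real Finset Filter
open scoped Topology
open Vale.Agent.P150 (gauss dot)
open Vale.Agent.P168.MP (lin ET nest att Ok Valid Supp Z logZ0)
open Vale.Agent.P157.Lim (cvec)
open Vale.Agent.P157.Par

namespace Vale.Agent.P157.Full

variable {f f1 f2 f3 : ℝ → ℝ} {B D : ℝ}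

lemma cv_cvec {Ω ι κ : Type} [Fintype ι] [Fintype κ] (a : List Ω → ι → ℝ) (b : List Ω → κ → ℝ) {t : ℝ}
    (h0 : 0 ≤ t) (h1 : t ≤ 1) (p p' : List Ω) :
    cv (fun s => cvec a b t s) p p' = t * cv a p p' + (1 - t) * cv b p p' := by
  have e0 := Real.mul_self_sqrt h0
  have e1 := Real.mul_self_sqrt (show (0 : ℝ) ≤ 1 - t by linarith)
  simp only [cv, dot, cvec, Fintype.sum_sum_type, Sum.elim_inl, Sum.elim_inr, mul_sum]
  congr 1 <;> refine sum_congr rfl fun i _ => ?_
  · linear_combination (a p i * a p' i) * e0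
  · linear_combination (b p i * b p' i) * e1

/-- first order expansion -/
theorem phi_taylor (hS : Sm f f1 f2 f3 B D) (V : ℝ) : ∃ K : ℝ, 0 ≤ K ∧
    ∀ (R : ℕ) (q q' : ℕ → ℝ), 1 ≤ R → Prof R q V → Prof R q' V → q R = q' R →
      |Par.Phi (fun y => exp (f y)) R (lin R) q' - Par.Phi (fun y => exp (f y)) R (lin R) q +
          1 / (2 * R) * ∑ l ∈ range R, Gamma (fun y => exp (f y)) f1 R (lin R) q l * (q' l - q l)| ≤
        K / R * ∑ l ∈ range R, |q' l - q l| * (|q' l - q l| + (∑ j ∈ range R, |q' j - q j|) / R) := by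
  obtain ⟨K₁, hK₁, hpair⟩ := pair_close hS V
  obtain ⟨K₂, hK₂, hlip⟩ := Phi_lip hS V
  refine ⟨K₂, hK₂, fun R q q' hR hq hq' htop => ?_⟩
  have hV : 0 ≤ V := (hq.bd le_rfl).1.trans hq.top
  have hR' : (0 : ℝ) < R := Nat.cast_pos.2 hR
  set e := fun y => exp (f y)
  set Γ := fun l => Gamma e f1 R (lin R) q l with hΓ
  set Δ := fun l => q' l - q l with hΔ
  set S := (∑ j ∈ range R, |Δ j|) / R with hSdef
  set L := 1 / (2 * (R : ℝ)) * ∑ l ∈ range R, Γ l * Δ l with hL
  refine le_of_err ((((node_value (adm_exp hS) (ex_lin R) hq' hR).sub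
    (node_value (adm_exp hS) (ex_lin R) hq hR)).add_const L).abs)
    (c := ∑ l ∈ range R, (K₁ * (2 * V) * 3 + 2 * D ^ 2) / R) (V := V) fun n => ?_
  set err := V / ((n : ℝ) + 1)
  set a : List (Fin (n + 1)) → Ix R n → ℝ := node R q'
  set b : List (Fin (n + 1)) → Ix R n → ℝ := node R q
  set w : List (Fin (n + 1)) → ℝ := fun _ => 1
  have hw : ∀ p, 0 < w p := fun _ => one_pos
  have hok : Ok R (lin R) w := ok_linW hR hw
  obtain ⟨hGc, -, hGd⟩ := hasDerivAt_value hS.sd hR hok a b
  obtain ⟨t, ht, hslope⟩ := exists_hasDerivAt_eq_slope _ _ zero_lt_one hGc hGd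
  have hS0 := hS.sd.cont0
  have hpos : ∀ g p, 0 < w p * fac f (fun p => cvec a b t p) g p := fun g p => mul_pos (hw p) (exp_pos _)
  have hnc : ∀ c : List (Fin (n + 1)) → Ix R n → ℝ,
      Continuous fun g => Real.log (nest (lin R) w (fac f c g) R []) := fun c =>
    (continuous_nest (m := lin R) (w := fun _ => w) (fun _ => continuous_const) (fun _ p => hw p)
      (continuous_fac hS0 c) (fun _ _ => Real.exp_pos _) R []).log fun g =>
        (Vale.Agent.P168.MP.nest_pos hw (fun _ => Real.exp_pos _) R []).ne'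
  obtain ⟨e1, e0⟩ := integral_end (hnc a) (hnc b)
  have f1e : ∀ g, fac f (fun p => cvec a b 1 p) g = fac f a fun k => g (.inl k) := fun g => by
    funext p; simp only [fac, (dot_cvec_one p g).1]
  have f0e : ∀ g, fac f (fun p => cvec a b 0 p) g = fac f b fun k => g (.inr k) := fun g => by
    funext p; simp only [fac, (dot_cvec_one p g).2]
  simp only [f1e, f0e] at hslope
  rw [e1, e0] at hslope
  simp only [sub_zero, div_one, w,
    fun (c : List (Fin (n + 1)) → Ix R n → ℝ) (g : Ix R n → ℝ) =>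
      nest_one (lin R) (Y := fac f c g) (fun _ => exp_pos _) R []] at hslope
  change |_ + L| ≤ _
  rw [show (∫ g, Real.log (Z (lin R) (nodeW e R q' g) R ([] : List (Fin (n + 1)))) ∂gauss (Ix R n)) -
      (∫ g, Real.log (Z (lin R) (nodeW e R q g) R ([] : List (Fin (n + 1)))) ∂gauss (Ix R n)) = _ from hslope.symm]
  set u := fun l => ∫ g, ET R (lin R) (fun p => w p * fac f (fun p => cvec a b t p) g p) [(0, l), (0, 0)]
    (fun ps => dd a b (ps.getD 0 []) (ps.getD 1 []) *
      (f1 (dot (cvec a b t (ps.getD 0 [])) g) * f1 (dot (cvec a b t (ps.getD 1 [])) g))) ∂gauss (Ix R n ⊕ Ix R n)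
  have hd0 : ∀ p : List (Fin (n + 1)), p.length = R → dd a b p p = 0 := fun p hp => by
    simp only [dd, a, b, cv_node_self hq', cv_node_self hq, hp, min_self, htop, sub_self]
  have hcf : ∀ l ∈ range R, cf (lin R) l = -(1 / (R : ℝ)) := fun l hl => coef_lt (mem_range.1 hl)
  have hwc : ∀ p, Continuous fun g : Ix R n ⊕ Ix R n → ℝ => w p * fac f (fun p => cvec a b t p) g p := fun p =>
    continuous_const.mul (continuous_fac hS0 _ p)
  have hfc : ∀ p, Continuous fun g : Ix R n ⊕ Ix R n → ℝ => f1 (dot (cvec a b t p) g) := fun p =>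
    hS.sd.cont1.comp (continuous_dot_left _)
  have hC : ∀ p p' : List (Fin (n + 1)), |dd a b p p'| ≤ 2 * V := fun p p' =>
    (abs_sub _ _).trans (by linarith [abs_cv_node_le hq' p p', abs_cv_node_le hq p p'])
  have hHi : ∀ l ∈ range R, Integrable (fun g => ET R (lin R) (fun p => w p * fac f (fun p => cvec a b t p) g p)
      [(0, l), (0, 0)] (fun ps => dd a b (ps.getD 0 []) (ps.getD 1 []) *
        (f1 (dot (cvec a b t (ps.getD 0 [])) g) * f1 (dot (cvec a b t (ps.getD 1 [])) g))))
      (gauss (Ix R n ⊕ Ix R n)) := fun l _ => by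
    refine Integrable.of_bound (continuous_ET hwc hpos R _ fun ps =>
      continuous_const.mul ((hfc _).mul (hfc _))).aestronglyMeasurable (2 * V * (D * D))
      (Eventually.of_forall fun g => ?_)
    refine Vale.Agent.P168.MP.ET_bound (hpos g) fun ps => ?_
    rw [abs_mul, abs_mul]
    exact mul_le_mul (hC _ _) (mul_le_mul (hS.b1 _) (hS.b1 _) (abs_nonneg _)
      ((abs_nonneg _).trans (hS.b1 0))) (by positivity) (by positivity)
  have hsum : ∀ g : Ix R n ⊕ Ix R n → ℝ,
      ET R (lin R) (fun p => w p * fac f (fun p => cvec a b t p) g p) [(0, 0)]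
        (fun ps => dd a b (ps.getD 0 []) (ps.getD 0 []) * f2 (dot (cvec a b t (ps.getD 0 [])) g)) +
        ((att R (lin R) [(0, 0)]).map fun c => c.2 * ET R (lin R) (fun p => w p * fac f (fun p => cvec a b t p) g p)
          [c.1, (0, 0)] fun ps => dd a b (ps.getD 0 []) (ps.getD 1 []) *
            (f1 (dot (cvec a b t (ps.getD 0 [])) g) * f1 (dot (cvec a b t (ps.getD 1 [])) g))).sum =
      ∑ l ∈ range R, -(1 / (R : ℝ)) * ET R (lin R) (fun p => w p * fac f (fun p => cvec a b t p) g p)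
          [(0, l), (0, 0)] (fun ps => dd a b (ps.getD 0 []) (ps.getD 1 []) *
            (f1 (dot (cvec a b t (ps.getD 0 [])) g) * f1 (dot (cvec a b t (ps.getD 1 [])) g))) := fun g => by
    rw [att_single_sum hR hok.top hok.last fun x => ET R (lin R) (fun p => w p * fac f (fun p => cvec a b t p) g p)
      [x, (0, 0)] fun ps => dd a b (ps.getD 0 []) (ps.getD 1 []) *
        (f1 (dot (cvec a b t (ps.getD 0 [])) g) * f1 (dot (cvec a b t (ps.getD 1 [])) g))]
    have z1 : ET R (lin R) (fun p => w p * fac f (fun p => cvec a b t p) g p) [(0, 0)]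
        (fun ps => dd a b (ps.getD 0 []) (ps.getD 0 []) * f2 (dot (cvec a b t (ps.getD 0 [])) g)) = 0 :=
      (Vale.Agent.P168.MP.ET_congr (show Valid R [(0, 0)] from ⟨rfl, rfl⟩) (G := fun _ => (0 : ℝ)) fun ps hs => by
        rw [hd0 _ (hs.2.1 0 (by simp)), zero_mul]).trans (Vale.Agent.P168.MP.ET_const (hpos g) _ _)
    have z2 : ET R (lin R) (fun p => w p * fac f (fun p => cvec a b t p) g p) [(0, R), (0, 0)]
        (fun ps => dd a b (ps.getD 0 []) (ps.getD 1 []) *
          (f1 (dot (cvec a b t (ps.getD 0 [])) g) * f1 (dot (cvec a b t (ps.getD 1 [])) g))) = 0 :=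
      (Vale.Agent.P168.MP.ET_congr (show Valid R [(0, R), (0, 0)] from ⟨Nat.zero_lt_one, le_rfl, rfl, rfl⟩)
        (G := fun _ => (0 : ℝ)) fun ps hs => by rw [← top_eq hs, hd0 _ (hs.2.1 0 (by simp)), zero_mul]).trans
          (Vale.Agent.P168.MP.ET_const (hpos g) _ _)
    rw [z1, z2, zero_add, add_zero]
    exact sum_congr rfl fun l hl => by rw [hcf l hl]
  simp only [w] at hsum hHi
  simp only [hsum]
  rw [integral_finsetSum _ fun l hl => (hHi l hl).const_mul _]
  simp only [integral_const_mul]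
  change |1 / 2 * (∑ l ∈ range R, -(1 / (R : ℝ)) * u l) + L| ≤ _
  rw [show 1 / 2 * (∑ l ∈ range R, -(1 / (R : ℝ)) * u l) + L =
      ∑ l ∈ range R, 1 / (2 * (R : ℝ)) * (Γ l * Δ l - u l) by
    simp only [hL, mul_sum, ← sum_add_distrib]
    exact sum_congr rfl fun l _ => by field_simp; ring]
  set qt := fun l => t * q' l + (1 - t) * q l
  have ht0 := ht.1.le
  have ht1 := ht.2.le
  have hqt : Prof R qt V := ⟨by have := hq.zero; have := hq'.zero; simp only [qt]; nlinarith,
    fun l hl => by simp only [qt]; nlinarith [hq.mono l hl, hq'.mono l hl],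
    by have := hq.top; have := hq'.top; simp only [qt]; nlinarith⟩
  have hcc : ∀ p, cv (fun s => cvec a b t s) p p ≤ V := fun p => by
    rw [cv_cvec a b ht0 ht1]
    nlinarith [cv_node_le hq' p, cv_node_le hq p]
  have hdev : ∀ l ≤ R, devOf R w (cv fun s => cvec a b t s) qt l ≤ err := fun l hl => by
    have hl' := dev_node_prof (n := n) (q' := q') hq' hl
    have hl'' := dev_node_prof (n := n) (q' := q) hq hl
    rw [sub_self, abs_zero, zero_add] at hl' hl''
    refine (Vale.Agent.P168.MP.ET_mono hw (G := fun ps => t * |cv a (ps.getD 0 []) (ps.getD 1 []) - q' l| +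
      (1 - t) * |cv b (ps.getD 0 []) (ps.getD 1 []) - q l|) fun ps => ?_).trans ?_
    · rw [cv_cvec a b ht0 ht1]
      set A := cv a (ps.getD 0 []) (ps.getD 1 [])
      set A' := cv b (ps.getD 0 []) (ps.getD 1 [])
      calc |t * A + (1 - t) * A' - qt l| = |t * (A - q' l) + (1 - t) * (A' - q l)| := by
            congr 1; simp only [qt]; ring
        _ ≤ |t * (A - q' l)| + |(1 - t) * (A' - q l)| := abs_add_le _ _
        _ = _ := by rw [abs_mul, abs_mul, abs_of_nonneg ht0, abs_of_nonneg (by linarith : (0 : ℝ) ≤ 1 - t)]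
    · rw [Vale.Agent.P168.MP.ET_add, Vale.Agent.P168.MP.ET_const_mul, Vale.Agent.P168.MP.ET_const_mul]
      calc t * devOf R w (cv a) q' l + (1 - t) * devOf R w (cv b) q l ≤ t * err + (1 - t) * err :=
            add_le_add (mul_le_mul_of_nonneg_left hl' ht0) (mul_le_mul_of_nonneg_left hl'' (by linarith))
        _ = err := by ring
  have hadev : adev R w (cv fun s => cvec a b t s) qt ≤ 2 * err := by
    refine (add_le_add (div_le_div_of_nonneg_right ((sum_le_sum fun l hl => hdev l (mem_range.1 hl).le).trans_eq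
      (by rw [sum_const, card_range, nsmul_eq_mul])) hR'.le) (hdev R le_rfl)).trans_eq ?_
    rw [mul_div_cancel_left₀ _ hR'.ne']; ring
  have hterm : ∀ l ∈ range R, |1 / (2 * (R : ℝ)) * (Γ l * Δ l - u l)| ≤
      K₂ / R * (|Δ l| * (|Δ l| + S)) + (K₁ * (2 * V) * 3 + 2 * D ^ 2) / R * err := fun l hl => by
    have hlR := (mem_range.1 hl).le
    have h1 := (hpair hR hw hcc hqt hlR hC).1
    set P := ET R (lin R) w [(0, l), (0, 0)] fun ps => dd a b (ps.getD 0 []) (ps.getD 1 [])
    have h1' : |u l - Gamma e f1 R (lin R) qt l * P| ≤ K₁ * (2 * V) * (3 * err) := h1.trans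
      (mul_le_mul_of_nonneg_left (by linarith [hdev l hlR, hadev]) (by positivity))
    have h2 : |P - Δ l| ≤ 2 * err := by
      have hl' := dev_node_prof (n := n) (q' := q') hq' hlR
      have hl'' := dev_node_prof (n := n) (q' := q) hq hlR
      rw [sub_self, abs_zero, zero_add] at hl' hl''
      rw [show P - Δ l = ET R (lin R) w [(0, l), (0, 0)]
        (fun ps => dd a b (ps.getD 0 []) (ps.getD 1 []) - Δ l) by
          rw [Vale.Agent.P168.MP.ET_sub, Vale.Agent.P168.MP.ET_const hw]]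
      refine (Vale.Agent.P168.MP.ET_abs_le hw _ _).trans ((Vale.Agent.P168.MP.ET_mono hw
        (G := fun ps => |cv a (ps.getD 0 []) (ps.getD 1 []) - q' l| +
          |cv b (ps.getD 0 []) (ps.getD 1 []) - q l|) fun ps => ?_).trans ?_)
      · refine le_trans (le_of_eq (congrArg abs ?_)) (abs_sub _ _)
        simp only [dd, hΔ]; ring
      · rw [Vale.Agent.P168.MP.ET_add]
        exact (add_le_add hl' hl'').trans_eq (two_mul _).symm
    have h3 : |Γ l - Gamma e f1 R (lin R) qt l| ≤ K₂ * (|Δ l| + S) := by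
      refine ((hlip R q qt hR hq hqt).2 l hlR).trans (mul_le_mul_of_nonneg_left ?_ hK₂)
      have eq : ∀ j, |q j - qt j| = t * |Δ j| := fun j => by
        rw [show q j - qt j = -(t * Δ j) by simp only [qt, hΔ]; ring, abs_neg, abs_mul, abs_of_nonneg ht0]
      simp only [eq, ← mul_sum, mul_div_assoc, show |Δ R| = 0 by simp [hΔ, htop], mul_zero, add_zero, ← hSdef]
      exact add_le_add (mul_le_of_le_one_left (abs_nonneg _) ht1)
        (mul_le_of_le_one_left (by positivity) ht1)
    have h4 : |Gamma e f1 R (lin R) qt l| ≤ D ^ 2 := by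
      obtain ⟨g0, g1, -⟩ := gamma_mono (adm_exp hS) (ex_lin R) hqt hS.sd.cont1 hS.b1 hlR
      rwa [abs_of_nonneg g0]
    have key : |Γ l * Δ l - u l| ≤ K₂ * (|Δ l| * (|Δ l| + S)) + (K₁ * (2 * V) * 3 + 2 * D ^ 2) * err := by
      rw [show Γ l * Δ l - u l = (Γ l - Gamma e f1 R (lin R) qt l) * Δ l +
        Gamma e f1 R (lin R) qt l * (Δ l - P) + (Gamma e f1 R (lin R) qt l * P - u l) by ring]
      refine (abs_add_three _ _ _).trans ?_
      rw [abs_mul, abs_mul, abs_sub_comm (Δ l) P, abs_sub_comm _ (u l)]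
      have := mul_le_mul_of_nonneg_right h3 (abs_nonneg (Δ l))
      have := mul_le_mul h4 h2 (abs_nonneg _) (sq_nonneg D)
      nlinarith
    rw [abs_mul, abs_of_pos (show (0 : ℝ) < 1 / (2 * R) by positivity), div_mul_eq_mul_div, one_mul,
      div_mul_eq_mul_div, div_mul_eq_mul_div, ← add_div]
    calc |Γ l * Δ l - u l| / (2 * R) ≤ |Γ l * Δ l - u l| / R :=
          div_le_div_of_nonneg_left (abs_nonneg _) hR' (by linarith)
      _ ≤ _ := div_le_div_of_nonneg_right key hR'.le
  refine (abs_sum_le_sum_abs _ _).trans ((sum_le_sum hterm).trans_eq ?_)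
  rw [sum_add_distrib, mul_sum, sum_mul]

end Vale.Agent.P157.Full
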