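import Vale.Agent.P157.Full.Defs
import Vale.Agent.P157.Par.Bridge
import Vale.Agent.P157.Par.Node
import Vale.Agent.P157.Par.Upper

/-! The Hopf form of the formula in the notation of `Parisi/Formula`, and its identification with `Jval`. -/

open MeasureTheory ProbabilityTheory Real Finset
open Vale.Agent.P168.MP (lin)

namespace Vale.Agent.P157.Full

open Par (Prof Vn tl tlN Ex ex_lin)
open Par.Br (mExp dInc)

/-- `q_l`: the tilted mean square of the level-`l` conditional mean of `tanh` in a field with covariances `s` -/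
noncomputable def qS {r : ℕ} (m : Fin r → ℝ) (s : Fin (r + 1) → ℝ) (l : Fin (r + 1)) : ℝ :=
  ∫ z, Parisi.sqG r m (Parisi.incr s) Real.cosh Real.tanh l (√(s 0) * z) ∂gaussianReal 0 1

/-- the exponents `l / (r + 1)` -/
noncomputable def mlin (r : ℕ) (p : Fin r) : ℝ := ((p : ℕ) + 1 : ℝ) / (r + 1)

/-- the functional of a field path `s` at depth `r` -/
noncomputable def hopfValue (U : ℝ → ℝ) (α : ℝ) (r : ℕ) (s : Fin (r + 1) → ℝ) : ℝ :=
  α * Parisi.patternTerm U (mlin r) (qS (mlin r) s) + Parisi.spinTerm (mlin r) s -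
    (s (Fin.last r) + ∑ l : Fin (r + 1),
      (Parisi.mext (mlin r) l - Parisi.mext (mlin r) (l + 1)) * (s l * qS (mlin r) s l)) / 2

/-- the values at all depths and all paths -/
def hopfValues (U : ℝ → ℝ) (α : ℝ) : Set ℝ :=
  {v | ∃ (r : ℕ) (s : Fin (r + 1) → ℝ), Monotone s ∧ (∀ l, 0 ≤ s l) ∧ v = hopfValue U α r s}

lemma tlN_add_const (e : ℝ → ℝ) (R : ℕ) (m q : ℕ → ℝ) (c : ℝ) :
    (∀ k, Vn e R m (fun l => q l + c) k = Vn e R m q k) ∧
      ∀ k j F, tlN e R m (fun l => q l + c) k j F = tlN e R m q k j F := by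
  have hV : ∀ k, Vn e R m (fun l => q l + c) k = Vn e R m q k := fun k => by
    induction k with
    | zero => rfl
    | succ k ih => funext y; simp only [Vn, ih, add_sub_add_right_eq_sub]
  refine ⟨hV, fun k j F => ?_⟩
  induction j with
  | zero => rfl
  | succ j ih => funext y; simp only [tlN, tl, ih, hV, add_sub_add_right_eq_sub]

lemma smooth_sinh {v : ℝ} (hv : 0 ≤ v) (y : ℝ) :
    ∫ z, sinh (y + √v * z) ∂gaussianReal 0 1 = exp (v / 2) * sinh y := by
  have hmgf : ∀ t : ℝ, ∫ z, exp (t * z) ∂gaussianReal 0 1 = exp (t ^ 2 / 2) := fun t => by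
    have h := congrFun (mgf_id_gaussianReal (μ := 0) (v := 1)) t
    simpa [mgf] using h
  have e : (fun z => sinh (y + √v * z)) =
      fun z => exp y / 2 * exp (√v * z) - exp (-y) / 2 * exp (-√v * z) := by
    funext z
    rw [sinh_eq, neg_add, exp_add, exp_add, neg_mul]
    ring
  rw [e, integral_sub ((integrable_exp_mul_gaussianReal _).const_mul _)
    ((integrable_exp_mul_gaussianReal _).const_mul _), integral_const_mul, integral_const_mul, hmgf, hmgf,
    neg_sq, Real.sq_sqrt hv, sinh_eq]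
  ring

lemma tiltG_smulY {c : ℝ} (hc : 0 < c) : ∀ (r : ℕ) (m d : Fin r → ℝ) {Y F : ℝ → ℝ}, (∀ y, 0 ≤ Y y) →
    (∀ p, 0 < m p) → ∀ y, Parisi.tiltG r m d (fun y => c * Y y) F y = Parisi.tiltG r m d Y F y
  | 0, _, _, _, _, _, _, _ => rfl
  | r + 1, m, d, Y, F, hY, hm, y => by
    simp only [Parisi.tiltG, Par.Br.nestG_smul r (Fin.tail m) (Fin.tail d) hY (fun p => hm _) hc.le,
      tiltG_smulY hc r (Fin.tail m) (Fin.tail d) hY (fun p => hm _),
      Real.mul_rpow hc.le (Par.Br.nestG_nonneg _ _ _ hY _), mul_assoc, integral_const_mul]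
    rw [mul_div_mul_left _ _ (Real.rpow_pos_of_pos hc _).ne']

/-- a constant factor of the top weight does not matter -/
lemma sqG_smulY {c : ℝ} (hc : 0 < c) : ∀ (r : ℕ) (m d : Fin r → ℝ) {Y F : ℝ → ℝ}, (∀ y, 0 ≤ Y y) →
    (∀ p, 0 < m p) → ∀ l y, Parisi.sqG r m d (fun y => c * Y y) F l y = Parisi.sqG r m d Y F l y
  | 0, _, _, _, _, _, _, _, _ => rfl
  | r + 1, m, d, Y, F, hY, hm, l, y => by
    induction l using Fin.cases with
    | zero => simp only [Parisi.sqG, Fin.cases_zero, tiltG_smulY hc (r + 1) m d hY hm]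
    | succ l =>
      simp only [Parisi.sqG, Fin.cases_succ, Par.Br.nestG_smul r (Fin.tail m) (Fin.tail d) hY (fun p => hm _) hc.le,
        sqG_smulY hc r (Fin.tail m) (Fin.tail d) hY (fun p => hm _),
        Real.mul_rpow hc.le (Par.Br.nestG_nonneg _ _ _ hY _), mul_assoc, integral_const_mul]
      rw [mul_div_mul_left _ _ (Real.rpow_pos_of_pos hc _).ne']

variable {r : ℕ} {h : ℕ → ℝ} {V : ℝ}

lemma lin_succ (p : Fin r) : lin (r + 1) ((p : ℕ) + 1) = mlin r p := by
  rw [lin, if_pos (by omega), mlin]; push_cast; ring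

/-- `qS` is `qh` below the top -/
lemma qS_eq (hh : Prof (r + 1) h V) (l : Fin (r + 1)) :
    qS (mlin r) (fun l : Fin (r + 1) => h l) l = qh (r + 1) h l := by
  have hex := ex_lin (r + 1)
  have htop : lin (r + 1) (r + 1) = 1 := by
    rw [lin, if_pos le_rfl, div_self]; positivity
  set c := 1 - h (r + 1)
  have hqR : h (r + 1) + c = 1 := by ring
  have hv : 0 ≤ h (r + 1) - h r := sub_nonneg.2 (hh.mono r (by omega))
  have h1 := Par.Br.sq_eq (e := cosh) (q := fun l => h l + c) htop hqR tanh r le_rfl l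
  have hd : dInc (r + 1) (fun l => h l + c) r = Parisi.incr (fun l : Fin (r + 1) => h l) := by
    funext p; simp [dInc, Parisi.incr, Nat.add_comm]
  have hm : mExp (r + 1) (lin (r + 1)) r = mlin r := by
    funext p; rw [← lin_succ p]; simp [mExp, Nat.add_comm]
  have e1 : 1 - (h r + c) = h (r + 1) - h r := by simp only [c]; ring
  have eY : (fun y => ∫ z, cosh (y + √(1 - (h r + c)) * z) ∂gaussianReal 0 1) =
      fun y => exp ((h (r + 1) - h r) / 2) * cosh y := funext fun y => by rw [e1, Par.Br.smooth_cosh hv]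
  have eF : (fun y => (∫ z, cosh (y + √(1 - (h r + c)) * z) * tanh (y + √(1 - (h r + c)) * z) ∂gaussianReal 0 1) /
      ∫ z, cosh (y + √(1 - (h r + c)) * z) ∂gaussianReal 0 1) = tanh := funext fun y => by
    have e : ∀ x : ℝ, cosh x * tanh x = sinh x := fun x => by
      rw [tanh_eq_sinh_div_cosh, mul_div_cancel₀ _ (cosh_pos x).ne']
    simp only [e, e1, Par.Br.smooth_cosh hv, smooth_sinh hv]
    rw [mul_div_mul_left _ _ (exp_pos _).ne', tanh_eq_sinh_div_cosh]
  simp only [Nat.add_sub_cancel, eY, eF, hd, hm, (tlN_add_const cosh (r + 1) (lin (r + 1)) h c).2] at h1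
  rw [qh, if_pos l.isLt, Par.Gamma, qS]
  refine integral_congr_ae (Filter.Eventually.of_forall fun z => ?_)
  simp only [Fin.val_zero]
  rw [← congrFun h1]
  refine (sqG_smulY (exp_pos _) r _ _ (fun y => (cosh_pos y).le) (fun p => ?_) l _).symm
  rw [← lin_succ p]; exact hex.pos _ (by omega) (by omega)

/-- **the functional is `Jval`**, for every weight -/
theorem hopfValue_eq' (U : ℝ → ℝ) (α : ℝ) (hh : Prof (r + 1) h V) :
    hopfValue U α r (fun l : Fin (r + 1) => h l) =
      α * Par.Phi U (r + 1) (lin (r + 1)) (qh (r + 1) h) + psiH (r + 1) h +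
        dotH (r + 1) h (qh (r + 1) h) / 2 := by
  have hex := ex_lin (r + 1)
  have htop : lin (r + 1) (r + 1) = 1 := by
    rw [lin, if_pos le_rfl, div_self]; positivity
  have hq : qS (mlin r) (fun l : Fin (r + 1) => h l) = fun l : Fin (r + 1) => qh (r + 1) h l := funext (qS_eq hh)
  have hml : mlin r = fun p : Fin r => lin (r + 1) ((p : ℕ) + 1) := funext fun p => (lin_succ p).symm
  have hpat : Parisi.patternTerm U (mlin r) (qS (mlin r) fun l : Fin (r + 1) => h l) =
      Par.Phi U (r + 1) (lin (r + 1)) (qh (r + 1) h) := by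
    have hqR : qh (r + 1) h (r + 1) = 1 := by simp [qh]
    have hm : mlin r = mExp (r + 1) (lin (r + 1)) r := by
      rw [hml]; funext p; simp [mExp, Nat.add_comm]
    have hd : Parisi.incr (fun l : Fin (r + 1) => qh (r + 1) h l) = dInc (r + 1) (qh (r + 1) h) r := by
      funext p; simp [dInc, Parisi.incr, Nat.add_comm]
    rw [hq]
    simp only [Parisi.patternTerm, Par.Phi, hd, Fin.val_last, Fin.val_zero]
    refine integral_congr_ae (Filter.Eventually.of_forall fun z => ?_)
    have h1 := congrFun (Par.Br.nest_eq (e := U) htop hqR r le_rfl) (√(qh (r + 1) h 0) * z)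
    simp only [Nat.add_sub_cancel, ← hm] at h1
    exact congrArg log h1
  have hsp := Par.Br.phi_cosh (s := h) (hh.mono r (by omega)) hex.pos htop
  rw [← hml] at hsp
  have hsum : ∀ l : Fin (r + 1), (Parisi.mext (mlin r) l - Parisi.mext (mlin r) (l + 1)) *
      (h l * qS (mlin r) (fun l : Fin (r + 1) => h l) l) =
      -(1 / ((r : ℝ) + 1)) * (h l * qh (r + 1) h l) := fun l => by
    have e : ∀ j : ℕ, j ≤ r + 1 → Parisi.mext (mlin r) j = (j : ℝ) / ((r : ℝ) + 1) := fun j hj => by
      unfold Parisi.mext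
      split_ifs with h0 h1
      · simp [h0]
      · obtain ⟨i, rfl⟩ : ∃ i, j = i + 1 := ⟨j - 1, by omega⟩
        simp [mlin]
      · have : j = r + 1 := by omega
        subst this; push_cast; field_simp
    rw [qS_eq hh, e l (by omega), e (l + 1) l.isLt]
    push_cast; ring
  rw [hopfValue, hpat, psiH, hsp, Finset.sum_congr rfl fun l _ => hsum l, ← Finset.mul_sum,
    Fin.sum_univ_eq_sum_range (fun l => h l * qh (r + 1) h l), dotH, Fin.val_last]
  push_cast; ring

theorem hopfValue_eq (f : ℝ → ℝ) (α : ℝ) (hh : Prof (r + 1) h V) :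
    hopfValue (fun y => exp (f y)) α r (fun l : Fin (r + 1) => h l) = Jval α f (r + 1) h :=
  hopfValue_eq' _ α hh

/-- overlaps generated by a path form a profile -/
lemma qh_mem {R : ℕ} (hh : Prof R h V) : Prof R (qh R h) 1 := by
  have hA : Par.Adm cosh 1 1 1 := Par.adm_cosh
  have hth : ∀ y, |tanh y| ≤ (1:ℝ) := fun y => (abs_tanh_lt_one y).le
  have hc : Continuous tanh := by
    rw [show tanh = fun x => sinh x / cosh x from funext tanh_eq_sinh_div_cosh]
    exact continuous_sinh.div continuous_cosh fun x => (cosh_pos x).ne'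
  have g := fun {l} hl => Par.gamma_mono hA (ex_lin R) hh hc hth (l := l) hl
  refine ⟨?_, fun l hl => ?_, ?_⟩
  · rcases Nat.eq_zero_or_pos R with rfl | hR
    · simp [qh]
    · rw [qh, if_pos hR]; exact (g (Nat.zero_le R)).1
  · rw [qh, if_pos hl, qh]
    split_ifs with h1
    · exact (g hl.le).2.2 hl
    · simpa using (g hl.le).2.1
  · simp [qh]

/-- a finite path extended to all levels -/
def extS {r : ℕ} (s : Fin (r + 1) → ℝ) (l : ℕ) : ℝ := s ⟨min l r, by omega⟩

lemma extS_spec {r : ℕ} {s : Fin (r + 1) → ℝ} (hs : Monotone s) (h0 : ∀ l, 0 ≤ s l) :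
    Prof (r + 1) (extS s) (s (Fin.last r)) ∧ (fun l : Fin (r + 1) => extS s l) = s := by
  refine ⟨⟨h0 _, fun l _ => hs (show min l r ≤ min (l + 1) r by omega), hs (Fin.le_last _)⟩,
    funext fun l => congrArg s (Fin.ext ?_)⟩
  simp only
  omega

end Vale.Agent.P157.Full
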