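import Vale.Agent.P157.Full.PhiTaylor

/-! The nested functional falls when the profile rises against every increasing nonnegative test. -/

open Real Finset Filter
open scoped Topology
open Vale.Agent.P168.MP (lin)
open Vale.Agent.P157.Par

namespace Vale.Agent.P157.Full

variable {f f1 f2 f3 : ℝ → ℝ} {B D V : ℝ}

/-- domination up to `c` against increasing tests with values in `[0, D ^ 2]` -/
theorem phi_slack (hS : Sm f f1 f2 f3 B D) {R : ℕ} (hR : 1 ≤ R) {q q' : ℕ → ℝ} (hq : Prof R q V)
    (hq' : Prof R q' V) (htop : q R = q' R) {c : ℝ}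
    (hpos : ∀ k : ℕ → ℝ, (∀ l, 0 ≤ k l ∧ k l ≤ D ^ 2) → Monotone k → -c ≤ ∑ l ∈ range R, k l * (q' l - q l)) :
    Par.Phi (fun y => exp (f y)) R (lin R) q' ≤ Par.Phi (fun y => exp (f y)) R (lin R) q + c / (2 * R) := by
  obtain ⟨K, hK, h⟩ := phi_taylor hS V
  set P := fun x : ℕ → ℝ => Par.Phi (fun y => exp (f y)) R (lin R) x
  set Δ := fun l => q' l - q l
  set S := (∑ j ∈ range R, |Δ j|) / R
  set C := K / R * ∑ l ∈ range R, |Δ l| * (|Δ l| + S)
  suffices hN : ∀ N : ℕ, 1 ≤ N → P q' ≤ P q + c / (2 * R) + C / N by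
    have h' : Tendsto (fun N : ℕ => P q + c / (2 * R) + C / N) atTop (𝓝 (P q + c / (2 * R))) := by
      simpa using tendsto_const_nhds.add (tendsto_const_div_atTop_nhds_zero_nat C)
    exact ge_of_tendsto h' (eventually_atTop.2 ⟨1, hN⟩)
  intro N hN
  have hN0 : (0 : ℝ) < N := by exact_mod_cast hN
  set p := fun (i : ℕ) (l : ℕ) => (1 - (i : ℝ) / N) * q l + (i : ℝ) / N * q' l
  have hp : ∀ i ≤ N, Prof R (p i) V := fun i hi => by
    have h1 : (0 : ℝ) ≤ (i : ℝ) / N := by positivity
    have h2 : (i : ℝ) / N ≤ 1 := div_le_one_of_le₀ (by exact_mod_cast hi) hN0.le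
    have h3 : (0 : ℝ) ≤ 1 - (i : ℝ) / N := by linarith
    exact ⟨add_nonneg (mul_nonneg h3 hq.zero) (mul_nonneg h1 hq'.zero),
      fun l hl => add_le_add (mul_le_mul_of_nonneg_left (hq.mono l hl) h3)
        (mul_le_mul_of_nonneg_left (hq'.mono l hl) h1),
      (add_le_add (mul_le_mul_of_nonneg_left hq.top h3) (mul_le_mul_of_nonneg_left hq'.top h1)).trans_eq (by ring)⟩
  have hstep : ∀ i, i < N → P (p (i + 1)) - P (p i) ≤ c / (2 * R) / N + C / (N : ℝ) ^ 2 := fun i hi => by
    have ht : p i R = p (i + 1) R := by simp only [p, htop]; ring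
    have hd : ∀ l, p (i + 1) l - p i l = Δ l / N := fun l => by simp only [p, Δ]; push_cast; ring
    have hb := h R _ _ hR (hp i hi.le) (hp (i + 1) hi) ht
    simp only [hd, abs_div, Nat.abs_cast, ← sum_div] at hb
    have hsum : -c / N ≤ ∑ l ∈ range R, Gamma (fun y => exp (f y)) f1 R (lin R) (p i) l * (Δ l / N) := by
      have hg := fun {l} (hl : l ≤ R) => gamma_mono (adm_exp hS) (ex_lin R) (hp i hi.le) hS.sd.cont1 hS.b1 hl
      have := hpos (fun l => Gamma (fun y => exp (f y)) f1 R (lin R) (p i) (min l R))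
        (fun l => ⟨(hg (min_le_right l R)).1, (hg (min_le_right l R)).2.1⟩) (monotone_nat_of_le_succ fun l => by
          rcases Nat.lt_or_ge l R with hl | hl
          · rw [min_eq_left hl.le, min_eq_left hl]; exact (hg hl.le).2.2 hl
          · rw [min_eq_right hl, min_eq_right (by omega)])
      rw [sum_congr rfl fun l hl => by rw [min_eq_left (mem_range.1 hl).le]] at this
      simpa only [mul_div_assoc', ← sum_div] using div_le_div_of_nonneg_right this hN0.le
    have e : K / R * ∑ l ∈ range R, |Δ l| / N * (|Δ l| / N + (∑ j ∈ range R, |Δ j|) / N / R) = C / (N : ℝ) ^ 2 := by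
      simp only [C, S, mul_sum, sum_div]
      refine sum_congr rfl fun l _ => ?_
      simp only [← sum_div]
      field_simp
    rw [e] at hb
    have := (abs_le.1 hb).2
    have h3 := mul_le_mul_of_nonneg_left hsum (show (0 : ℝ) ≤ 1 / (2 * R) by positivity)
    rw [show 1 / (2 * (R : ℝ)) * (-c / N) = -(c / (2 * R) / N) by ring] at h3
    simp only [P]
    linarith
  have htel := sum_le_sum fun i (hi : i ∈ range N) => hstep i (mem_range.1 hi)
  rw [sum_range_sub (fun i => P (p i)), sum_const, card_range, nsmul_eq_mul] at htel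
  have e0 : p 0 = q := by funext l; simp [p]
  have eN : p N = q' := by funext l; simp [p, div_self hN0.ne']
  rw [e0, eN, show (N : ℝ) * (c / (2 * R) / N + C / (N : ℝ) ^ 2) = c / (2 * R) + C / N by field_simp] at htel
  linarith

/-- `q'` dominates `q` against increasing nonnegative tests, hence has the smaller value -/
theorem phi_mono (hS : Sm f f1 f2 f3 B D) {R : ℕ} (hR : 1 ≤ R) {q q' : ℕ → ℝ} (hq : Prof R q V)
    (hq' : Prof R q' V) (htop : q R = q' R)
    (hpos : ∀ k : ℕ → ℝ, (∀ l, 0 ≤ k l) → Monotone k → 0 ≤ ∑ l ∈ range R, k l * (q' l - q l)) :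
    Par.Phi (fun y => exp (f y)) R (lin R) q' ≤ Par.Phi (fun y => exp (f y)) R (lin R) q := by
  simpa using phi_slack hS hR hq hq' htop (c := 0) fun k hk hm => by simpa using hpos k (fun l => (hk l).1) hm

end Vale.Agent.P157.Full
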