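import Vale.Agent.P157.Full.SiteMono
import Vale.Agent.P157.Full.PhiTaylor

/-! The site functional `psi` of a field path. At the overlaps of a path `s` the supremum over all paths of
`psi + <·, overlaps>/2` is attained at `s`: no concavity is used, only the monotonicity of the overlaps. -/

open MeasureTheory ProbabilityTheory Real Filter Set Finset
open scoped Topology
open Vale.Agent.P168.MP (lin)
open Vale.Agent.P157.Par (Ex ex_lin Prof Vn Sm sm_logcosh cosh_eq_exp Phi_lip gamma_mono adm_exp)

namespace Vale.Agent.P157.Full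

variable {R : ℕ} {μ h h' q s : ℕ → ℝ} {V W : ℝ}

/-- the site functional; it only depends on the levels below `R` -/
noncomputable def psi (R : ℕ) (h : ℕ → ℝ) : ℝ := Par.Phi cosh R (lin R) h - h R / 2

lemma lin_top (hR : 1 ≤ R) : lin R R = 1 := by
  simp [Vale.Agent.P168.MP.lin, div_self (show (R : ℝ) ≠ 0 by positivity)]

/-! ### the top level is a dummy -/

lemma psi_congr (hR : 1 ≤ R) (heq : ∀ l < R, h' l = h l) (h1 : h (R - 1) ≤ h R) (h2 : h (R - 1) ≤ h' R) :
    psi R h' = psi R h := by
  obtain ⟨r, rfl⟩ : ∃ r, R = r + 1 := ⟨R - 1, by omega⟩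
  rw [Nat.add_sub_cancel] at h1 h2
  have er := heq r (by omega)
  rw [psi, psi, Par.Br.phi_cosh (by rwa [er]) (ex_lin _).pos (lin_top hR),
    Par.Br.phi_cosh h1 (ex_lin _).pos (lin_top hR), er,
    show (fun l : Fin (r + 1) => h' l) = fun l : Fin (r + 1) => h l from funext fun l => heq _ l.isLt]
  ring

lemma sV_smul {c m a : ℝ} {X : ℝ → ℝ} (hc : 0 < c) (hX : ∀ y, 0 < X y) (hm : 0 < m) :
    sV m a (fun y => c * X y) = fun y => c * sV m a X y := by
  funext y
  simp only [sV, mul_rpow hc.le (hX _).le, integral_const_mul]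
  rw [mul_rpow (rpow_nonneg hc.le _) (integral_nonneg fun z => rpow_nonneg (hX _).le _), one_div,
    rpow_rpow_inv hc.le hm.ne']

lemma sF_smul {c m a : ℝ} {X F : ℝ → ℝ} (hc : 0 < c) (hX : ∀ y, 0 < X y) :
    sF m a (fun y => c * X y) F = sF m a X F := by
  funext y
  simp only [sF, mul_rpow hc.le (hX _).le, mul_assoc, integral_const_mul]
  rw [mul_div_mul_left _ _ (rpow_pos_of_pos hc m).ne']

lemma sV_cosh {a : ℝ} (ha : 0 ≤ a) : sV 1 a cosh = fun y => exp (a / 2) * cosh y := by
  funext y
  simp only [sV, rpow_one, div_one]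
  exact Par.Br.smooth_cosh ha y

lemma sF_cosh {a : ℝ} (ha : 0 ≤ a) : sF 1 a cosh tanh = tanh := by
  funext y
  have h1 := good_cosh.hasDeriv_sV one_pos le_rfl a y
  rw [sV_cosh ha] at h1
  have e := h1.unique ((hasDerivAt_cosh y).const_mul (exp (a / 2)))
  rw [tanh_eq_sinh_div_cosh, eq_div_iff (cosh_pos y).ne']
  exact mul_left_cancel₀ (exp_pos (a / 2)).ne' (by linarith)

lemma chain_top (hm : Ex R μ) (htop : μ R = 1) (heq : ∀ l < R, h' l = h l) (h1 : h (R - 1) ≤ h R)
    (h2 : h (R - 1) ≤ h' R) : ∃ c : ℝ, 0 < c ∧ ∀ k, 1 ≤ k → k ≤ R →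
      Vn cosh R μ h' k = (fun y => c * Vn cosh R μ h k y) ∧ Mg R μ h' k = Mg R μ h k := by
  refine ⟨exp ((h' R - h R) / 2), exp_pos _, fun k hk => ?_⟩
  induction k, hk using Nat.le_induction with
  | base =>
    intro hR
    rw [Vn_succ, Vn_succ, Mg_succ, Mg_succ, Nat.sub_zero, Nat.zero_add, htop, heq (R - 1) (by omega),
      show Vn cosh R μ h' 0 = cosh from rfl, show Vn cosh R μ h 0 = cosh from rfl,
      show Mg R μ h' 0 = tanh from rfl, show Mg R μ h 0 = tanh from rfl, sV_cosh (sub_nonneg.2 h2),
      sV_cosh (sub_nonneg.2 h1), sF_cosh (sub_nonneg.2 h2), sF_cosh (sub_nonneg.2 h1)]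
    refine ⟨funext fun y => ?_, rfl⟩
    rw [← mul_assoc, ← exp_add]
    ring_nf
  | succ k hk ih =>
    intro hkR
    obtain ⟨e1, e2⟩ := ih (by omega)
    have hp := (good_chain hm h k (by omega)).1.pos
    have hmk := (hm.mem (show k < R by omega)).1
    rw [Vn_succ, Vn_succ, Mg_succ, Mg_succ, e1, e2, heq _ (by omega), heq _ (by omega),
      sV_smul (exp_pos _) hp hmk, sF_smul (exp_pos _) hp]
    exact ⟨rfl, rfl⟩

lemma rs_congr (hm : Ex R μ) (htop : μ R = 1) (heq : ∀ l < R, h' l = h l) (h1 : h (R - 1) ≤ h R)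
    (h2 : h (R - 1) ≤ h' R) {l : ℕ} (hl : l < R) : rs R μ h' l = rs R μ h l := by
  obtain ⟨c, hc, hch⟩ := chain_top hm htop heq h1 h2
  have key : ∀ i j, 1 ≤ i → i + j ≤ R → Ob R μ h' i j = Ob R μ h i j := by
    intro i j hi
    induction j with
    | zero =>
      intro hij
      show (fun y => Mg R μ h' i y ^ 2) = fun y => Mg R μ h i y ^ 2
      rw [(hch i hi (by omega)).2]
    | succ j ih =>
      intro hij
      rw [Ob_succ, Ob_succ, ih (by omega), (hch (i + j) (by omega) (by omega)).1, heq _ (by omega),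
        heq _ (by omega), sF_smul hc (good_chain hm h (i + j) (by omega)).1.pos]
  rw [rs_eq hl.le, rs_eq hl.le, key (R - l) l (by omega) (by omega), heq 0 (by omega)]

/-! ### monotone comparisons -/

lemma Prof.le {q : ℕ → ℝ} (hq : Prof R q V) : ∀ {i j}, i ≤ j → j ≤ R → q i ≤ q j := by
  intro i j hij
  induction j, hij using Nat.le_induction with
  | base => exact fun _ => le_rfl
  | succ j hj ih => exact fun hjR => (ih (by omega)).trans (hq.mono j (by omega))

/-- a path above another one, equal at level `b`, has a smaller overlap there -/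
theorem rs_le_of_le (hR : 1 ≤ R) (hh : Prof R h V) (hh' : Prof R h' W) (hle : ∀ l < R, h l ≤ h' l)
    {b : ℕ} (hb : b < R) (heq : h' b = h b) : rs R (lin R) h' b ≤ rs R (lin R) h b := by
  set T := max (h R) (h' R)
  set G := fun k l => if R ≤ l then T else if k ≤ l then h' l else h l with hG
  have hT1 : ∀ l ≤ R, h l ≤ T := fun l hl => (Prof.le hh hl le_rfl).trans (le_max_left _ _)
  have hT2 : ∀ l ≤ R, h' l ≤ T := fun l hl => (Prof.le hh' hl le_rfl).trans (le_max_right _ _)
  have hP : ∀ k, Prof R (G k) T := fun k => by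
    refine ⟨?_, fun l hl => ?_, by simp [hG]⟩
    · simp only [hG, if_neg (show ¬R ≤ 0 by omega)]
      split_ifs
      exacts [hh'.zero, hh.zero]
    · simp only [hG, if_neg (show ¬R ≤ l by omega)]
      split_ifs <;> first
        | exact hT2 _ hl.le
        | exact hT1 _ hl.le
        | exact hh'.mono l hl
        | exact hh.mono l hl
        | exact (hh.mono l hl).trans (hle _ (by omega))
        | omega
  have hstep : ∀ k, k < R → rs R (lin R) (G k) b ≤ rs R (lin R) (G (k + 1)) b := fun k hk => by
    rcases eq_or_ne k b with rfl | hkb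
    · rw [show G k = G (k + 1) from funext fun l => by
        simp only [hG]
        rcases eq_or_ne l k with rfl | hl
        · simp [show ¬R ≤ l by omega, heq]
        · simp only [show (k ≤ l) = (k + 1 ≤ l) by rw [eq_iff_iff]; omega]]
    · refine rs_antitone (ex_lin R) (hP (k + 1)) (hP k) hk (fun l _ hl => ?_) ?_ hb hkb.symm
      · simp only [hG, show (k ≤ l) = (k + 1 ≤ l) by rw [eq_iff_iff]; omega]
      · simp [hG, show ¬R ≤ k by omega, hle k hk]
  have hmain : ∀ j ≤ R, rs R (lin R) (G (R - j)) b ≤ rs R (lin R) (G R) b := by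
    intro j
    induction j with
    | zero => exact fun _ => le_rfl
    | succ j ih =>
      intro hj
      refine le_trans ?_ (ih (by omega))
      rw [show R - j = R - (j + 1) + 1 by omega]
      exact hstep _ (by omega)
  have e0 := hmain R le_rfl
  rw [Nat.sub_self] at e0
  have a1 : ∀ l < R, h' l = G 0 l := fun l hl => by simp [hG, show ¬R ≤ l by omega]
  have a2 : ∀ l < R, h l = G R l := fun l hl => by simp [hG, show ¬R ≤ l by omega]
  have b1 : G 0 (R - 1) ≤ h' R := by rw [← a1 _ (by omega)]; exact Prof.le hh' (by omega) le_rfl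
  have b2 : G R (R - 1) ≤ h R := by rw [← a2 _ (by omega)]; exact Prof.le hh (by omega) le_rfl
  rw [rs_congr (ex_lin R) (lin_top hR) a1 (Prof.le (hP 0) (by omega) le_rfl) b1 hb,
    rs_congr (ex_lin R) (lin_top hR) a2 (Prof.le (hP R) (by omega) le_rfl) b2 hb]
  exact e0

lemma rs_nonneg (hh : Prof R h V) {l : ℕ} (hl : l ≤ R) : 0 ≤ rs R (lin R) h l := by
  have := (gamma_mono (adm_exp sm_logcosh) (ex_lin R) hh sm_logcosh.sd.cont1 sm_logcosh.b1 hl).1
  rw [cosh_eq_exp, ← show tanh = fun x => sinh x / cosh x from funext tanh_eq_sinh_div_cosh] at this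
  exact this

lemma rs_mono (hh : Prof R h V) {l : ℕ} (hl : l < R) : rs R (lin R) h l ≤ rs R (lin R) h (l + 1) := by
  have := (gamma_mono (adm_exp sm_logcosh) (ex_lin R) hh sm_logcosh.sd.cont1 sm_logcosh.b1 hl.le).2.2 hl
  rw [cosh_eq_exp, ← show tanh = fun x => sinh x / cosh x from funext tanh_eq_sinh_div_cosh] at this
  exact this

lemma rs_le_one (hm : Ex R μ) (h : ℕ → ℝ) {l : ℕ} (hl : l ≤ R) : rs R μ h l ≤ 1 := by
  rw [rs_eq hl]
  simpa using integral_mono (int_ob hm h hl (√(h 0))) (integrable_const (1 : ℝ)) fun z =>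
    (le_abs_self _).trans ((ob_spec hm h _ l (by omega)).2.1 _)

lemma rs_lt_one (hh : Prof R h V) {l : ℕ} (hl : l ≤ R) : rs R (lin R) h l < 1 :=
  (rs_shift (ex_lin R) one_pos hh hl).trans_le (rs_le_one (ex_lin R) _ hl)

/-! ### first order expansion -/

lemma psi_taylor (V : ℝ) : ∃ K : ℝ, 0 ≤ K ∧ ∀ (R : ℕ) (h h' : ℕ → ℝ), 1 ≤ R → Prof R h V → Prof R h' V →
    h R = h' R → |psi R h' - psi R h + 1 / (2 * R) * ∑ l ∈ range R, rs R (lin R) h l * (h' l - h l)| ≤
      K / R * ∑ l ∈ range R, |h' l - h l| * (|h' l - h l| + (∑ j ∈ range R, |h' j - h j|) / R) := by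
  obtain ⟨K, hK, hb⟩ := phi_taylor sm_logcosh V
  refine ⟨K, hK, fun R h h' hR hh hh' ht => ?_⟩
  have := hb R h h' hR hh hh' ht
  rw [cosh_eq_exp, ← show tanh = fun x => sinh x / cosh x from funext tanh_eq_sinh_div_cosh] at this
  rwa [psi, psi, show Par.Phi cosh R (lin R) h' - h' R / 2 - (Par.Phi cosh R (lin R) h - h R / 2) =
    Par.Phi cosh R (lin R) h' - Par.Phi cosh R (lin R) h by rw [ht]; ring]

/-! ### coercivity -/

/-- `E|g|` -/
noncomputable def absMean : ℝ := ∫ z, |z| ∂gaussianReal 0 1

lemma Good.sV_bound {X M : ℝ → ℝ} (g : Good X M) {m a T : ℝ} (h0 : 0 < m) (h1 : m ≤ 1) (ha : 0 ≤ a)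
    (hT : ∀ y, X y ≤ exp (|y| + T)) (y : ℝ) :
    sV m a X y ≤ exp (|y| + (T + log 2 / m + m * a / 2)) := by
  have hI : ∫ z, X (y + √a * z) ^ m ∂gaussianReal 0 1 ≤ exp (m * T) * 2 * (exp (m ^ 2 * a / 2) * exp (m * |y|)) := by
    have hv : 0 ≤ m ^ 2 * a := by positivity
    have he := Par.Br.smooth_cosh hv (m * y)
    have hint : Integrable (fun z => cosh (m * y + √(m ^ 2 * a) * z)) (gaussianReal 0 1) :=
      ((good_cosh.eg_rpow zero_le_one le_rfl).int (√(m ^ 2 * a)) (m * y)).congr
        (Eventually.of_forall fun z => rpow_one _)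
    refine (integral_mono ((g.eg_rpow h0.le h1).int _ y) (hint.const_mul (exp (m * T) * 2)) fun z => ?_).trans ?_
    · refine (rpow_le_rpow (g.pos _).le (hT _) h0.le).trans ?_
      rw [← exp_mul, show (|y + √a * z| + T) * m = m * T + |m * y + √(m ^ 2 * a) * z| by
        rw [sqrt_mul (sq_nonneg m), sqrt_sq h0.le, show m * y + m * √a * z = m * (y + √a * z) by ring, abs_mul,
          abs_of_pos h0]; ring, exp_add, mul_assoc]
      refine mul_le_mul_of_nonneg_left ?_ (exp_pos _).le
      set u := m * y + √(m ^ 2 * a) * z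
      rw [cosh_eq]
      rcases abs_choice u with e | e <;> rw [e] <;> linarith [exp_pos u, exp_pos (-u)]
    · rw [integral_const_mul, he]
      refine mul_le_mul_of_nonneg_left (mul_le_mul_of_nonneg_left ?_ (exp_pos _).le) (by positivity)
      rw [show m * |y| = |m * y| by rw [abs_mul, abs_of_pos h0], cosh_eq]
      linarith [exp_le_exp.2 (le_abs_self (m * y)), exp_le_exp.2 (neg_le_abs (m * y))]
  refine (rpow_le_rpow (integral_nonneg fun z => rpow_nonneg (g.pos _).le _) hI (by positivity)).trans (le_of_eq ?_)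
  rw [show (exp (m * T) * 2 * (exp (m ^ 2 * a / 2) * exp (m * |y|))) =
    exp (m * T + log 2 + (m ^ 2 * a / 2 + m * |y|)) by simp only [exp_add, exp_log two_pos], ← exp_mul]
  congr 1
  field_simp
  ring

lemma Vn_bound (hh : Prof R h V) : ∀ k ≤ R, ∀ y, Vn cosh R (lin R) h k y ≤ exp (|y| + (k * R * log 2 +
    (R * h R - ∑ i ∈ range k, h (R - 1 - i) - ((R : ℝ) - k) * h (R - k)) / (2 * R)))
  | 0, _, y => by
    simp only [Vn, Nat.cast_zero, zero_mul, sum_range_zero, sub_zero, Nat.sub_zero, sub_self, zero_div, add_zero]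
    rw [cosh_eq]
    linarith [exp_le_exp.2 (le_abs_self y), exp_le_exp.2 (neg_le_abs y)]
  | k + 1, hk, y => by
    have hR0 : (0 : ℝ) < R := Nat.cast_pos.2 (by omega)
    have hm := (ex_lin R).mem (show k < R by omega)
    have g := (good_chain (ex_lin R) h k (by omega)).1
    have ha : 0 ≤ h (R - k) - h (R - (k + 1)) := sub_nonneg.2 (Prof.le hh (by omega) (by omega))
    rw [Vn_succ]
    refine (g.sV_bound hm.1 hm.2 ha (Vn_bound hh k (by omega)) y).trans (exp_le_exp.2 ?_)
    have hmv : lin R (R - k) = ((R : ℝ) - k) / R := by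
      simp only [Vale.Agent.P168.MP.lin, if_pos (Nat.sub_le R k), Nat.cast_sub (show k ≤ R by omega)]
    have hlog : log 2 / lin R (R - k) ≤ R * log 2 := by
      rw [div_le_iff₀ hm.1, hmv]
      have : (1 : ℝ) ≤ R - k := by
        rw [le_sub_iff_add_le]; exact_mod_cast (show 1 + k ≤ R by omega)
      rw [show (R : ℝ) * log 2 * (((R : ℝ) - k) / R) = log 2 * ((R : ℝ) - k) by field_simp]
      nlinarith [log_pos (show (1 : ℝ) < 2 by norm_num)]
    rw [sum_range_succ, show R - 1 - k = R - (k + 1) by omega]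
    push_cast
    rw [show lin R (R - k) * (h (R - k) - h (R - (k + 1))) / 2 =
      ((R : ℝ) - k) * (h (R - k) - h (R - (k + 1))) / (2 * R) by rw [hmv]; field_simp]
    have e : ((R : ℝ) * h R - ∑ i ∈ range k, h (R - 1 - i) - ((R : ℝ) - k) * h (R - k)) / (2 * R) +
        ((R : ℝ) - k) * (h (R - k) - h (R - (k + 1))) / (2 * R) =
        ((R : ℝ) * h R - (∑ i ∈ range k, h (R - 1 - i) + h (R - (k + 1))) -
          ((R : ℝ) - (k + 1)) * h (R - (k + 1))) / (2 * R) := by field_simp; ring
    linarith

theorem psi_le (hR : 1 ≤ R) (hh : Prof R h V) :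
    psi R h ≤ √(h 0) * absMean + R * R * log 2 - (∑ l ∈ range R, h l) / (2 * R) := by
  have hR0 : (0 : ℝ) < R := Nat.cast_pos.2 hR
  have hb := Vn_bound hh R le_rfl
  rw [sum_range_reflect (fun i => h i) R, sub_self, zero_mul, sub_zero] at hb
  set c := (R : ℝ) * R * log 2 + (R * h R - ∑ i ∈ range R, h i) / (2 * R)
  have g := (good_chain (ex_lin R) h R le_rfl).1
  have hi : Integrable (fun z => √(h 0) * |z| + c) (gaussianReal 0 1) :=
    ((memLp_one_iff_integrable.1 (memLp_id_gaussianReal 1)).abs.const_mul _).add (integrable_const _)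
  have hP : Par.Phi cosh R (lin R) h ≤ √(h 0) * absMean + c := by
    refine (integral_mono_of_nonneg (Eventually.of_forall fun z => log_nonneg (g.one _)) hi
      (Eventually.of_forall fun z => ?_)).trans_eq ?_
    · refine (log_le_log (g.pos _) (hb _)).trans_eq ?_
      rw [log_exp, abs_mul, abs_of_nonneg (sqrt_nonneg _)]
    · have i1 : Integrable (fun z => √(h 0) * |z|) (gaussianReal 0 1) :=
        (memLp_one_iff_integrable.1 (memLp_id_gaussianReal 1)).abs.const_mul _
      rw [integral_add i1 (integrable_const _), integral_const_mul, integral_const, probReal_univ, one_smul]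
      rfl
  rw [psi]
  refine (sub_le_sub_right hP _).trans (le_of_eq ?_)
  simp only [c]
  field_simp
  ring

/-! ### conjugacy -/

/-- extension of a finite path by a top value -/
def ext (R : ℕ) (T : ℝ) (x : Fin R → ℝ) (l : ℕ) : ℝ := if hl : l < R then x ⟨l, hl⟩ else T

/-- **the supremum at the overlaps of `s` is attained at `s`** -/
theorem psi_conj (hR : 1 ≤ R) (hs : Prof R s V) (hh : Prof R h W) :
    psi R h + (∑ l ∈ range R, h l * rs R (lin R) s l) / (2 * R) ≤
      psi R s + (∑ l ∈ range R, s l * rs R (lin R) s l) / (2 * R) := by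
  set q := rs R (lin R) s with hq
  set J := fun x : ℕ → ℝ => psi R x + (∑ l ∈ range R, x l * q l) / (2 * R) with hJ
  change J h ≤ J s
  have hR0 : (0 : ℝ) < R := Nat.cast_pos.2 hR
  set η := (1 - q (R - 1)) / (2 * R) with hη
  have hη0 : 0 < η := div_pos (sub_pos.2 (rs_lt_one hs (by omega))) (by positivity)
  have hcoer : ∀ (x : ℕ → ℝ) (U : ℝ), Prof R x U → J x ≤ √(x (R - 1)) * absMean + R * R * log 2 - η * x (R - 1) := by
    intro x U hx
    have hx0 : ∀ l < R, 0 ≤ x l := fun l hl => hx.zero.trans (Prof.le hx (Nat.zero_le l) hl.le)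
    have h1 := psi_le hR hx
    have h2 : √(x 0) * absMean ≤ √(x (R - 1)) * absMean :=
      mul_le_mul_of_nonneg_right (sqrt_le_sqrt (Prof.le hx (by omega) (by omega)))
        (integral_nonneg fun z => abs_nonneg _)
    have h3 : (1 - q (R - 1)) * x (R - 1) ≤ ∑ l ∈ range R, (1 - q l) * x l :=
      single_le_sum (f := fun l => (1 - q l) * x l) (fun l hl => mul_nonneg (sub_nonneg.2
        (rs_le_one (ex_lin R) s (mem_range.1 hl).le)) (hx0 l (mem_range.1 hl))) (mem_range.2 (by omega))
    have h4 : η * x (R - 1) ≤ (∑ l ∈ range R, (1 - q l) * x l) / (2 * R) := by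
      rw [hη, div_mul_eq_mul_div]; exact div_le_div_of_nonneg_right h3 (by positivity)
    have h5 : (∑ l ∈ range R, (1 - q l) * x l) / (2 * R) =
        (∑ l ∈ range R, x l) / (2 * R) - (∑ l ∈ range R, x l * q l) / (2 * R) := by
      rw [← sub_div, ← sum_sub_distrib]; simp only [sub_mul, one_mul, mul_comm (q _)]
    simp only [hJ]
    linarith
  -- a large box
  set L := |J s| + |J h| + R * R * log 2 with hL
  set H := max (max (s (R - 1)) (h (R - 1))) ((2 * absMean / η + 1) ^ 2 + 2 * L / η + 1) + 1 with hH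
  have hbox : ∀ (x : ℕ → ℝ) (U : ℝ), Prof R x U → H - 1 ≤ x (R - 1) → J x < J s := by
    intro x U hx hxH
    have hA : 0 ≤ absMean := integral_nonneg fun z => abs_nonneg _
    set w := √(x (R - 1))
    have hxp : (2 * absMean / η + 1) ^ 2 + 2 * L / η + 1 ≤ x (R - 1) := le_trans (by simp [hH]) hxH
    have hLn : 0 ≤ L := by positivity
    have hw2 : w * w = x (R - 1) := Real.mul_self_sqrt (le_trans (by positivity) hxp)
    have hw : 2 * absMean / η ≤ w := by
      refine le_sqrt_of_sq_le (le_trans ?_ hxp)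
      have : 0 ≤ 2 * absMean / η := by positivity
      nlinarith [div_nonneg (mul_nonneg zero_le_two hLn) hη0.le]
    rw [div_le_iff₀ hη0] at hw
    have hl2 : 2 * L / η < x (R - 1) := by nlinarith [sq_nonneg (2 * absMean / η + 1)]
    rw [div_lt_iff₀ hη0] at hl2
    have := hcoer x U hx
    nlinarith [mul_le_mul_of_nonneg_left hw (sqrt_nonneg (x (R - 1))), neg_abs_le (J s), abs_nonneg (J h)]
  -- maximiser on the box
  set K := {x : Fin R → ℝ | Prof R (ext R H x) H} with hK
  have hcl : IsClosed K := by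
    have : K = ({x | 0 ≤ ext R H x 0} ∩ ⋂ l ∈ range R, {x | ext R H x l ≤ ext R H x (l + 1)}) := by
      ext x
      simp only [hK, Set.mem_ofPred_eq, mem_inter_iff, mem_iInter]
      exact ⟨fun hp => ⟨hp.zero, fun l hl => hp.mono l (mem_range.1 hl)⟩,
        fun ⟨a, b⟩ => ⟨a, fun l hl => b l (mem_range.2 hl), by simp [ext]⟩⟩
    rw [this]
    have hc : ∀ l, Continuous fun x : Fin R → ℝ => ext R H x l := fun l => by
      by_cases hl : l < R
      · simpa [ext, hl] using continuous_apply (⟨l, hl⟩ : Fin R)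
      · simpa [ext, hl] using continuous_const
    exact (isClosed_le continuous_const (hc 0)).inter
      (isClosed_biInter fun l _ => isClosed_le (hc l) (hc (l + 1)))
  have hcomp : IsCompact K := (isCompact_Icc (a := (fun _ => 0 : Fin R → ℝ)) (b := fun _ => H)).of_isClosed_subset
    hcl fun x (hx : Prof R (ext R H x) H) => ⟨fun i => by
      have := hx.zero.trans (Prof.le hx (Nat.zero_le (i : ℕ)) i.isLt.le); simpa [ext] using this, fun i => by
      have := (Prof.le hx i.isLt.le le_rfl); simpa [ext] using this⟩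
  have hext : ∀ (y : ℕ → ℝ) (U : ℝ), Prof R y U → y (R - 1) ≤ H →
      (fun i : Fin R => y i) ∈ K ∧ J (ext R H fun i => y i) = J y := by
    intro y U hy hyH
    have e : ∀ l < R, ext R H (fun i => y i) l = y l := fun l hl => by simp [ext, hl]
    refine ⟨⟨by rw [e 0 (by omega)]; exact hy.zero, fun l hl => ?_, by simp [ext]⟩, ?_⟩
    · rw [e l hl]
      by_cases hl' : l + 1 < R
      · rw [e _ hl']; exact hy.mono l hl
      · simp only [ext, dif_neg hl']
        exact (Prof.le hy (by omega) (by omega)).trans hyH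
    · simp only [hJ]
      rw [psi_congr hR e (Prof.le hy (by omega) le_rfl) (by simpa [ext] using hyH),
        sum_congr rfl fun l hl => by rw [e l (mem_range.1 hl)]]
  obtain ⟨KP, -, hKP⟩ := Phi_lip sm_logcosh H
  have hcont : ContinuousOn (fun x => J (ext R H x)) K := by
    simp only [hJ, psi]
    have hc : ∀ l, Continuous fun x : Fin R → ℝ => ext R H x l := fun l => by
      by_cases hl : l < R
      · simpa [ext, hl] using continuous_apply (⟨l, hl⟩ : Fin R)
      · simpa [ext, hl] using continuous_const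
    refine (ContinuousOn.sub (fun x hx => ?_) ((hc R).div_const _).continuousOn).add
      ((continuous_finsetSum _ fun l _ => (hc l).mul continuous_const).div_const _).continuousOn
    refine tendsto_iff_norm_sub_tendsto_zero.2 (squeeze_zero' (Eventually.of_forall fun _ => norm_nonneg _)
      (g := fun y => KP * ((∑ l ∈ range R, |ext R H y l - ext R H x l|) / R + |ext R H y R - ext R H x R|)) ?_ ?_)
    · filter_upwards [self_mem_nhdsWithin] with y hy
      have := (hKP R _ _ hR (show Prof R (ext R H y) H from hy) (show Prof R (ext R H x) H from hx)).1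
      rwa [cosh_eq_exp] at this
    · have : Continuous fun y : Fin R → ℝ =>
          KP * ((∑ l ∈ range R, |ext R H y l - ext R H x l|) / R + |ext R H y R - ext R H x R|) := by fun_prop
      simpa using (this.tendsto x).mono_left nhdsWithin_le_nhds
  have hsH : s (R - 1) ≤ H := by
    have h1 := (le_max_left (s (R - 1)) (h (R - 1))).trans
      (le_max_left _ ((2 * absMean / η + 1) ^ 2 + 2 * L / η + 1))
    linarith
  have hhH : h (R - 1) ≤ H := by
    have h1 := (le_max_right (s (R - 1)) (h (R - 1))).trans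
      (le_max_left _ ((2 * absMean / η + 1) ^ 2 + 2 * L / η + 1))
    linarith
  obtain ⟨x, hxK, hmax⟩ := hcomp.exists_isMaxOn ⟨_, (hext s V hs hsH).1⟩ hcont
  set X := ext R H x with hXd
  have hX : Prof R X H := hxK
  have hmax' : ∀ y, Prof R (ext R H y) H → J (ext R H y) ≤ J X := fun y hy => hmax hy
  have hXs : J s ≤ J X := by rw [← (hext s V hs hsH).2]; exact hmax' _ (hext s V hs hsH).1
  have hXH : X (R - 1) < H - 1 := lt_of_not_ge fun hc => (hbox X H hX hc).not_ge hXs
  -- first order conditions
  set g := fun j => ∑ l ∈ Finset.Ico j R, (rs R (lin R) X l - q l) with hg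
  obtain ⟨KT, hKT, hT⟩ := psi_taylor H
  have hvar : ∀ (j : ℕ) (σ ε₀ : ℝ), |σ| = 1 → 0 < ε₀ → (∀ ε, 0 < ε → ε ≤ ε₀ →
      Prof R (ext R H fun i => x i + σ * ε * if j ≤ (i : ℕ) then 1 else 0) H) → 0 ≤ σ * g j := by
    intro j σ ε₀ hσ hε₀ hfeas
    suffices hb : ∀ ε, 0 < ε → ε ≤ ε₀ → -(4 * R * KT) * ε ≤ σ * g j by
      by_contra hn
      push Not at hn
      have hK1 : 0 < 4 * (R : ℝ) * KT + 1 := by positivity
      have := hb (min ε₀ (-(σ * g j) / (4 * R * KT + 1))) (lt_min hε₀ (div_pos (by linarith) hK1)) (min_le_left _ _)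
      have h2 := min_le_right ε₀ (-(σ * g j) / (4 * R * KT + 1))
      rw [le_div_iff₀ hK1] at h2
      nlinarith [lt_min hε₀ (div_pos (show 0 < -(σ * g j) by linarith) hK1)]
    intro ε hε hε1
    set Y := ext R H fun i => x i + σ * ε * if j ≤ (i : ℕ) then 1 else 0 with hYd
    have hY : Prof R Y H := hfeas ε hε hε1
    have hd : ∀ l ∈ range R, Y l - X l = σ * ε * if j ≤ l then 1 else 0 := fun l hl => by
      simp [hYd, hXd, ext, mem_range.1 hl]
    have ht := hT R X Y hR hX hY (by simp [hYd, hXd, ext])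
    have habs : ∀ l ∈ range R, |Y l - X l| ≤ ε := fun l hl => by
      rw [hd l hl, abs_mul, abs_mul, hσ, abs_of_pos hε, one_mul]
      split_ifs <;> simp [hε.le]
    have hS : (∑ l ∈ range R, |Y l - X l|) / R ≤ ε := by
      rw [div_le_iff₀ hR0]
      exact (sum_le_card_nsmul _ _ _ habs).trans_eq (by rw [card_range, nsmul_eq_mul, mul_comm])
    have herr : ∑ l ∈ range R, |Y l - X l| * (|Y l - X l| + (∑ j ∈ range R, |Y j - X j|) / R) ≤ R * (ε * (2 * ε)) :=
      (sum_le_card_nsmul _ _ (ε * (2 * ε)) fun l hl => mul_le_mul (habs l hl) (by linarith [habs l hl])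
        (add_nonneg (abs_nonneg _) (by positivity)) hε.le).trans_eq (by rw [card_range, nsmul_eq_mul])
    have hle : J Y ≤ J X := hmax' _ hY
    have e1 : ∀ w : ℕ → ℝ, ∑ l ∈ range R, w l * (Y l - X l) = σ * ε * ∑ l ∈ Finset.Ico j R, w l := fun w => by
      rw [mul_sum, sum_congr rfl fun l hl => by rw [hd l hl]]
      rw [show Finset.Ico j R = (range R).filter (fun l => j ≤ l) by ext l; simp; omega, sum_filter]
      exact sum_congr rfl fun l _ => by split_ifs <;> ring
    have e2 : J Y - J X = psi R Y - psi R X + (∑ l ∈ range R, q l * (Y l - X l)) / (2 * R) := by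
      simp only [hJ]
      rw [sum_congr rfl fun l _ => show q l * (Y l - X l) = Y l * q l - X l * q l by ring, sum_sub_distrib, sub_div]
      ring
    have h1 := (abs_le.1 ht).1
    have h2 := mul_le_mul_of_nonneg_left herr (div_nonneg hKT hR0.le)
    rw [e1] at h1 e2
    rw [show KT / R * (R * (ε * (2 * ε))) = 2 * KT * ε ^ 2 by field_simp] at h2
    simp only [hg, sum_sub_distrib]
    set A := ∑ l ∈ Finset.Ico j R, rs R (lin R) X l
    set B := ∑ l ∈ Finset.Ico j R, q l
    have h3 : -(2 * KT * ε ^ 2) ≤ σ * ε * (A - B) / (2 * R) := by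
      have : σ * ε * (A - B) / (2 * R) = 1 / (2 * R) * (σ * ε * A) - (σ * ε * B) / (2 * R) := by ring
      linarith
    rw [le_div_iff₀ (by positivity)] at h3
    nlinarith
  have eX : ∀ i : Fin R, x i = X i := fun i => by simp [hXd, ext]
  have hup : ∀ j, 0 ≤ g j := fun j => by
    simpa using hvar j 1 1 abs_one one_pos fun ε hε hε1 => by
      refine ⟨?_, fun l hl => ?_, by simp [ext]⟩
      · simp only [ext, dif_pos (show 0 < R by omega), eX, one_mul]
        have := hX.zero
        split_ifs <;> linarith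
      · simp only [ext, dif_pos hl, eX, one_mul]
        have := hX.mono l hl
        by_cases hl' : l + 1 < R
        · simp only [dif_pos hl']
          split_ifs <;> first | linarith | omega
        · simp only [dif_neg hl']
          have := Prof.le hX (show l ≤ R - 1 by omega) (by omega)
          split_ifs <;> linarith
  have hdown : ∀ j < R, (0 < j → X (j - 1) < X j) → (j = 0 → 0 < X 0) → g j ≤ 0 := by
    intro j hj h1 h2
    set δ := if j = 0 then X 0 else X j - X (j - 1)
    have hδ : 0 < δ := by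
      simp only [δ]; split_ifs with h0
      · exact h2 h0
      · exact sub_pos.2 (h1 (by omega))
    have := hvar j (-1) δ (by simp) hδ fun ε hε hε1 => by
      refine ⟨?_, fun l hl => ?_, by simp [ext]⟩
      · simp only [ext, dif_pos (show 0 < R by omega), eX]
        have := hX.zero
        split_ifs with hj0
        · simp only [δ, if_pos (show j = 0 by omega)] at hε1; linarith
        · linarith
      · simp only [ext, dif_pos hl, eX]
        have := hX.mono l hl
        by_cases hl' : l + 1 < R
        · simp only [dif_pos hl']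
          split_ifs with a b
          all_goals first
            | linarith
            | omega
            | (simp only [δ, if_neg (show ¬j = 0 by omega), show j = l + 1 by omega, Nat.add_sub_cancel] at hε1; linarith)
        · simp only [dif_neg hl']
          have := Prof.le hX (show l ≤ R - 1 by omega) (by omega)
          split_ifs <;> linarith
    linarith
  have hgs : ∀ j < R, g j = rs R (lin R) X j - q j + g (j + 1) := fun j hj => by
    simp only [hg]; rw [sum_eq_sum_Ico_succ_bot hj]
  have hgR : g R = 0 := by simp [hg]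
  -- the maximiser is `s`
  have hXeq : ∀ l < R, X l = s l := by
    have hne : (range R).Nonempty := ⟨0, mem_range.2 (by omega)⟩
    set d := fun l => X l - s l
    have hup' : ∀ l < R, d l ≤ 0 := by
      obtain ⟨a₀, ha₀, hamax⟩ := exists_max_image (range R) d hne
      intro l hl
      by_contra hc
      push Not at hc
      have hPe : ∃ a, a < R ∧ ∀ l < R, d l ≤ d a := ⟨a₀, mem_range.1 ha₀, fun l hl => hamax l (mem_range.2 hl)⟩
      set a := Nat.find hPe with ha
      obtain ⟨haR, hamax'⟩ := Nat.find_spec hPe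
      have hca : 0 < d a := hc.trans_le (hamax' l hl)
      have hga : g a = 0 := le_antisymm (hdown a haR (fun ha0 => by
          have hlt : d (a - 1) < d a := lt_of_not_ge fun hge => Nat.find_min hPe (show a - 1 < a by omega)
            ⟨by omega, fun l hl => (hamax' l hl).trans hge⟩
          have hs1 := Prof.le hs (show a - 1 ≤ a by omega) haR.le
          simp only [d] at hlt
          linarith) fun h0 => by
            have := hs.zero
            simp only [d, h0] at hca
            linarith) (hup a)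
      have hra : rs R (lin R) X a ≤ q a := by have := hgs a haR; linarith [hup (a + 1)]
      have hsc : Prof R (fun i => s i + d a) (V + d a) := ⟨by linarith [hs.zero],
        fun l hl => by linarith [hs.mono l hl], by linarith [hs.top]⟩
      have := rs_le_of_le hR hX hsc (fun i hi => by have := hamax' i hi; simp only [d] at this ⊢; linarith) haR
        (by simp only [d]; ring)
      have := rs_shift (ex_lin R) hca hs haR.le
      linarith
    have hlo' : ∀ l < R, 0 ≤ d l := by
      obtain ⟨b₀, hb₀, hbmin⟩ := exists_min_image (range R) d hne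
      intro l hl
      by_contra hc
      push Not at hc
      classical
      set P := fun b => b < R ∧ ∀ l < R, d b ≤ d l
      have hP0 : P b₀ := ⟨mem_range.1 hb₀, fun l hl => hbmin l (mem_range.2 hl)⟩
      set b := Nat.findGreatest P R with hb
      obtain ⟨hbR, hbmin'⟩ : P b := Nat.findGreatest_spec (mem_range.1 hb₀).le hP0
      have hcb : d b < 0 := (hbmin' l hl).trans_lt hc
      have hgb : g (b + 1) = 0 := by
        rcases Nat.eq_or_lt_of_le (show b + 1 ≤ R by omega) with e | e
        · rw [e, hgR]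
        · refine le_antisymm (hdown (b + 1) e (fun _ => ?_) (by omega)) (hup _)
          have hlt : d b < d (b + 1) := lt_of_not_ge fun hge => Nat.findGreatest_is_greatest
            (show b < b + 1 by omega) (show b + 1 ≤ R by omega) ⟨e, fun l hl => hge.trans (hbmin' l hl)⟩
          have := hs.mono b (by omega)
          rw [Nat.add_sub_cancel]
          simp only [d] at hlt
          linarith
      have hrb : q b ≤ rs R (lin R) X b := by have := hgs b hbR; linarith [hup b]
      have hXc : Prof R (fun i => X i + -d b) (H + -d b) := ⟨by linarith [hX.zero],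
        fun l hl => by linarith [hX.mono l hl], by linarith [hX.top]⟩
      have := rs_le_of_le hR hs hXc (fun i hi => by have := hbmin' i hi; simp only [d] at this ⊢; linarith) hbR
        (by simp only [d]; ring)
      have := rs_shift (ex_lin R) (neg_pos.2 hcb) hX hbR.le
      linarith
    intro l hl
    have := hup' l hl
    have := hlo' l hl
    simp only [d] at *
    linarith
  have eJ : J X = J s := by
    simp only [hJ]
    rw [psi_congr hR hXeq (Prof.le hs (by omega) le_rfl) (by simpa [hXd, ext] using hsH),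
      sum_congr rfl fun l hl => by rw [hXeq l (mem_range.1 hl)]]
  rw [← eJ, ← (hext h W hh hhH).2]
  exact hmax' _ (hext h W hh hhH).1

end Vale.Agent.P157.Full
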