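import Vale.Agent.P157.Full.Defs
import Vale.Agent.P157.Par.Upper
import Vale.Agent.P168.MP.GridConc

/-! Objects of the envelope upper bound: the perturbation over arbitrary configuration marks, and the
system of patterns with site fields whose amplitudes are constant on blocks of levels. -/

open MeasureTheory ProbabilityTheory Real Finset
open Vale.Agent.P150 (gauss dot)
open Vale.Agent.P168.MP (lin logZ0 Batch gain1 Mark ET avg allBatch BIdx gu)

namespace Vale.Agent.P157.Full

variable {C : Type} {N S : ℕ} [NeZero N] {ι : Type} {β : ι → Batch}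

/-- a mark: a configuration mark and the marks of the perturbation -/
abbrev MarkX (C : Type) (N S : ℕ) {ι : Type} (β : ι → Batch) : Type :=
  C × ((i : ι × Fin S) → Vale.Agent.P168.MP.Site N (β i.1).k)

/-- the mark of the plain perturbed system read from a mark -/
def plain (cf : C → Fin N → Bool) (o : MarkX C N S β) : Mark N S β := (cf o.1, o.2)

/-- the configuration of a path -/
def spinX (cf : C → Fin N → Bool) (R : ℕ) (p : List (MarkX C N S β)) : Fin N → Bool :=
  Vale.Agent.P168.MP.spinAt R (p.map (plain cf))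

/-- the perturbed weight of a weight of configuration paths -/
noncomputable def pwX [Fintype ι] (cf : C → Fin N → Bool) (R : ℕ) (W : List C → ℝ) (h u : ι → ℝ)
    (p : List (MarkX C N S β)) : ℝ :=
  W (p.map Prod.fst) * exp (∑ i : ι × Fin S, gain1 R h u (p.map (plain cf)) i)

/-- the configuration of a site mark -/
def cfg {N n : ℕ} (o : Par.Site N (n + 1)) : Fin N → Bool := fun i => (o i).1

/-- the indicator profile of the levels above `J` -/
def step (J : ℕ) : ℕ → ℝ := fun l => if J ≤ l then 1 else 0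

/-- coefficients of the field of block `j` -/
noncomputable def blockVec {n : ℕ} (R k j : ℕ) (p : List (Par.Site N (n + 1))) :
    Fin N × Par.Ix R n → ℝ :=
  Par.siteVec R (fun x => Par.node R (step (j * k)) x) p

/-- coefficients of the whole site field, amplitudes `lam` on `R₀` blocks of length `k` -/
noncomputable def lamVec {n : ℕ} (R₀ k : ℕ) (lam : Fin R₀ → ℝ) (p : List (Par.Site N (n + 1))) :
    Fin N × Par.Ix (k * R₀) n → ℝ :=
  fun x => ∑ j, lam j * blockVec (k * R₀) k j p x

/-- the covariances of the site field at the levels -/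
noncomputable def lamPath {R₀ : ℕ} (lam : Fin R₀ → ℝ) (l : ℕ) : ℝ :=
  ∑ j : Fin R₀, if (j : ℕ) ≤ l then lam j ^ 2 else 0

/-- patterns and site fields -/
noncomputable def fieldW {n M : ℕ} (f : ℝ → ℝ) (R₀ k : ℕ) (lam : Fin R₀ → ℝ) (g : Fin M → Fin N → ℝ)
    (z : Fin N × Par.Ix (k * R₀) n → ℝ) (p : List (Par.Site N (n + 1))) : ℝ :=
  Par.base f (k * R₀) g p * exp (dot (lamVec R₀ k lam p) z)

/-- the perturbed weight with patterns and site fields -/
noncomputable def wX [Fintype ι] {n M : ℕ} (f : ℝ → ℝ) (R₀ k S : ℕ) (β : ι → Batch) (h u : ι → ℝ)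
    (lam : Fin R₀ → ℝ) (g : Fin M → Fin N → ℝ) (z : Fin N × Par.Ix (k * R₀) n → ℝ) :
    List (MarkX (Par.Site N (n + 1)) N S β) → ℝ :=
  pwX cfg (k * R₀) (fieldW f R₀ k lam g z) h u

/-- the random log partition function -/
noncomputable def FX [Fintype ι] [DecidableEq ι] {n M : ℕ} (f : ℝ → ℝ) (R₀ k S : ℕ) (β : ι → Batch) (h u : ι → ℝ)
    (lam : Fin R₀ → ℝ) (g : Fin M → Fin N → ℝ) (z : Fin N × Par.Ix (k * R₀) n → ℝ) : ℝ :=
  logZ0 (k * R₀) (lin (k * R₀)) (wX f R₀ k S β h u lam g z)

/-- the random field energy of block `j` -/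
noncomputable def HX [Fintype ι] [DecidableEq ι] {n M : ℕ} (f : ℝ → ℝ) (R₀ k S : ℕ) (β : ι → Batch) (h u : ι → ℝ)
    (lam : Fin R₀ → ℝ) (g : Fin M → Fin N → ℝ) (z : Fin N × Par.Ix (k * R₀) n → ℝ) (j : Fin R₀) : ℝ :=
  ET (k * R₀) (lin (k * R₀)) (wX f R₀ k S β h u lam g z) [(0, 0)]
    fun ps => dot (blockVec (k * R₀) k j ((ps.getD 0 []).map Prod.fst)) z

/-- the random mean overlap -/
noncomputable def rX [Fintype ι] [DecidableEq ι] {n M : ℕ} (f : ℝ → ℝ) (R₀ k S : ℕ) (β : ι → Batch) (h u : ι → ℝ)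
    (lam : Fin R₀ → ℝ) (g : Fin M → Fin N → ℝ) (z : Fin N × Par.Ix (k * R₀) n → ℝ) : ℕ → ℝ :=
  Par.qlev (k * R₀) (wX f R₀ k S β h u lam g z) (spinX cfg (k * R₀))

/-- the deterministic mean of a functional of patterns and fields -/
noncomputable def meanX {n M : ℕ} {R : ℕ}
    (F : (Fin M → Fin N → ℝ) → (Fin N × Par.Ix R n → ℝ) → ℝ) : ℝ :=
  ∫ g, ∫ z, F g z ∂gauss (Fin N × Par.Ix R n) ∂Par.pats N M

/-- tail of a profile from the level `J`, averaged over all levels -/
noncomputable def tailAvg (R J : ℕ) (r : ℕ → ℝ) : ℝ := (∑ l ∈ Finset.Ico J R, r l) / R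

end Vale.Agent.P157.Full
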