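import Vale.Agent.P157.Full.Defs
import Vale.Agent.P157.Full.SiteMax
import Vale.Agent.P157.Full.PhiMono
import Vale.Agent.P157.Full.UDefs

/-! The tangent inequality, coercivity and the comparison lemma of the envelope, in the `qh`, `psiH` form. -/

open MeasureTheory ProbabilityTheory Real Finset
open Vale.Agent.P168.MP (lin)
open Vale.Agent.P157.Par (Prof Sm Adm adm_exp Vn Vn_adm Ex ex_lin)

namespace Vale.Agent.P157.Full

variable {R : ℕ} {h h₀ : ℕ → ℝ} {f f1 f2 f3 : ℝ → ℝ} {B D V V₀ : ℝ}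

lemma qh_eq {l : ℕ} (hl : l < R) : qh R h l = rs R (lin R) h l := if_pos hl

lemma dotH_qh (g h₀ : ℕ → ℝ) :
    dotH R g (qh R h₀) / 2 = (∑ l ∈ range R, g l * rs R (lin R) h₀ l) / (2 * R) := by
  rw [dotH, sum_congr rfl fun l hl => by rw [qh_eq (mem_range.1 hl)]]
  ring

/-- no concavity is used: this is `psi_conj` -/
theorem psi_tangent (hR : 1 ≤ R) (hh : Prof R h V) (hh₀ : Prof R h₀ V) :
    psiH R h + dotH R h (qh R h₀) / 2 ≤ psiH R h₀ + dotH R h₀ (qh R h₀) / 2 := by
  rw [dotH_qh, dotH_qh]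
  exact psi_conj hR hh₀ hh

theorem qh_lt_one (_ : 1 ≤ R) (hh : Prof R h V) {l : ℕ} (hl : l < R) : qh R h l < 1 := by
  rw [qh_eq hl]
  exact rs_lt_one hh hl.le

theorem qh_const {c : ℝ} (_ : 1 ≤ R) (_ : 0 ≤ c) {l : ℕ} (hl : l < R) :
    qh R (fun _ => c) l = ∫ z, tanh (√c * z) ^ 2 ∂gaussianReal 0 1 := by
  have hch : ∀ k ≤ R, Vn cosh R (lin R) (fun _ => c) k = cosh ∧ Mg R (lin R) (fun _ => c) k = tanh := by
    intro k
    induction k with
    | zero => exact fun _ => ⟨rfl, rfl⟩
    | succ k ih =>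
      intro hk
      obtain ⟨e1, e2⟩ := ih (by omega)
      have hm := ((ex_lin R).mem (show k < R by omega)).1.ne'
      rw [Vn_succ, Mg_succ, e1, e2]
      exact ⟨funext fun y => sV_zero cosh_pos hm (sub_self c).le y, funext fun y => sF_zero cosh_pos (sub_self c).le y⟩
  have hob : ∀ i j, i + j ≤ R → Ob R (lin R) (fun _ => c) i j = fun y => tanh y ^ 2 := by
    intro i j
    induction j with
    | zero =>
      intro hi
      show (fun y => Mg R (lin R) (fun _ => c) i y ^ 2) = _
      rw [(hch i (by omega)).2]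
    | succ j ih =>
      intro hij
      rw [Ob_succ, ih (by omega), (hch (i + j) (by omega)).1]
      exact funext fun y => sF_zero cosh_pos (sub_self c).le y
  rw [qh_eq hl, rs_eq hl.le, hob _ _ (by omega)]

theorem psi_coercive (hR : 1 ≤ R) (hh₀ : Prof R h₀ V₀) : ∃ c C : ℝ, 0 < c ∧ ∀ (h : ℕ → ℝ) (V : ℝ),
    Prof R h V → psiH R h + dotH R h (qh R h₀) / 2 ≤ C - c * h (R - 1) := by
  have hR0 : (0 : ℝ) < R := Nat.cast_pos.2 hR
  set q := rs R (lin R) h₀
  set η := (1 - q (R - 1)) / (2 * R)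
  have hη : 0 < η := div_pos (sub_pos.2 (rs_lt_one hh₀ (by omega))) (by positivity)
  refine ⟨η / 2, R * R * log 2 + absMean ^ 2 / (2 * η), by positivity, fun h V hh => ?_⟩
  rw [dotH_qh]
  change psi R h + _ ≤ _
  have h1 := psi_le hR hh
  have hx : ∀ l < R, 0 ≤ h l := fun l hl => hh.zero.trans (Prof.le hh (Nat.zero_le l) hl.le)
  have h2 : √(h 0) * absMean ≤ √(h (R - 1)) * absMean :=
    mul_le_mul_of_nonneg_right (sqrt_le_sqrt (Prof.le hh (by omega) (by omega)))
      (integral_nonneg fun z => abs_nonneg _)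
  have h3 : (1 - q (R - 1)) * h (R - 1) ≤ ∑ l ∈ range R, (1 - q l) * h l :=
    single_le_sum (f := fun l => (1 - q l) * h l) (fun l hl => mul_nonneg (sub_nonneg.2
      (rs_le_one (ex_lin R) h₀ (mem_range.1 hl).le)) (hx l (mem_range.1 hl))) (mem_range.2 (by omega))
  have h4 : η * h (R - 1) ≤ (∑ l ∈ range R, h l) / (2 * R) - (∑ l ∈ range R, h l * q l) / (2 * R) := by
    rw [← sub_div, ← sum_sub_distrib, show η * h (R - 1) = (1 - q (R - 1)) * h (R - 1) / (2 * R) by
      simp only [η]; ring]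
    refine div_le_div_of_nonneg_right (h3.trans_eq (sum_congr rfl fun l _ => by ring)) (by positivity)
  have h5 : √(h (R - 1)) * absMean ≤ η / 2 * h (R - 1) + absMean ^ 2 / (2 * η) := by
    have e := Real.mul_self_sqrt (hx (R - 1) (by omega))
    have := sq_nonneg (η * √(h (R - 1)) - absMean)
    rw [← sub_nonneg, show η / 2 * h (R - 1) + absMean ^ 2 / (2 * η) - √(h (R - 1)) * absMean =
      ((η * √(h (R - 1)) - absMean) ^ 2) / (2 * η) by field_simp; linear_combination -η ^ 2 * e]
    positivity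
  linarith

lemma phi_lb {e : ℝ → ℝ} {a A D' : ℝ} (he : Adm e a A D') {m : ℕ → ℝ} (hm : Ex R m) (q : ℕ → ℝ) :
    log a ≤ Par.Phi e R m q := by
  obtain ⟨A', h⟩ := Vn_adm he hm q R le_rfl
  have hA : 0 < A' := zero_lt_one.trans_le h.A_ge
  have hi : Integrable (fun z => log (Vn e R m q R (√(q 0) * z))) (gaussianReal 0 1) := by
    refine Integrable.mono' (g := fun z : ℝ => |log a| + |log A'| + D' * (√(q 0) * |z|))
      ((integrable_const _).add (((memLp_one_iff_integrable.1 (memLp_id_gaussianReal 1)).abs.const_mul _).const_mul _))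
      ((h.cont.comp (continuous_const.mul continuous_id)).log fun z =>
        (he.a_pos.trans_le (h.lb _)).ne').aestronglyMeasurable (Filter.Eventually.of_forall fun z => ?_)
    have h1 := log_le_log he.a_pos (h.lb (√(q 0) * z))
    have h2 := log_le_log (he.a_pos.trans_le (h.lb _)) (h.ub (√(q 0) * z))
    rw [log_mul hA.ne' (exp_pos _).ne', log_exp, abs_mul, abs_of_nonneg (sqrt_nonneg _)] at h2
    have h3 : 0 ≤ D' * (√(q 0) * |z|) := mul_nonneg he.D_nonneg (by positivity)
    rw [Real.norm_eq_abs, abs_le]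
    constructor <;> linarith [neg_abs_le (log a), le_abs_self (log A'), abs_nonneg (log a), abs_nonneg (log A')]
  have h0 := integral_mono (μ := gaussianReal 0 1) (integrable_const (log a)) hi fun z =>
    log_le_log he.a_pos (h.lb _)
  simpa [Par.Phi] using h0

theorem Jval_ge (hS : Sm f f1 f2 f3 B D) (hB : 0 ≤ B) {α : ℝ} (hR : 1 ≤ R) (hh : Prof R h V) (hα : 0 ≤ α) :
    -(α * B) ≤ Jval α f R h := by
  have h1 := phi_lb (adm_exp hS) (ex_lin R) (qh R h)
  rw [log_exp, abs_of_nonneg hB] at h1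
  have hV : 0 ≤ V := (hh.zero.trans (Prof.le hh (Nat.zero_le R) le_rfl)).trans hh.top
  have h0 : Prof R (fun _ => (0 : ℝ)) V := ⟨le_rfl, fun _ _ => le_rfl, hV⟩
  have h2 := psi_tangent hR h0 hh
  have e : psiH R (fun _ => (0 : ℝ)) = 0 := by
    have hv : ∀ k ≤ R, Vn cosh R (lin R) (fun _ => (0 : ℝ)) k = cosh := fun k => by
      induction k with
      | zero => exact fun _ => rfl
      | succ k ih =>
        intro hk
        rw [Vn_succ, ih (by omega)]
        exact funext fun y => sV_zero cosh_pos ((ex_lin R).mem (show k < R by omega)).1.ne' (sub_self _).le y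
    simp [psiH, Par.Phi, hv R le_rfl]
  have e2 : dotH R (fun _ => (0 : ℝ)) (qh R h) = 0 := by simp [dotH]
  rw [e, e2] at h2
  have := mul_le_mul_of_nonneg_left h1 hα
  unfold Jval
  linarith

/-- a larger tail from every level gives a smaller value -/
theorem phi_anti (hS : Sm f f1 f2 f3 B D) (hR : 1 ≤ R) {q q' : ℕ → ℝ} (hq : Prof R q 1)
    (hq' : Prof R q' 1) (h1 : q R = 1) (h1' : q' R = 1) {η : ℝ} (hη : 0 ≤ η)
    (htail : ∀ J < R, tailAvg R J q - η ≤ tailAvg R J q') :
    Par.Phi (fun y => exp (f y)) R (lin R) q' ≤ Par.Phi (fun y => exp (f y)) R (lin R) q + D ^ 2 * η := by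
  have hR0 : (0 : ℝ) < R := Nat.cast_pos.2 hR
  refine (phi_slack hS hR hq hq' (by rw [h1, h1']) (c := R * η * D ^ 2) fun k hk hmon => ?_).trans ?_
  · have hT : ∀ J ≤ R, -(R * η) ≤ ∑ l ∈ Ico J R, (q' l - q l) := fun J hJ => by
      rcases eq_or_lt_of_le hJ with rfl | hJ
      · simp; positivity
      · have := htail J hJ
        simp only [tailAvg, div_sub' hR0.ne', div_le_div_iff_of_pos_right hR0] at this
        rw [sum_sub_distrib]; linarith
    have hP : ∀ j ≤ R, -(R * η) * (k R - k (R - j)) ≤ ∑ l ∈ Ico (R - j) R, (k l - k (R - j)) * (q' l - q l) := by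
      intro j
      induction j with
      | zero => simp
      | succ j ih =>
        intro hj
        have hi := ih (by omega)
        rw [show R - j = R - (j + 1) + 1 by omega] at hi
        set J := R - (j + 1)
        have ht := mul_le_mul_of_nonneg_left (hT (J + 1) (by omega)) (sub_nonneg.2 (hmon (Nat.le_succ J)))
        rw [sum_eq_sum_Ico_succ_bot (show J < R by omega), sub_self, zero_mul, zero_add,
          show ∑ l ∈ Ico (J + 1) R, (k l - k J) * (q' l - q l) = ∑ l ∈ Ico (J + 1) R, (k l - k (J + 1)) * (q' l - q l) +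
            (k (J + 1) - k J) * ∑ l ∈ Ico (J + 1) R, (q' l - q l) by
            rw [mul_sum, ← sum_add_distrib]; exact sum_congr rfl fun l _ => by ring]
        simp only [Nat.succ_eq_add_one] at ht
        nlinarith
    have h := hP R le_rfl
    rw [Nat.sub_self, ← range_eq_Ico] at h
    have h0 := mul_le_mul_of_nonneg_left (hT 0 (Nat.zero_le R)) (hk 0).1
    rw [← range_eq_Ico] at h0
    have e : ∑ l ∈ range R, k l * (q' l - q l) = ∑ l ∈ range R, (k l - k 0) * (q' l - q l) +
        k 0 * ∑ l ∈ range R, (q' l - q l) := by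
      rw [mul_sum, ← sum_add_distrib]; exact sum_congr rfl fun l _ => by ring
    nlinarith [mul_le_mul_of_nonneg_left (hk R).2 (mul_nonneg hR0.le hη)]
  · have : R * η * D ^ 2 / (2 * R) = D ^ 2 * η / 2 := by field_simp
    rw [this]
    nlinarith [mul_nonneg (sq_nonneg D) hη]

end Vale.Agent.P157.Full
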