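import Vale.Agent.P157.Full.BorelPhi
import Vale.Agent.P157.Full.Formula
import Vale.Agent.P157.Full.Tangent
import Vale.Agent.P157.Par.Borel.Main

/-! The formula passes from smooth potentials to every bounded Borel potential. -/

open MeasureTheory ProbabilityTheory Real Filter
open scoped Topology
open Vale.Agent.P168.MP (lin)

namespace Vale.Agent.P157.Full

open Par (Prof Sm)
open Par.Borel (regU regF Wt wt_exp exp_regF pressure_reg_close)

variable {f : ℝ → ℝ} {B α V : ℝ} {c : ℝ}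

/-- distance of the regularised weight -/
noncomputable def regDist (f : ℝ → ℝ) (c : ℝ) : ℝ :=
  ∫ y, |regU c (fun x => exp (f x)) y - exp (f y)| ∂gaussianReal 0 1

/-- regularising moves every value by at most `α e^(3B)` times the distance, uniformly in the path -/
lemma hopf_reg_close (hf : Measurable f) (hb : ∀ x, |f x| ≤ B) (hα : 0 ≤ α) (c : ℝ) {r : ℕ} {h : ℕ → ℝ}
    (hh : Prof (r + 1) h V) :
    |Jval α (regF c f) (r + 1) h - hopfValue (fun y => exp (f y)) α r (fun l : Fin (r + 1) => h l)| ≤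
      α * exp (3 * B) * regDist f c := by
  have hU := wt_exp hf hb
  have hbox : Par.Br.Box (exp (-B)) (exp B) fun y => exp (regF c f y) := by
    rw [exp_regF hf hb c]
    exact ⟨(hU.box_smooth (1 - c)).1.comp (measurable_const.mul measurable_id), fun y => (hU.box_smooth (1 - c)).2 _⟩
  have h := phi_L1_meas (R := r + 1) (by omega) (Par.ex_lin (r + 1))
    (by rw [Vale.Agent.P168.MP.lin, if_pos le_rfl]; exact div_self (by positivity))
    hbox hU.box (qh_mem hh) (show qh (r + 1) h (r + 1) = 1 by simp [qh])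
  rw [hopfValue_eq' _ α hh, Jval, add_sub_add_right_eq_sub, add_sub_add_right_eq_sub, ← mul_sub,
    abs_mul, abs_of_nonneg hα, mul_assoc]
  refine mul_le_mul_of_nonneg_left (h.trans_eq ?_) hα
  simp only [regDist, congrFun (exp_regF hf hb c)]

lemma hopfValues_nonempty (U : ℝ → ℝ) (α : ℝ) : (hopfValues U α).Nonempty :=
  ⟨_, 0, fun _ => 0, monotone_const, fun _ => le_rfl, rfl⟩

lemma hopfValues_bddBelow (hf : Measurable f) (hb : ∀ x, |f x| ≤ B) (hα : 0 ≤ α) :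
    BddBelow (hopfValues (fun y => exp (f y)) α) := by
  have hU := wt_exp hf hb
  have hB0 : 0 ≤ B := (abs_nonneg _).trans (hb 0)
  obtain ⟨f1, f2, f3, D, hS, -⟩ := hU.sm (show (1 / 2 : ℝ) < 1 by norm_num)
  refine ⟨-(α * B) - α * exp (3 * B) * regDist f (1 / 2), fun v hv => ?_⟩
  obtain ⟨r, s, hs, hs0, rfl⟩ := hv
  obtain ⟨hp, e⟩ := extS_spec hs hs0
  have h1 := hopf_reg_close hf hb hα (1 / 2) hp
  rw [e] at h1
  have h2 := Jval_ge (f := regF (1 / 2) f) (h := extS s) hS hB0 (show 1 ≤ r + 1 by omega) hp hα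
  linarith [(abs_le.1 h1).2]

/-- **Borel potentials**: the two bounds for the regularised potentials give the formula -/
theorem limit_borel_of (hf : Measurable f) (hb : ∀ x, |f x| ≤ B) (hα : 0 < α)
    (hlow : ∀ c ∈ Set.Ioo (0:ℝ) 1, ∀ s : ℝ,
      (∀ (R : ℕ) (h : ℕ → ℝ) (V : ℝ), 1 ≤ R → Prof R h V → s ≤ Jval α (regF c f) R h) →
      ∀ ε > 0, ∀ᶠ N : ℕ in atTop, s - ε ≤ pressure (isingUniform N) (regF c f) ⌊α * N⌋₊)
    (hupp : ∀ c ∈ Set.Ioo (0:ℝ) 1, ∀ (R : ℕ) (h : ℕ → ℝ) (V : ℝ), 1 ≤ R → Prof R h V →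
      ∀ ε > 0, ∀ᶠ N : ℕ in atTop, pressure (isingUniform N) (regF c f) ⌊α * N⌋₊ ≤ Jval α (regF c f) R h + ε) :
    (hopfValues (fun y => exp (f y)) α).Nonempty ∧ BddBelow (hopfValues (fun y => exp (f y)) α) ∧
    Tendsto (fun N : ℕ => pressure (isingUniform N) f ⌊α * N⌋₊) atTop
      (𝓝 (sInf (hopfValues (fun y => exp (f y)) α))) := by
  set U := fun y => exp (f y)
  have hU := wt_exp hf hb
  have hne := hopfValues_nonempty U α
  have hbd := hopfValues_bddBelow hf hb hα.le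
  refine ⟨hne, hbd, ?_⟩
  set s₀ := sInf (hopfValues U α)
  rw [Metric.tendsto_nhds]
  intro ε hε
  set δ := ε / 8
  have hδ : 0 < δ := by positivity
  have hd : ∀ᶠ c in 𝓝[Set.Iio 1] 1, α * exp (3 * B) * regDist f c < δ := by
    have h := hU.reg_tendsto.const_mul (α * exp (3 * B))
    rw [mul_zero] at h
    exact h.eventually (Iio_mem_nhds hδ)
  obtain ⟨c, ⟨hc, hcd⟩, hc01⟩ := (((pressure_reg_close hf hb hα.le hδ).and hd).and
    (Ioo_mem_nhdsLT (show (0:ℝ) < 1 by norm_num))).exists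
  have hlo := hlow c hc01 (s₀ - δ) (fun R h V hR hh => ?_) δ hδ
  · obtain ⟨v, ⟨r, s, hs, hs0, rfl⟩, hvs⟩ : ∃ v ∈ hopfValues U α, v < s₀ + δ :=
      exists_lt_of_csInf_lt hne (by linarith)
    obtain ⟨hp, e⟩ := extS_spec hs hs0
    have h1 := hopf_reg_close hf hb hα.le c hp
    rw [e] at h1
    filter_upwards [hlo, hupp c hc01 _ _ _ (by omega) hp δ hδ, eventually_ge_atTop 1] with N hl hu hN
    have h2 := abs_le.1 (hc N hN)
    rw [Real.dist_eq, abs_lt]
    have h3 : ε = 8 * δ := by simp only [δ]; ring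
    constructor <;> linarith [(abs_le.1 h1).2, h2.1, h2.2]
  · obtain ⟨r, rfl⟩ : ∃ r, R = r + 1 := ⟨R - 1, by omega⟩
    have hmem : hopfValue U α r (fun l : Fin (r + 1) => h l) ∈ hopfValues U α :=
      ⟨r, fun l => h l, fun a b hab => hh.le_of_le hab (by omega),
        fun l => (hh.bd (show (l : ℕ) ≤ r + 1 by omega)).1, rfl⟩
    have := csInf_le hbd hmem
    linarith [(abs_le.1 (hopf_reg_close hf hb hα.le c hh)).1]

/-- the same, from the two bounds for all smooth potentials -/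
theorem limit_borel (hf : Measurable f) (hb : ∀ x, |f x| ≤ B) (hα : 0 < α)
    (lower_of_le : ∀ {f f1 f2 f3 : ℝ → ℝ} {B D : ℝ}, Sm f f1 f2 f3 B D → (∀ x, f x ≤ B) → ∀ s : ℝ,
      (∀ (R : ℕ) (h : ℕ → ℝ) (V : ℝ), 1 ≤ R → Prof R h V → s ≤ Jval α f R h) →
      ∀ ε > 0, ∀ᶠ N : ℕ in atTop, s - ε ≤ pressure (isingUniform N) f ⌊α * N⌋₊)
    (upper_hopf : ∀ {f f1 f2 f3 : ℝ → ℝ} {B D : ℝ}, Sm f f1 f2 f3 B D → (∀ x, f x ≤ B) →
      ∀ (R : ℕ) (h : ℕ → ℝ) (V : ℝ), 1 ≤ R → Prof R h V →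
      ∀ ε > 0, ∀ᶠ N : ℕ in atTop, pressure (isingUniform N) f ⌊α * N⌋₊ ≤ Jval α f R h + ε) :
    (hopfValues (fun y => exp (f y)) α).Nonempty ∧ BddBelow (hopfValues (fun y => exp (f y)) α) ∧
    Tendsto (fun N : ℕ => pressure (isingUniform N) f ⌊α * N⌋₊) atTop
      (𝓝 (sInf (hopfValues (fun y => exp (f y)) α))) :=
  limit_borel_of hf hb hα
    (fun c hc => by obtain ⟨f1, f2, f3, D, hS, hB⟩ := (wt_exp hf hb).sm hc.2; exact lower_of_le hS hB)
    (fun c hc => by obtain ⟨f1, f2, f3, D, hS, hB⟩ := (wt_exp hf hb).sm hc.2; exact upper_hopf hS hB)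

end Vale.Agent.P157.Full
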