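import Vale.Agent.P157.Par.Borel.Spin
import Vale.Agent.P157.Par.NodeLim

/-! The nested functional is Lipschitz in `L¹(γ)` of the weight, uniformly in the profile, for bounded
measurable weights; and it is the pattern term of the formula. -/

open MeasureTheory ProbabilityTheory Real
open Vale.Agent.P168.MP (lin)

namespace Vale.Agent.P157.Full

open Par (Ex ex_lin Prof Vn tl tlN Sm)
open Par.Br

namespace L1

/-- a smaller factor in the power mean moves it by at most the tilted mean of the relative change -/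
lemma pow_le {x y m : ℝ} (hx : 0 < x) (hy : 0 < y) (h0 : 0 ≤ m) (h1 : m ≤ 1) :
    y ^ m ≤ x ^ m + m * (x ^ m * ((y - x) / x)) := by
  have h : (1 + (y - x) / x) ^ m ≤ 1 + m * ((y - x) / x) :=
    rpow_one_add_le_one_add_mul_self (by rw [le_div_iff₀ hx]; linarith) h0 h1
  have e : 1 + (y - x) / x = y / x := by field_simp; ring
  rw [e, div_rpow hy.le hx.le, div_le_iff₀ (rpow_pos_of_pos hx m)] at h
  linarith [h]

variable {R : ℕ} {m q : ℕ → ℝ} {u w : ℝ → ℝ} {B : ℝ}

/-- mean at the top seen `k` levels below -/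
noncomputable def sm (R : ℕ) (q : ℕ → ℝ) (k : ℕ) (F : ℝ → ℝ) (y : ℝ) : ℝ :=
  ∫ z, F (y + √(q R - q (R - k)) * z) ∂gaussianReal 0 1

variable (hm : Ex R m) (htop : m R = 1) (hu : Box (exp (-B)) (exp B) u)
include hm hu

/-- the relative change is below the tilted mean of the relative change at the top -/
lemma ratio_le (hw : Box (exp (-B)) (exp B) w) {F : ℝ → ℝ} {C : ℝ} (hF : Box (-C) C F)
    (h0 : ∀ y, (w y - u y) / u y ≤ F y) : ∀ k, k ≤ R → ∀ y,
      (Vn w R m q k y - Vn u R m q k y) / Vn u R m q k y ≤ tlN u R m q 0 k F y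
  | 0, _, y => h0 y
  | k + 1, hk, y => by
    have ih := ratio_le hw hF h0 k (by omega)
    obtain ⟨hp, hp1⟩ := hm.mem (show k < R by omega)
    have hX := Vn_box (q := q) hu (exp_pos _) hm.pos k (by omega)
    have hY := Vn_box (q := q) hw (exp_pos _) hm.pos k (by omega)
    have hT := tlN_box (q := q) hu (exp_pos _) hm.pos hF k 0 (by omega)
    have hWX := hX.rpow (exp_pos _).le hp.le
    have hWY := hY.rpow (exp_pos _).le hp.le
    set p := m (R - k)
    set v := q (R - k) - q (R - (k + 1))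
    have hpX : ∀ y, 0 < Vn u R m q k y := fun y => (exp_pos _).trans_le (hX.2 y).1
    have hpY : ∀ y, 0 < Vn w R m q k y := fun y => (exp_pos _).trans_le (hY.2 y).1
    set IX := ∫ z, Vn u R m q k (y + √v * z) ^ p ∂gaussianReal 0 1 with hIX
    set IY := ∫ z, Vn w R m q k (y + √v * z) ^ p ∂gaussianReal 0 1 with hIY
    set J := ∫ z, Vn u R m q k (y + √v * z) ^ p * tlN u R m q 0 k F (y + √v * z) ∂gaussianReal 0 1 with hJ
    have hIXp : 0 < IX := (rpow_pos_of_pos (exp_pos _) p).trans_le ((hWX.avg v).2 y).1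
    have hIYp : 0 < IY := (rpow_pos_of_pos (exp_pos _) p).trans_le ((hWY.avg v).2 y).1
    have hJi : Integrable (fun z => Vn u R m q k (y + √v * z) ^ p * tlN u R m q 0 k F (y + √v * z))
        (gaussianReal 0 1) :=
      (hT.int v y).bdd_mul (c := exp B ^ p) (hWX.1.comp (by fun_prop)).aestronglyMeasurable
        (Filter.Eventually.of_forall fun z => by
          rw [Real.norm_eq_abs, abs_of_nonneg (rpow_nonneg (hpX _).le _)]; exact (hWX.2 _).2)
    set T := tlN u R m q 0 k F
    have hlo : ∀ y, exp (-B) / exp B ≤ 1 + T y := fun y => by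
      refine (div_le_div₀ (hpY y).le (hY.2 y).1 (hpX y) (hX.2 y).2).trans ?_
      have h := ih y
      rw [sub_div, div_self (hpX y).ne'] at h
      linarith
    set a := exp (-B) / exp B
    have ha : 0 < a := div_pos (exp_pos _) (exp_pos _)
    have hJlo : (a - 1) * IX ≤ J := by
      rw [hIX, hJ, ← integral_const_mul]
      refine integral_mono ((hWX.int v y).const_mul _) hJi fun z => ?_
      rw [mul_comm]
      exact mul_le_mul_of_nonneg_left (by linarith [hlo (y + √v * z)]) (rpow_nonneg (hpX _).le _)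
    set l := 1 + J / IX with hl
    have hlp : 0 < l := by
      have : a - 1 ≤ J / IX := (le_div_iff₀ hIXp).2 hJlo
      linarith
    have hpt : ∀ x, Vn w R m q k x ^ p ≤ l ^ p * ((1 - p + p / l) * Vn u R m q k x ^ p +
        p / l * (Vn u R m q k x ^ p * T x)) := fun x => by
      have h := pow_le (hpX x) (div_pos (hpY x) hlp) hp.le hp1
      rw [div_rpow (hpY x).le hlp.le, div_le_iff₀ (rpow_pos_of_pos hlp p), mul_comm _ (l ^ p)] at h
      refine h.trans (mul_le_mul_of_nonneg_left ?_ (rpow_nonneg hlp.le _))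
      have h2 : (Vn w R m q k x / l - Vn u R m q k x) / Vn u R m q k x ≤ (T x + 1) / l - 1 := by
        have h3 := ih x
        rw [sub_div, div_self (hpX x).ne'] at h3 ⊢
        rw [div_div, mul_comm, ← div_div]
        have := div_le_div_of_nonneg_right (show Vn w R m q k x / Vn u R m q k x ≤ T x + 1 by linarith) hlp.le
        linarith
      have := mul_le_mul_of_nonneg_left (mul_le_mul_of_nonneg_left h2 (rpow_nonneg (hpX x).le p)) hp.le
      refine (add_le_add le_rfl this).trans_eq ?_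
      field_simp
      ring
    have hI : IY ≤ l ^ p * IX := by
      refine (integral_mono (hWY.int v y) ((((hWX.int v y).const_mul _).add (hJi.const_mul _)).const_mul _)
        fun z => hpt _).trans_eq ?_
      rw [integral_const_mul]
      congr 1
      simp only [Pi.add_apply]
      rw [integral_add ((hWX.int v y).const_mul _) (hJi.const_mul _), integral_const_mul, integral_const_mul,
        ← hIX, ← hJ]
      have e1 : J = (l - 1) * IX := by rw [hl, add_sub_cancel_left, div_mul_cancel₀ _ hIXp.ne']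
      rw [e1]
      field_simp
      ring
    rw [show tlN u R m q 0 (k + 1) F y = J / IX by simp only [tlN, tl, zero_add]; rfl,
      show Vn w R m q (k + 1) y = IY ^ (1 / p) from rfl,
      show Vn u R m q (k + 1) y = IX ^ (1 / p) from rfl]
    have h := rpow_le_rpow hIYp.le hI (one_div_nonneg.2 hp.le)
    rw [mul_rpow (rpow_nonneg hlp.le _) hIXp.le, one_div, rpow_rpow_inv hlp.le hp.ne', ← one_div] at h
    rw [div_le_iff₀ (rpow_pos_of_pos hIXp _)]
    simp only [hl] at h
    nlinarith

include htop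

/-- a nonnegative mean under the tilt is at most a constant times the plain mean -/
lemma tilt_le {V : ℝ} (hq : Prof R q V) {F : ℝ → ℝ} {C : ℝ} (hF : Box 0 C F) : ∀ k, k + 1 ≤ R → ∀ y,
    tlN u R m q 0 (k + 1) F y * Vn u R m q (k + 1) y ^ m (R - k) ≤
      exp (B * (2 - m (R - k))) * sm R q (k + 1) F y := by
  intro k
  induction k with
  | zero =>
    intro hk y
    obtain ⟨v, hv⟩ : ∃ v, v = q R - q (R - 1) := ⟨_, rfl⟩
    simp only [tlN, tl, Vn, Nat.sub_zero, htop, rpow_one, div_one, sm, zero_add, ← hv]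
    have hd : 0 < ∫ z, u (y + √v * z) ∂gaussianReal 0 1 := (exp_pos _).trans_le ((hu.avg v).2 y).1
    rw [div_mul_cancel₀ _ hd.ne', show B * (2 - 1) = B by ring, ← integral_const_mul]
    refine integral_mono ((hF.int v y).bdd_mul (c := exp B) (hu.1.comp (by fun_prop)).aestronglyMeasurable
      (Filter.Eventually.of_forall fun z => ?_)) ((hF.int v y).const_mul _) fun z => ?_
    · rw [Real.norm_eq_abs, abs_of_pos ((exp_pos _).trans_le (hu.2 _).1)]; exact (hu.2 _).2
    · exact mul_le_mul_of_nonneg_right (hu.2 _).2 (hF.2 _).1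
  | succ k ih =>
    intro hk y
    have ih := ih (by omega)
    obtain ⟨hp, hp1⟩ := hm.mem (show k + 1 < R by omega)
    have hmm : m (R - (k + 1)) ≤ m (R - k) := by
      have h := hm.mono (R - (k + 1)) (by omega) (by omega)
      rwa [show R - (k + 1) + 1 = R - k by omega] at h
    have hX := Vn_box (q := q) hu (exp_pos _) hm.pos (k + 1) (by omega)
    have hT := tlN_box (q := q) hu (exp_pos _) hm.pos hF (k + 1) 0 (by omega)
    have hW := hX.rpow (exp_pos _).le hp.le
    set p := m (R - (k + 1))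
    set p' := m (R - k)
    set v := q (R - (k + 1)) - q (R - (k + 1 + 1))
    have hpX : ∀ x, 0 < Vn u R m q (k + 1) x := fun x => (exp_pos _).trans_le (hX.2 x).1
    have hd : 0 < ∫ z, Vn u R m q (k + 1) (y + √v * z) ^ p ∂gaussianReal 0 1 :=
      (rpow_pos_of_pos (exp_pos _) p).trans_le ((hW.avg v).2 y).1
    rw [show tlN u R m q 0 (k + 1 + 1) F y =
        (∫ z, Vn u R m q (k + 1) (y + √v * z) ^ p * tlN u R m q 0 (k + 1) F (y + √v * z) ∂gaussianReal 0 1) /
          ∫ z, Vn u R m q (k + 1) (y + √v * z) ^ p ∂gaussianReal 0 1 by simp only [tlN, tl, zero_add]; rfl,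
      show Vn u R m q (k + 1 + 1) y =
        (∫ z, Vn u R m q (k + 1) (y + √v * z) ^ p ∂gaussianReal 0 1) ^ (1 / p) from rfl,
      one_div, rpow_inv_rpow hd.le hp.ne', div_mul_cancel₀ _ hd.ne']
    have hpt : ∀ x, Vn u R m q (k + 1) x ^ p * tlN u R m q 0 (k + 1) F x ≤
        exp (B * (2 - p)) * sm R q (k + 1) F x := fun x => by
      have h1 : Vn u R m q (k + 1) x ^ (p - p') ≤ exp (B * (p' - p)) := by
        refine (rpow_le_rpow_of_nonpos (exp_pos _) (hX.2 x).1 (by linarith)).trans_eq ?_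
        rw [← exp_mul]; ring_nf
      have hsm : 0 ≤ tlN u R m q 0 (k + 1) F x * Vn u R m q (k + 1) x ^ p' :=
        mul_nonneg (hT.2 x).1 (rpow_nonneg (hpX x).le _)
      rw [show Vn u R m q (k + 1) x ^ p * tlN u R m q 0 (k + 1) F x = Vn u R m q (k + 1) x ^ (p - p') *
          (tlN u R m q 0 (k + 1) F x * Vn u R m q (k + 1) x ^ p') by
        rw [rpow_sub (hpX x)]; field_simp [(rpow_pos_of_pos (hpX x) p').ne']]
      refine (mul_le_mul h1 (ih x) hsm (exp_pos _).le).trans_eq ?_
      rw [← mul_assoc, ← exp_add]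
      ring_nf
    have hS := hF.avg (q R - q (R - (k + 1)))
    refine (integral_mono ((hT.int v y).bdd_mul (c := exp B ^ p) (hW.1.comp (by fun_prop)).aestronglyMeasurable
      (Filter.Eventually.of_forall fun z => by
        show ‖Vn u R m q (k + 1) (y + √v * z) ^ p‖ ≤ _
        rw [Real.norm_eq_abs, abs_of_nonneg (rpow_nonneg (hpX _).le _)]; exact (hW.2 _).2))
      ((hS.int v y).const_mul _) fun z => hpt _).trans_eq ?_
    rw [integral_const_mul]
    congr 1
    have h1 : 0 ≤ v := by
      have := hq.mono (R - (k + 1 + 1)) (by omega)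
      rw [show R - (k + 1 + 1) + 1 = R - (k + 1) by omega] at this
      exact sub_nonneg.2 this
    have h2 : 0 ≤ q R - q (R - (k + 1)) := sub_nonneg.2 (hq.le_of_le (by omega) le_rfl)
    have h := Par.Borel.gauss_two hF.1 (√v) (√(q R - q (R - (k + 1)))) y
      (Integrable.of_bound (hF.1.comp (by fun_prop)).aestronglyMeasurable C
        (Filter.Eventually.of_forall fun z => by rw [Real.norm_eq_abs, abs_of_nonneg (hF.2 _).1]; exact (hF.2 _).2))
    rw [sq_sqrt h1, sq_sqrt h2] at h
    simp only [sm]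
    refine h.trans ?_
    simp only [v]
    refine integral_congr_ae (Filter.Eventually.of_forall fun z => ?_)
    ring_nf

end L1

open L1

variable {R : ℕ} {m q : ℕ → ℝ} {u w : ℝ → ℝ} {B V : ℝ}

lemma phi_L1_side (hR : 1 ≤ R) (hm : Ex R m) (htop : m R = 1) (hu : Box (exp (-B)) (exp B) u)
    (hw : Box (exp (-B)) (exp B) w) (hq : Prof R q V) (h1 : q R = 1) :
    Par.Phi w R m q - Par.Phi u R m q ≤ exp (3 * B) * ∫ y, |u y - w y| ∂gaussianReal 0 1 := by
  have hup : ∀ y, 0 < u y := fun y => (exp_pos _).trans_le (hu.2 y).1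
  have hB : 0 ≤ B := by
    have := exp_le_exp.1 ((hu.2 0).1.trans (hu.2 0).2); linarith
  set F := fun y => |u y - w y| / u y
  set C := 2 * exp B / exp (-B)
  have hF : Box 0 C F := ⟨((hu.1.sub hw.1).abs).div hu.1, fun y => ⟨div_nonneg (abs_nonneg _) (hup y).le,
    div_le_div₀ (by positivity) ((abs_sub_le_iff.2 ⟨by linarith [(hu.2 y).2, (hw.2 y).1, exp_pos (-B), exp_pos B],
      by linarith [(hw.2 y).2, (hu.2 y).1, exp_pos (-B), exp_pos B]⟩)) (exp_pos _) (hu.2 y).1⟩⟩
  have hF' : Box (-C) C F := ⟨hF.1, fun y => ⟨by linarith [(hF.2 y).1, (hF.2 y).2], (hF.2 y).2⟩⟩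
  obtain ⟨j, rfl⟩ : ∃ j, R = j + 1 := ⟨R - 1, by omega⟩
  have hX := Vn_box (q := q) hu (exp_pos _) hm.pos (j + 1) le_rfl
  have hY := Vn_box (q := q) hw (exp_pos _) hm.pos (j + 1) le_rfl
  have hlog : ∀ {X : ℝ → ℝ}, Box (exp (-B)) (exp B) X → Box (-B) B fun y => log (X y) := fun {X} h =>
    ⟨h.1.log, fun y => ⟨(le_log_iff_exp_le ((exp_pos _).trans_le (h.2 y).1)).2 (h.2 y).1,
      (log_le_iff_le_exp ((exp_pos _).trans_le (h.2 y).1)).2 (h.2 y).2⟩⟩
  have hS := hF.avg (q (j + 1) - q 0)
  have hpt : ∀ y, log (Vn w (j + 1) m q (j + 1) y) - log (Vn u (j + 1) m q (j + 1) y) ≤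
      exp (2 * B) * sm (j + 1) q (j + 1) F y := fun y => by
    have px : 0 < Vn u (j + 1) m q (j + 1) y := (exp_pos _).trans_le (hX.2 y).1
    have py : 0 < Vn w (j + 1) m q (j + 1) y := (exp_pos _).trans_le (hY.2 y).1
    have h := ratio_le hm hu hw hF' (fun x => div_le_div_of_nonneg_right
      ((le_abs_self _).trans_eq (abs_sub_comm _ _)) (hup x).le) (j + 1) le_rfl y (q := q)
    have hl := log_le_sub_one_of_pos (div_pos py px)
    rw [log_div py.ne' px.ne'] at hl
    rw [sub_div, div_self px.ne'] at h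
    have h0 := (tlN_box (q := q) hu (exp_pos _) hm.pos hF (j + 1) 0 (by omega)).2 y
    have ht := tilt_le hm htop hu hq hF j le_rfl y
    rw [show j + 1 - j = 1 by omega] at ht
    have h2 : exp (-(B * m 1)) ≤ Vn u (j + 1) m q (j + 1) y ^ m 1 := by
      rw [show -(B * m 1) = -B * m 1 by ring, exp_mul]
      exact rpow_le_rpow (exp_pos _).le (hX.2 y).1 (hm.pos 1 le_rfl (by omega)).le
    have h3 : tlN u (j + 1) m q 0 (j + 1) F y ≤ exp (2 * B) * sm (j + 1) q (j + 1) F y := by
      have h4 := (mul_le_mul_of_nonneg_left h2 h0.1).trans ht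
      rw [← le_div_iff₀ (exp_pos _), exp_neg, div_inv_eq_mul, mul_right_comm, ← exp_add] at h4
      refine h4.trans_eq ?_
      ring_nf
    linarith
  simp only [Par.Phi]
  rw [← integral_sub (by simpa using (hlog hY).int (q 0) 0) (by simpa using (hlog hX).int (q 0) 0)]
  refine (integral_mono ((by simpa using (hlog hY).int (q 0) 0 : Integrable _ _).sub
    (by simpa using (hlog hX).int (q 0) 0)) ((by simpa [sm] using (hS.int (q 0) 0) :
      Integrable (fun z => sm (j + 1) q (j + 1) F (√(q 0) * z)) (gaussianReal 0 1)).const_mul _)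
    fun z => hpt _).trans ?_
  rw [integral_const_mul, show 3 * B = 2 * B + B by ring, exp_add, mul_assoc]
  refine mul_le_mul_of_nonneg_left ?_ (exp_pos _).le
  have h := Par.Borel.gauss_two hF.1 (√(q 0)) (√(q (j + 1) - q 0)) 0
    (Integrable.of_bound (hF.1.comp (by fun_prop)).aestronglyMeasurable C
      (Filter.Eventually.of_forall fun z => by rw [Real.norm_eq_abs, abs_of_nonneg (hF.2 _).1]; exact (hF.2 _).2))
  rw [sq_sqrt hq.zero, sq_sqrt (sub_nonneg.2 (hq.le_of_le (Nat.zero_le _) le_rfl)), add_sub_cancel, h1,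
    sqrt_one] at h
  simp only [zero_add, one_mul] at h
  simp only [sm, Nat.sub_self, h1]
  rw [h, ← integral_const_mul]
  refine integral_mono (by simpa using hF.int 1 0) ?_ fun y => ?_
  · refine (Integrable.of_bound ((hu.1.sub hw.1).abs).aestronglyMeasurable (2 * exp B)
      (Filter.Eventually.of_forall fun y => ?_)).const_mul _
    rw [Real.norm_eq_abs, abs_abs]
    refine (abs_sub _ _).trans ?_
    rw [abs_of_pos (hup y), abs_of_pos ((exp_pos _).trans_le (hw.2 y).1)]
    linarith [(hu.2 y).2, (hw.2 y).2]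
  · show |u y - w y| / u y ≤ _
    rw [div_le_iff₀ (hup y), mul_right_comm]
    refine le_mul_of_one_le_left (abs_nonneg _) ?_
    refine le_trans ?_ (mul_le_mul_of_nonneg_left (hu.2 y).1 (exp_pos B).le)
    rw [← exp_add, add_neg_cancel, exp_zero]

/-- bounded measurable weights: the functional moves by at most `e^(3B)` times the `L¹(γ)` distance -/
theorem phi_L1_meas (hR : 1 ≤ R) (hm : Ex R m) (htop : m R = 1) (hu : Box (exp (-B)) (exp B) u)
    (hw : Box (exp (-B)) (exp B) w) (hq : Prof R q V) (h1 : q R = 1) :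
    |Par.Phi u R m q - Par.Phi w R m q| ≤ exp (3 * B) * ∫ y, |u y - w y| ∂gaussianReal 0 1 := by
  refine abs_sub_le_iff.2 ⟨?_, phi_L1_side hR hm htop hu hw hq h1⟩
  refine (phi_L1_side hR hm htop hw hu hq h1).trans_eq ?_
  simp only [abs_sub_comm]

/-- smooth potentials -/
theorem phi_L1 {f f1 f2 f3 g g1 g2 g3 : ℝ → ℝ} {D : ℝ} (hS : Sm f f1 f2 f3 B D) (hB : ∀ x, f x ≤ B)
    (hS' : Sm g g1 g2 g3 B D) (hB' : ∀ x, g x ≤ B) (hR : 1 ≤ R) (hq : Prof R q 1) (h1 : q R = 1) :
    |Par.Phi (fun y => exp (f y)) R (lin R) q - Par.Phi (fun y => exp (g y)) R (lin R) q| ≤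
      exp (3 * B) * ∫ y, |exp (f y) - exp (g y)| ∂gaussianReal 0 1 :=
  phi_L1_meas hR (ex_lin R) (by simp [Vale.Agent.P168.MP.lin, div_self (show (R : ℝ) ≠ 0 by positivity)])
    (box_exp hS hB).1 (box_exp hS' hB').1 hq h1

/-- the pattern term is the nested functional, for any weight -/
lemma patternTerm_eq (U : ℝ → ℝ) {r : ℕ} {m q : ℕ → ℝ} (htop : m (r + 1) = 1) (hqR : q (r + 1) = 1) :
    Parisi.patternTerm U (fun p : Fin r => m (p + 1)) (fun l : Fin (r + 1) => q l) = Par.Phi U (r + 1) m q := by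
  have hm : (fun p : Fin r => m (p + 1)) = mExp (r + 1) m r := by
    funext p; simp [mExp, Nat.add_comm]
  have hq : Parisi.incr (fun l : Fin (r + 1) => q l) = dInc (r + 1) q r := by
    funext p; simp [dInc, Parisi.incr, Nat.add_comm]
  simp only [Parisi.patternTerm, Par.Phi, hq, hm, Fin.val_last, Fin.val_zero]
  refine integral_congr_ae (Filter.Eventually.of_forall fun z => ?_)
  have h := congrFun (nest_eq (e := U) htop hqR r le_rfl) (√(q 0) * z)
  simp only [Nat.add_sub_cancel] at h
  exact congrArg log h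

end Vale.Agent.P157.Full
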