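import Vale.Agent.P157.Gen.Lip
import Vale.Agent.P157.Par.Defs

/-! Concentration of Lipschitz functions of patterns and fields, and the comparison of slopes of a
convex function with those of a function close to it. -/

open MeasureTheory ProbabilityTheory Filter
open scoped NNReal
open Vale.Agent.P249.Lower
open Vale.Agent.P150 (gauss)

namespace Vale.Agent.P157.Full

lemma gmom_one_le : gmom 1 ≤ 1 := by
  have h2 : Integrable (fun t : ℝ => t ^ 2) (gaussianReal 0 1) := by
    have h := integrable_abs_rpow_real (p := 2) (by norm_num) 1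
    simpa [Real.rpow_two, sq_abs] using h
  have hv : ∫ t : ℝ, t ^ 2 ∂gaussianReal 0 1 = 1 := by
    have h := variance_id_gaussianReal (μ := 0) (v := 1)
    rw [variance_eq_integral (by fun_prop)] at h
    simpa using h
  have hi := integrable_abs_rpow_real (p := 1) (by norm_num) 1
  have h3 : Integrable (fun t : ℝ => (t ^ 2 + 1) / 2) (gaussianReal 0 1) :=
    (h2.add (integrable_const 1)).div_const 2
  refine (integral_mono hi h3 fun t => ?_).trans_eq ?_
  · show |t| ^ (1:ℝ) ≤ (t ^ 2 + 1) / 2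
    rw [Real.rpow_one]
    nlinarith [sq_nonneg (|t| - 1), sq_abs t]
  · rw [integral_div, integral_add h2 (integrable_const 1), hv]
    simp

lemma dev_fin {N : ℕ} {F : (Fin N → ℝ) → ℝ} {L : ℝ} (hL : 0 ≤ L)
    (hF : ∀ y w, |F y - F w| ≤ L * √(∑ i, (y i - w i) ^ 2)) :
    Integrable F (gauss (Fin N)) ∧
      ∫ y, |F y - ∫ z, F z ∂gauss (Fin N)| ∂gauss (Fin N) ≤ 3 * L := by
  set φ := fun g : Euc N => F g.ofLp
  have hφ : LipschitzWith L.toNNReal φ := LipschitzWith.of_dist_le' fun g g' => by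
    rw [Real.dist_eq, dist_eq_norm]
    refine (hF g.ofLp g'.ofLp).trans (le_of_eq ?_)
    rw [EuclideanSpace.norm_eq]
    simp only [Real.norm_eq_abs, sq_abs, PiLp.sub_apply]
  set γ := stdGaussian (Euc N)
  have iφ : Integrable φ γ := by
    refine ((integrable_const |φ 0|).add ((IsGaussian.integrable_id (μ := γ)).norm.const_mul L)).mono'
      hφ.continuous.aestronglyMeasurable (Eventually.of_forall fun g => ?_)
    have := hφ.norm_sub_le g 0
    rw [sub_zero, Real.coe_toNNReal L hL, Real.norm_eq_abs] at this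
    rw [Real.norm_eq_abs, Pi.add_apply]
    show |φ g| ≤ |φ 0| + L * ‖g‖
    linarith [abs_sub_abs_le_abs_sub (φ g) (φ 0)]
  have i1 : Integrable (fun z : Euc N × Euc N => |φ z.1 - φ z.2|) (γ.prod γ) := by
    have := integrable_inc (p := 1) le_rfl hφ (fun z => z.1) (fun z => z.2) continuous_fst
      continuous_snd 1 fun z => by rw [one_mul]; exact norm_sub_le _ _
    simpa only [Real.rpow_one] using this
  have key := Vale.Agent.P157.Gen.gauss_two (p := 1) le_rfl hφ
  simp only [Real.rpow_one, Real.coe_toNNReal L hL] at key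
  set m := ∫ g, φ g ∂γ
  have hpt : ∀ᵐ g ∂γ, |φ g - m| ≤ ∫ g', |φ g - φ g'| ∂γ := by
    filter_upwards [i1.prod_right_ae] with g _
    have h := abs_integral_le_integral_abs (f := fun g' => φ g - φ g') (μ := γ)
    rwa [integral_sub (integrable_const _) iφ, integral_const, probReal_univ, one_smul] at h
  have hb : ∫ g, |φ g - m| ∂γ ≤ 3 * L := by
    refine (integral_mono_ae (iφ.sub (integrable_const m)).abs i1.integral_prod_left hpt).trans ?_
    rw [← integral_prod _ i1]
    refine key.trans ?_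
    calc Real.pi / 2 * (L * gmom 1) ≤ Real.pi / 2 * (L * 1) :=
          mul_le_mul_of_nonneg_left (mul_le_mul_of_nonneg_left gmom_one_le hL) (by positivity)
      _ ≤ 3 * L := by
          rw [mul_one]
          exact mul_le_mul_of_nonneg_right (by linarith [Real.pi_le_four]) hL
  have hm : Measurable (WithLp.toLp 2 : (Fin N → ℝ) → Euc N) := by fun_prop
  have e : (gauss (Fin N)).map (WithLp.toLp 2) = γ := Vale.Agent.P157.Lim.gauss_toLp N
  have em : m = ∫ y, F y ∂gauss (Fin N) := by
    simp only [m]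
    rw [← e, integral_map hm.aemeasurable hφ.continuous.aestronglyMeasurable]
  rw [← e] at iφ hb
  refine ⟨(integrable_map_measure hφ.continuous.aestronglyMeasurable hm.aemeasurable).1 iφ, ?_⟩
  rw [integral_map (f := fun g => |φ g - m|) hm.aemeasurable
    ((hφ.continuous.sub continuous_const).abs).aestronglyMeasurable] at hb
  rw [← em]
  exact hb

/-- a Lipschitz function of a Gaussian vector deviates from its mean by the order of its constant -/
theorem gauss_dev {ι : Type} [Fintype ι] {F : (ι → ℝ) → ℝ} {L : ℝ} (hL : 0 ≤ L)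
    (hF : ∀ x y, |F x - F y| ≤ L * √(∑ i, (x i - y i) ^ 2)) :
    Integrable F (gauss ι) ∧ ∫ x, |F x - ∫ y, F y ∂gauss ι| ∂gauss ι ≤ 3 * L := by
  set e := (Fintype.equivFin ι).symm
  set E := MeasurableEquiv.piCongrLeft (fun _ : ι => ℝ) e
  have hmp : MeasurePreserving E (gauss (Fin (Fintype.card ι))) (gauss ι) :=
    measurePreserving_piCongrLeft (fun _ => gaussianReal 0 1) e
  have hE : ∀ z i, E z (e i) = z i := fun z i => MeasurableEquiv.piCongrLeft_apply_apply _ _ _
  obtain ⟨h1, h2⟩ := dev_fin hL (F := fun z => F (E z)) fun y w =>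
    (hF (E y) (E w)).trans (le_of_eq (by rw [← Equiv.sum_comp e]; simp only [hE]))
  rw [hmp.integral_comp' (g := F)] at h2
  refine ⟨(hmp.integrable_comp_emb E.measurableEmbedding).1 h1, ?_⟩
  rw [← hmp.integral_comp' (g := fun z => |F z - ∫ w, F w ∂gauss ι|)]
  exact h2

lemma preserving_uncurry (N M : ℕ) :
    MeasurePreserving (fun (g : Fin M → Fin N → ℝ) (x : Fin M × Fin N) => g x.1 x.2)
      (Par.pats N M) (gauss (Fin M × Fin N)) := by
  have hm : Measurable (fun (g : Fin M → Fin N → ℝ) (x : Fin M × Fin N) => g x.1 x.2) := by fun_prop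
  refine ⟨hm, (Measure.pi_eq fun t ht => ?_).symm⟩
  rw [Measure.map_apply hm (MeasurableSet.univ_pi ht)]
  have hpre : (fun (g : Fin M → Fin N → ℝ) (x : Fin M × Fin N) => g x.1 x.2) ⁻¹' Set.univ.pi t =
      Set.univ.pi fun a => Set.univ.pi fun i => t (a, i) := by
    ext g
    simp only [Set.mem_preimage, Set.mem_univ_pi, Prod.forall]
  rw [hpre, Par.pats, Measure.pi_pi]
  simp only [gauss, Measure.pi_pi, Fintype.prod_prod_type]

/-- deviation of a Lipschitz function of patterns and a field -/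
theorem gauss_dev_pats {N M : ℕ} {ι : Type} [Fintype ι] {F : (Fin M → Fin N → ℝ) → (ι → ℝ) → ℝ}
    {L : ℝ} (hL : 0 ≤ L) (hF : ∀ g g' x y,
      |F g x - F g' y| ≤ L * √((∑ a, ∑ i, (g a i - g' a i) ^ 2) + ∑ i, (x i - y i) ^ 2)) :
    ∫ g, ∫ x, |F g x - ∫ g', ∫ y, F g' y ∂gauss ι ∂Par.pats N M| ∂gauss ι ∂Par.pats N M
      ≤ 3 * L := by
  let G : ((Fin M × Fin N) ⊕ ι → ℝ) → ℝ := fun z =>
    F (fun a i => z (Sum.inl (a, i))) fun j => z (Sum.inr j)
  have hG : ∀ z w, |G z - G w| ≤ L * √(∑ x, (z x - w x) ^ 2) := fun z w => by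
    refine (hF _ _ _ _).trans (le_of_eq ?_)
    rw [Fintype.sum_sum_type, Fintype.sum_prod_type]
  obtain ⟨hi, hb⟩ := gauss_dev hL hG
  have : IsProbabilityMeasure (Par.pats N M) := by unfold Par.pats; infer_instance
  let T : (Fin M → Fin N → ℝ) × (ι → ℝ) → ((Fin M × Fin N) ⊕ ι → ℝ) := fun p =>
    (MeasurableEquiv.sumPiEquivProdPi fun _ : (Fin M × Fin N) ⊕ ι => ℝ).symm
      (fun x => p.1 x.1 x.2, p.2)
  have hT : MeasurePreserving T ((Par.pats N M).prod (gauss ι)) (gauss ((Fin M × Fin N) ⊕ ι)) :=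
    (measurePreserving_sumPiEquivProdPi_symm
      (fun _ : (Fin M × Fin N) ⊕ ι => gaussianReal 0 1)).comp
      ((preserving_uncurry N M).prod (MeasurePreserving.id _))
  have hGT : ∀ p, G (T p) = F p.1 p.2 := fun p => rfl
  have hiF : Integrable (fun p : (Fin M → Fin N → ℝ) × (ι → ℝ) => F p.1 p.2)
      ((Par.pats N M).prod (gauss ι)) := hT.integrable_comp_of_integrable hi
  have hm : ∫ g', ∫ y, F g' y ∂gauss ι ∂Par.pats N M =
      ∫ z, G z ∂gauss ((Fin M × Fin N) ⊕ ι) := by
    rw [← hT.map_eq, integral_map hT.measurable.aemeasurable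
      (by rw [hT.map_eq]; exact hi.aestronglyMeasurable), ← integral_prod _ hiF]
    rfl
  rw [hm]
  set m := ∫ z, G z ∂gauss ((Fin M × Fin N) ⊕ ι)
  have hia : Integrable (fun p : (Fin M → Fin N → ℝ) × (ι → ℝ) => |F p.1 p.2 - m|)
      ((Par.pats N M).prod (gauss ι)) := (hiF.sub (integrable_const m)).abs
  rw [← integral_prod _ hia]
  refine le_of_eq_of_le ?_ hb
  rw [← hT.map_eq, integral_map hT.measurable.aemeasurable
    (by rw [hT.map_eq]; exact (hi.sub (integrable_const m)).abs.aestronglyMeasurable)]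
  rfl

/-- a convex function close to a function with a one-sided quadratic bound has a slope close to that one's -/
theorem convex_sandwich {φ G : ℝ → ℝ} {x φ' G' C δ : ℝ} (hδ : 0 < δ)
    (hφ : ConvexOn ℝ Set.univ φ) (hd : HasDerivAt φ φ' x)
    (hp : G (x + δ) ≤ G x + G' * δ + C * δ ^ 2)
    (hm : G (x - δ) ≤ G x - G' * δ + C * δ ^ 2) :
    |φ' - G'| ≤ C * δ + (|φ (x + δ) - G (x + δ)| + |φ (x - δ) - G (x - δ)| + |φ x - G x|) / δ := by
  have h1 := hφ.le_slope_of_hasDerivAt (Set.mem_univ x) (Set.mem_univ (x + δ)) (by linarith) hd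
  have h2 := hφ.slope_le_of_hasDerivAt (Set.mem_univ (x - δ)) (Set.mem_univ x) (by linarith) hd
  rw [slope_def_field, add_sub_cancel_left, le_div_iff₀ hδ] at h1
  rw [slope_def_field, sub_sub_cancel, div_le_iff₀ hδ] at h2
  have e : C * δ + (|φ (x + δ) - G (x + δ)| + |φ (x - δ) - G (x - δ)| + |φ x - G x|) / δ =
      (C * δ ^ 2 + (|φ (x + δ) - G (x + δ)| + |φ (x - δ) - G (x - δ)| + |φ x - G x|)) / δ := by
    field_simp
  rw [e, le_div_iff₀ hδ, ← abs_of_pos hδ, ← abs_mul, abs_of_pos hδ, abs_le]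
  constructor <;>
    nlinarith [le_abs_self (φ (x + δ) - G (x + δ)), le_abs_self (φ (x - δ) - G (x - δ)),
      neg_abs_le (φ x - G x), le_abs_self (φ x - G x), abs_nonneg (φ (x + δ) - G (x + δ)),
      abs_nonneg (φ (x - δ) - G (x - δ))]

end Vale.Agent.P157.Full
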