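import Vale.Agent.P157.Full.ProdW
import Vale.Agent.P157.Par.Incr
import Vale.Agent.P157.Lim.Split

/-! Comparison of pair expectations of the system with one more site and of the product of the base
system with one free spin, and the symmetry between the sites. -/

open MeasureTheory ProbabilityTheory Real Finset
open Vale.Agent.P150 (gauss dot)
open Vale.Agent.P168 (sg)
open Vale.Agent.P168.MP (lin ET Batch pw spinAt Mark Bare avg Z ext down downS bareEquiv
  bareEquivS bareW spinB gainB gain1)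

namespace Vale.Agent.P157.Full

set_option linter.unusedSectionVars false

open Par (Sm Prof Gm qP pats ham siteF uat gsum)

namespace Grow

section generic
variable {Ω Λ : Type*} [Fintype Ω] [Fintype Λ] [Nonempty Ω] {m : ℕ → ℝ} {w : List Ω → ℝ}
  {w0 : List Λ → ℝ}

/-- one step as a ratio of uniform averages -/
lemma ext_succ_avg (k : ℕ) (pre : List Ω) (F : List Ω → ℝ) :
    ext m w (k + 1) pre F =
      avg (fun o => Z m w k (pre ++ [o]) ^ m (pre.length + 1) * ext m w k (pre ++ [o]) F) /
        avg (fun o => Z m w k (pre ++ [o]) ^ m (pre.length + 1)) := by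
  rw [Vale.Agent.P168.MP.ext_succ]
  simp only [avg, Vale.Agent.P168.MP.trans, div_mul_eq_mul_div, ← Finset.sum_div]
  rw [div_div_div_cancel_right₀ (Vale.Agent.P168.MP.card_pos_real (Ω := Ω)).ne']

/-- expectations of projected observables may be taken in the projected system -/
lemma ext_fibre [Nonempty Λ] (f : Ω → Λ) (hf : ∀ g : Λ → ℝ, avg (fun o => g (f o)) = avg g)
    (F : List Λ → ℝ) : ∀ (k : ℕ) (pre : List Ω),
      (∀ suf : List Ω, suf.length = k → w (pre ++ suf) = w0 ((pre ++ suf).map f)) →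
      ext m w k pre (fun p => F (p.map f)) = ext m w0 k (pre.map f) F
  | 0, pre, _ => by simp
  | k + 1, pre, h => by
    have h' : ∀ o, ∀ suf : List Ω, suf.length = k →
        w (pre ++ [o] ++ suf) = w0 ((pre ++ [o] ++ suf).map f) := fun o suf hs => by
      simpa using h (o :: suf) (by simp [hs])
    have eZ : ∀ o, Z m w k (pre ++ [o]) = Z m w0 k (pre.map f ++ [f o]) := fun o => by
      have := Vale.Agent.P168.MP.Z_fibre (m := m) (w := w) (w0 := w0) f hf (j := 0) k (pre ++ [o])
        fun suf hs => by simpa [Z] using h' o suf hs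
      simpa using this
    have eE : ∀ o, ext m w k (pre ++ [o]) (fun p => F (p.map f)) =
        ext m w0 k (pre.map f ++ [f o]) F := fun o => by
      simpa using ext_fibre f hf F k (pre ++ [o]) (h' o)
    rw [ext_succ_avg, ext_succ_avg, List.length_map]
    simp only [eZ, eE]
    rw [hf fun l => Z m w0 k (pre.map f ++ [l]) ^ m (pre.length + 1) *
      ext m w0 k (pre.map f ++ [l]) F, hf fun l => Z m w0 k (pre.map f ++ [l]) ^ m (pre.length + 1)]

end generic

/-- two weighted means that nearly agree on an embedded part of the index set -/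
lemma ratio_bound {A B : Type*} [Fintype A] [Fintype B] [Nonempty A] [Nonempty B] (e : A → B)
    (he : Function.Injective e) {zA gA : A → ℝ} {zB gB : B → ℝ} (hz : ∀ a, zB (e a) = zA a)
    {L U δ : ℝ} (hL : 0 < L) (hzA : ∀ a, L ≤ zA a) (hzB : ∀ b, L ≤ zB b ∧ zB b ≤ U)
    (hgA : ∀ a, |gA a| ≤ 1) (hgB : ∀ b, |gB b| ≤ 1) (hδ : ∀ a, |gB (e a) - gA a| ≤ δ) :
    |avg (fun b => zB b * gB b) / avg zB - avg (fun a => zA a * gA a) / avg zA| ≤
      δ + 2 * ((1 - (Fintype.card A : ℝ) / Fintype.card B) * (U / L)) := by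
  classical
  have hcA := Vale.Agent.P168.MP.card_pos_real (Ω := A)
  have hcB := Vale.Agent.P168.MP.card_pos_real (Ω := B)
  have hA0 : ∀ a, 0 < zA a := fun a => hL.trans_le (hzA a)
  have hB0 : ∀ b, 0 < zB b := fun b => hL.trans_le (hzB b).1
  simp only [avg, div_div_div_cancel_right₀ hcA.ne', div_div_div_cancel_right₀ hcB.ne']
  set SA := ∑ a, zA a
  set TA := ∑ a, zA a * gA a
  set C := (univ.image e)ᶜ with hC
  set S' := ∑ b ∈ C, zB b
  set T' := ∑ b ∈ C, zB b * gB b
  set T₁ := ∑ a, zA a * gB (e a)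
  have eS : ∑ b, zB b = SA + S' := by
    rw [← Finset.sum_add_sum_compl (univ.image e) zB, Finset.sum_image fun a _ b _ h => he h]
    simp only [hz]; rfl
  have eT : ∑ b, zB b * gB b = T₁ + T' := by
    rw [← Finset.sum_add_sum_compl (univ.image e) fun b => zB b * gB b,
      Finset.sum_image fun a _ b _ h => he h]
    simp only [hz]; rfl
  have hSA : 0 < SA := sum_pos (fun a _ => hA0 a) univ_nonempty
  have hS' : 0 ≤ S' := sum_nonneg fun b _ => (hB0 b).le
  have h1 : |T₁ - TA| ≤ δ * SA := by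
    rw [← sum_sub_distrib, Finset.mul_sum]
    refine (abs_sum_le_sum_abs _ _).trans (sum_le_sum fun a _ => ?_)
    rw [← mul_sub, abs_mul, abs_of_pos (hA0 a), mul_comm]
    exact mul_le_mul_of_nonneg_right (hδ a) (hA0 a).le
  have h2 : |T'| ≤ S' := (abs_sum_le_sum_abs _ _).trans (sum_le_sum fun b _ => by
    rw [abs_mul, abs_of_pos (hB0 b)]; exact mul_le_of_le_one_right (hB0 b).le (hgB b))
  have h3 : |TA| ≤ SA := (abs_sum_le_sum_abs _ _).trans (sum_le_sum fun a _ => by
    rw [abs_mul, abs_of_pos (hA0 a)]; exact mul_le_of_le_one_right (hA0 a).le (hgA a))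
  have hd : 0 ≤ δ := (abs_nonneg _).trans (hδ (Classical.arbitrary A))
  rw [eS, eT]
  have e1 : (T₁ + T') / (SA + S') - TA / SA =
      ((T₁ - TA) + T' - TA / SA * S') / (SA + S') := by field_simp; ring
  have h4 : |TA / SA * S'| ≤ S' := by
    rw [abs_mul, abs_of_nonneg hS']
    refine mul_le_of_le_one_left hS' ?_
    rw [abs_div, abs_of_pos hSA, div_le_one hSA]; exact h3
  have hSB : 0 < SA + S' := by linarith
  have h5 : S' / (SA + S') ≤ (1 - (Fintype.card A : ℝ) / Fintype.card B) * (U / L) := by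
    have hcard : (C.card : ℝ) = Fintype.card B - Fintype.card A := by
      rw [hC, Finset.card_compl, Nat.cast_sub (Finset.card_le_univ _),
        Finset.card_image_of_injective _ he, Finset.card_univ]
    have hu : S' ≤ (C.card : ℝ) * U :=
      (sum_le_sum fun b _ => (hzB b).2).trans_eq (by rw [sum_const, nsmul_eq_mul])
    have hl : (Fintype.card B : ℝ) * L ≤ SA + S' := eS ▸
      le_trans (le_of_eq (by rw [sum_const, nsmul_eq_mul, Finset.card_univ]))
        (sum_le_sum fun b _ => (hzB b).1)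
    calc S' / (SA + S') ≤ (C.card : ℝ) * U / ((Fintype.card B : ℝ) * L) :=
          div_le_div₀ (hS'.trans hu) hu (mul_pos hcB hL) hl
      _ = _ := by rw [hcard]; field_simp
  rw [e1, abs_div, abs_of_pos hSB, div_le_iff₀ hSB]
  rw [div_le_iff₀ hSB] at h5
  have := abs_sub (T₁ - TA + T') (TA / SA * S')
  have := abs_add_le (T₁ - TA) T'
  nlinarith [mul_nonneg hd hS']

section sys
variable {N S : ℕ} {ι : Type} [Fintype ι] [DecidableEq ι] {β : ι → Batch}

/-- projection of a mark of the larger system -/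
def fS (o : Mark (N + 1) S β) : Bare N S β × Bool := (downS o, o.1 (Fin.last N))

/-- projection of a mark of the product system -/
def fP (o : Mark N S β × Bool) : Bare N S β × Bool := (down o.1, o.2)

lemma avg_fS [NeZero N] (g : Bare N S β × Bool → ℝ) :
    avg (fun o : Mark (N + 1) S β => g (fS o)) = avg g :=
  (Vale.Agent.P168.MP.avg_downS fun a b => g (a, b)).trans
    (Vale.Agent.P168.MP.avg_prod_eq g).symm

lemma avg_fP [NeZero N] (g : Bare N S β × Bool → ℝ) :
    avg (fun o : Mark N S β × Bool => g (fP o)) = avg g := by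
  rw [Vale.Agent.P168.MP.avg_prod_eq, Vale.Agent.P168.MP.avg_prod_eq g]
  exact Vale.Agent.P168.MP.avg_down fun a => avg fun b => g (a, b)

/-- a mark of the product system -/
def prodEquiv : (ι × Fin S → Fin N) × (Bare N S β × Bool) ≃ Mark N S β × Bool :=
  (Equiv.prodAssoc _ _ _).symm.trans (bareEquiv.prodCongr (Equiv.refl Bool))

/-- weight of a projected path with given positions -/
noncomputable def w0 [NeZero N] (R : ℕ) (W : (Fin N → Bool) → ℝ)
    (c : (Fin N → Bool) → Bool → ℝ) (h u : ι → ℝ) (v : ι × Fin S → Fin N)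
    (q : List (Bare N S β × Bool)) : ℝ :=
  bareW R W h u v (q.map Prod.fst) * c (spinB R (q.map Prod.fst)) (leafB R q)

/-- the weight of the larger system -/
noncomputable def wS (R : ℕ) (W : (Fin N → Bool) → ℝ) (c : (Fin N → Bool) → Bool → ℝ) (h u : ι → ℝ)
    (p : List (Mark (N + 1) S β)) : ℝ :=
  pw R (fun τ => W (fun x => τ x.castSucc) * c (fun x => τ x.castSucc) (τ (Fin.last N))) h u p

/-- the weight of the product system -/
noncomputable def wP [NeZero N] (R : ℕ) (W : (Fin N → Bool) → ℝ) (c : (Fin N → Bool) → Bool → ℝ)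
    (h u : ι → ℝ) (p : List (Mark N S β × Bool)) : ℝ :=
  prodW R (pw (N := N) (S := S) (β := β) R W h u) (fun p s => c (spinAt R p) s) p

lemma leafB_map {Ω Ω' : Type} (f : Ω × Bool → Ω' × Bool) (hf : ∀ o, (f o).2 = o.2) (R : ℕ)
    (p : List (Ω × Bool)) : leafB R (p.map f) = leafB R p := by
  simp only [leafB, List.map_map]
  rw [show Prod.snd ∘ f = Prod.snd from funext hf]

lemma leafB_fS (R : ℕ) (p : List (Mark (N + 1) S β)) :
    leafB R (p.map fS) = spinAt R p (Fin.last N) := by
  simp only [leafB, spinAt, List.map_map, List.getD_eq_getElem?_getD, List.getElem?_map]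
  cases p[R - 1]? <;> rfl

variable [NeZero N]

lemma spinB_fP (R : ℕ) (p : List (Mark N S β × Bool)) :
    spinB R ((p.map fP).map Prod.fst) = spinAt R (p.map Prod.fst) := by
  rw [List.map_map, show Prod.fst ∘ fP (N := N) (S := S) (β := β) = down ∘ Prod.fst from rfl,
    ← List.map_map]
  simp only [spinB, Vale.Agent.P168.MP.getD_down, down]; rfl

lemma spinB_fS (R : ℕ) (p : List (Mark (N + 1) S β)) :
    spinB R ((p.map fS).map Prod.fst) = fun x => spinAt R p x.castSucc := by
  rw [List.map_map, show Prod.fst ∘ fS (N := N) (S := S) (β := β) = downS from rfl]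
  simp only [spinB, Vale.Agent.P168.MP.getD_downS, downS]; rfl

variable {R : ℕ} {W : (Fin N → Bool) → ℝ} {c : (Fin N → Bool) → Bool → ℝ} {h u : ι → ℝ}

lemma wP_eq (v : ι × Fin S → Fin N) (q : Bare N S β × Bool) (t : List (Mark N S β × Bool)) :
    wP R W c h u (prodEquiv (v, q) :: t) = w0 R W c h u v ((prodEquiv (v, q) :: t).map fP) := by
  rw [wP, prodW, w0, spinB_fP, Vale.Agent.P168.MP.pw_down, leafB_map fP (fun _ => rfl)]
  simp only [List.map_map, List.map_cons]
  rfl

lemma wS_eq (v : ι × Fin S → Fin N) (q : Bare N S β × Bool) (t : List (Mark (N + 1) S β)) :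
    wS R W c h u (bareEquivS (fun i => (v i).castSucc, q) :: t) =
      w0 R W c h u v ((bareEquivS (fun i => (v i).castSucc, q) :: t).map fS) := by
  rw [wS, pw, w0, bareW, leafB_fS, Vale.Agent.P168.MP.gain_downS R h u _ v fun i => rfl, spinB_fS,
    List.map_map]
  rw [show Prod.fst ∘ fS (N := N) (S := S) (β := β) = downS from rfl]
  ring

lemma fS_equiv (v : ι × Fin S → Fin (N + 1)) (q : Bare N S β × Bool) :
    fS (bareEquivS (v, q)) = q := by
  obtain ⟨h1, h2⟩ := Vale.Agent.P168.MP.downS_bareEquivS v q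
  exact Prod.ext h1 h2

lemma fP_equiv (v : ι × Fin S → Fin N) (q : Bare N S β × Bool) :
    fP (prodEquiv (v, q)) = q := rfl

lemma extStep (v : ι × Fin S → Fin N) (q : Bare N S β × Bool) (K : List (Bare N S β × Bool) → ℝ)
    (k : ℕ) (t : List (Mark (N + 1) S β)) :
    ext (lin R) (wS R W c h u) k (bareEquivS (fun i => (v i).castSucc, q) :: t)
        (fun p => K (p.map fS)) =
      ext (lin R) (w0 R W c h u v) k (q :: t.map fS) K := by
  rw [ext_fibre (w0 := w0 R W c h u v) fS avg_fS K k _ fun suf _ => by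
    rw [List.cons_append]; exact wS_eq v q _, List.map_cons, fS_equiv]

lemma extP (v : ι × Fin S → Fin N) (q : Bare N S β × Bool) (K : List (Bare N S β × Bool) → ℝ)
    (k : ℕ) (t : List (Mark N S β × Bool)) :
    ext (lin R) (wP R W c h u) k (prodEquiv (v, q) :: t) (fun p => K (p.map fP)) =
      ext (lin R) (w0 R W c h u v) k (q :: t.map fP) K := by
  rw [ext_fibre (w0 := w0 R W c h u v) fP avg_fP K k _ fun suf _ => by
    rw [List.cons_append]; exact wP_eq v q _, List.map_cons, fP_equiv]

variable (β S) in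
/-- constant of the comparison at the root -/
noncomputable def rootC : ℝ :=
  2 * (Fintype.card ι * S) * exp (2 * (S * ∑ j, ((β j).k + 1 : ℝ)))

/-- expectations from the root nearly agree if they nearly agree below the common marks -/
theorem root_bound (hR : 2 ≤ R) (hW : ∀ σ, 0 < W σ) (hc : ∀ σ s, 0 < c σ s)
    (hh : ∀ j, |h j| ≤ 1) (hu : ∀ j, |u j| ≤ 1) {FS : List (Mark (N + 1) S β) → ℝ}
    {FP : List (Mark N S β × Bool) → ℝ} (hFS : ∀ p, |FS p| ≤ 1) (hFP : ∀ p, |FP p| ≤ 1) {δ : ℝ}
    (hd : ∀ v q,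
      |ext (lin R) (wS R W c h u) (R - 1) [bareEquivS (fun i => (v i).castSucc, q)] FS -
        ext (lin R) (wP R W c h u) (R - 1) [prodEquiv (v, q)] FP| ≤ δ) :
    |ext (lin R) (wS R W c h u) R [] FS - ext (lin R) (wP R W c h u) R [] FP| ≤
      δ + rootC S β / ((N:ℝ) + 1) := by
  obtain ⟨r, rfl⟩ : ∃ r, R = r + 2 := ⟨R - 2, by omega⟩
  rw [Nat.add_sub_cancel (m := 1) (n := r + 1)] at hd
  set m := lin (r + 2)
  have pS : ∀ p, 0 < wS (r + 2) W c h u (β := β) (S := S) p := fun p =>
    mul_pos (mul_pos (hW _) (hc _ _)) (exp_pos _)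
  have pP : ∀ p, 0 < wP (r + 2) W c h u (β := β) (S := S) p := fun p =>
    mul_pos (mul_pos (hW _) (exp_pos _)) (hc _ _)
  have okS := Vale.Agent.P168.MP.ok_lin (R := r + 2) (by omega) pS
  have okP := Vale.Agent.P168.MP.ok_lin (R := r + 2) (by omega) pP
  set G : ℝ := S * ∑ j, ((β j).k + 1 : ℝ)
  have hG : S * ∑ j, (|h j| * (β j).k + |u j|) ≤ G := by
    refine mul_le_mul_of_nonneg_left (sum_le_sum fun j _ => ?_) (Nat.cast_nonneg _)
    linarith [hu j, mul_le_of_le_one_left (Nat.cast_nonneg (α := ℝ) (β j).k) (hh j)]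
  have hg : ∀ {M : ℕ} [NeZero M] (p : List (Mark M S β)),
      exp (-G) ≤ exp (∑ i : ι × Fin S, gain1 (r + 2) h u p i) ∧
        exp (∑ i : ι × Fin S, gain1 (r + 2) h u p i) ≤ exp G := fun p => by
    have := abs_le.1 ((Vale.Agent.P168.MP.abs_gainsum (R := r + 2) (h := h) (u := u) p).trans hG)
    exact ⟨exp_le_exp.2 this.1, exp_le_exp.2 this.2⟩
  set ρ : Bare N S β × Bool → ℝ := fun q => W q.1.1 * c q.1.1 q.2
  have hρ : ∀ q, 0 < ρ q := fun q => mul_pos (hW _) (hc _ _)
  set B := avg ρ
  have hB : 0 < B := Vale.Agent.P168.MP.avg_pos hρ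
  have bS : ∀ o, exp (-G) * B ≤ Z m (wS (r + 2) W c h u) (r + 1) [o] ∧
      Z m (wS (r + 2) W c h u) (r + 1) [o] ≤ exp G * B := fun o => by
    have := Vale.Agent.P168.MP.Z_between okS (lo := fun o : Mark (N + 1) S β => exp (-G) * ρ (fS o))
      (hi := fun o => exp G * ρ (fS o)) (fun o => mul_pos (exp_pos _) (hρ _))
      (fun p o hp => by
        have hσ : spinAt (r + 2) (p ++ [o]) = o.1 := by
          simp [spinAt, List.getD_eq_getElem?_getD, show p.length = r + 1 by omega]
        rw [wS, pw, hσ]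
        change exp (-G) * ρ (fS o) ≤ ρ (fS o) * _ ∧ ρ (fS o) * _ ≤ exp G * ρ (fS o)
        rw [mul_comm (exp (-G)), mul_comm (exp G)]
        exact ⟨mul_le_mul_of_nonneg_left (hg _).1 (hρ _).le,
          mul_le_mul_of_nonneg_left (hg _).2 (hρ _).le⟩) r [o] (by simp; omega)
    rwa [Vale.Agent.P168.MP.avg_mul_left, Vale.Agent.P168.MP.avg_mul_left, avg_fS] at this
  have bP : ∀ o, exp (-G) * B ≤ Z m (wP (r + 2) W c h u) (r + 1) [o] ∧
      Z m (wP (r + 2) W c h u) (r + 1) [o] ≤ exp G * B := fun o => by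
    have := Vale.Agent.P168.MP.Z_between okP (lo := fun o : Mark N S β × Bool => exp (-G) * ρ (fP o))
      (hi := fun o => exp G * ρ (fP o)) (fun o => mul_pos (exp_pos _) (hρ _))
      (fun p o hp => by
        have hσ : spinAt (r + 2) ((p ++ [o]).map Prod.fst) = o.1.1 := by
          simp [spinAt, List.getD_eq_getElem?_getD, show p.length = r + 1 by omega]
        have hl : leafB (r + 2) (p ++ [o]) = o.2 := by
          simp [leafB, List.getD_eq_getElem?_getD, show p.length = r + 1 by omega]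
        rw [wP, prodW, pw, hl]
        simp only [hσ]
        rw [show W o.1.1 * exp (∑ i, gain1 (r + 2) h u ((p ++ [o]).map Prod.fst) i) * c o.1.1 o.2 =
          ρ (fP o) * exp (∑ i, gain1 (r + 2) h u ((p ++ [o]).map Prod.fst) i) by
            show _ = W o.1.1 * c o.1.1 o.2 * _
            ring, mul_comm (exp (-G)), mul_comm (exp G)]
        exact ⟨mul_le_mul_of_nonneg_left (hg _).1 (hρ _).le,
          mul_le_mul_of_nonneg_left (hg _).2 (hρ _).le⟩) r [o] (by simp; omega)
    rwa [Vale.Agent.P168.MP.avg_mul_left, Vale.Agent.P168.MP.avg_mul_left, avg_fP] at this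
  have hm : 0 < m 1 := okS.pos 1 le_rfl (by omega)
  have hm1 : m 1 ≤ 1 := by
    show lin (r + 2) 1 ≤ 1
    unfold lin; rw [if_pos (by omega), div_le_one (by positivity)]; push_cast; linarith
  set L := (exp (-G) * B) ^ m 1
  set U := (exp G * B) ^ m 1
  have hL : 0 < L := rpow_pos_of_pos (mul_pos (exp_pos _) hB) _
  have hUL : U / L ≤ exp (2 * G) := by
    have hG0 : 0 ≤ G := mul_nonneg (Nat.cast_nonneg _) (sum_nonneg fun j _ => by positivity)
    rw [← div_rpow (by positivity) (by positivity), show exp G * B / (exp (-G) * B) = exp (2 * G) by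
      rw [mul_div_mul_right _ _ hB.ne', ← exp_sub]; ring_nf, ← exp_mul]
    exact exp_le_exp.2 (mul_le_of_le_one_right (by linarith) hm1)
  rw [ext_succ_avg, ext_succ_avg]
  simp only [List.nil_append, List.length_nil, Nat.zero_add]
  rw [← Vale.Agent.P168.MP.avg_equiv bareEquivS (fun o => Z m (wS (r + 2) W c h u) (r + 1) [o] ^ m 1 * _),
    ← Vale.Agent.P168.MP.avg_equiv bareEquivS (fun o => Z m (wS (r + 2) W c h u) (r + 1) [o] ^ m 1),
    ← Vale.Agent.P168.MP.avg_equiv prodEquiv (fun o => Z m (wP (r + 2) W c h u) (r + 1) [o] ^ m 1 * _),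
    ← Vale.Agent.P168.MP.avg_equiv prodEquiv (fun o => Z m (wP (r + 2) W c h u) (r + 1) [o] ^ m 1)]
  refine (ratio_bound
    (fun a : (ι × Fin S → Fin N) × (Bare N S β × Bool) => ((fun i => (a.1 i).castSucc), a.2))
    (fun a b hab => Prod.ext (funext fun i => Fin.castSucc_injective _ (congrFun (congrArg Prod.fst hab :) i))
      (congrArg Prod.snd hab :)) (L := L) (U := U) (δ := δ) (fun a => ?_) hL
    (fun a => rpow_le_rpow (by positivity) (bP _).1 hm.le)
    (fun b => ⟨rpow_le_rpow (by positivity) (bS _).1 hm.le,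
      rpow_le_rpow (Vale.Agent.P168.MP.Z_pos pS _ _).le (bS _).2 hm.le⟩)
    (fun a => Vale.Agent.P168.MP.ext_bound pP hFP) (fun b => Vale.Agent.P168.MP.ext_bound pS hFS)
    (fun a => hd a.1 a.2)).trans (add_le_add le_rfl ?_)
  · obtain ⟨v, q⟩ := a
    congr 1
    have eS' := Vale.Agent.P168.MP.Z_fibre (m := m) (w := wS (r + 2) W c h u)
      (w0 := w0 (r + 2) W c h u v) fS avg_fS (j := 0) (r + 1)
      [bareEquivS (fun i => (v i).castSucc, q)] fun suf _ => by
        simp only [Z, List.singleton_append]; exact wS_eq v q suf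
    have eP' := Vale.Agent.P168.MP.Z_fibre (m := m) (w := wP (r + 2) W c h u)
      (w0 := w0 (r + 2) W c h u v) fP avg_fP (j := 0) (r + 1) [prodEquiv (v, q)] fun suf _ => by
        simp only [Z, List.singleton_append]; exact wP_eq v q suf
    simp only [List.map_cons, List.map_nil, fS_equiv] at eS'
    exact eS'.trans eP'.symm
  have hN1 : (0:ℝ) < (N:ℝ) + 1 := by positivity
  set P := Fintype.card ι * S with hP
  have hfrac : 1 - ((N:ℝ) / ((N:ℝ) + 1)) ^ P ≤ (P : ℝ) / ((N:ℝ) + 1) := by
    have h1 := one_add_mul_le_pow (show (-2:ℝ) ≤ -(1 / ((N:ℝ) + 1)) by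
      rw [le_neg]; exact (div_le_iff₀ hN1).2 (by linarith [show (0:ℝ) ≤ N by positivity])) P
    rw [show (1:ℝ) + -(1 / ((N:ℝ) + 1)) = (N:ℝ) / ((N:ℝ) + 1) by field_simp; ring] at h1
    rw [show (P:ℝ) / ((N:ℝ) + 1) = (P:ℝ) * (1 / ((N:ℝ) + 1)) by ring]
    linarith
  have hq := Vale.Agent.P168.MP.card_pos_real (Ω := Bare N S β × Bool)
  rw [Fintype.card_prod (ι × Fin S → Fin N), Fintype.card_prod (ι × Fin S → Fin (N + 1)), Nat.cast_mul, Nat.cast_mul, mul_div_mul_right _ _ hq.ne',
    Fintype.card_fun, Fintype.card_fun, Fintype.card_fin, Fintype.card_fin, Fintype.card_prod,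
    Fintype.card_fin, ← hP, Nat.cast_pow, Nat.cast_pow, ← div_pow, Nat.cast_succ]
  calc 2 * ((1 - ((N:ℝ) / ((N:ℝ) + 1)) ^ P) * (U / L)) ≤ 2 * ((P:ℝ) / ((N:ℝ) + 1) * exp (2 * G)) :=
        mul_le_mul_of_nonneg_left (mul_le_mul hfrac hUL
          (div_nonneg (rpow_nonneg (by positivity) _) hL.le) (by positivity)) zero_le_two
    _ = rootC S β / ((N:ℝ) + 1) := by rw [rootC, hP]; push_cast; ring

end sys

end Grow

open Grow in
/-- **One more site, pair expectations**: the new site is a free spin up to `O(1/N)` -/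
theorem grow_pair {ι : Type} [Fintype ι] [DecidableEq ι] (β : ι → Batch) (R S : ℕ) (hR : 2 ≤ R) :
    ∃ C : ℝ, 0 ≤ C ∧ ∀ {N : ℕ} [NeZero N] {W : (Fin N → Bool) → ℝ}, (∀ σ, 0 < W σ) →
      ∀ {c : (Fin N → Bool) → Bool → ℝ}, (∀ σ s, 0 < c σ s) →
      ∀ {h u : ι → ℝ}, (∀ j, |h j| ≤ 1) → (∀ j, |u j| ≤ 1) → ∀ {l : ℕ}, l < R →
      ∀ Φ : (Fin N → Bool) → Bool → (Fin N → Bool) → Bool → ℝ, (∀ σ s σ' s', |Φ σ s σ' s'| ≤ 1) →
      |ET R (lin R) (pw (N := N + 1) (S := S) (β := β) R
            (fun τ => W (fun x => τ x.castSucc) * c (fun x => τ x.castSucc) (τ (Fin.last N))) h u)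
          [(0, l), (0, 0)] (fun ps =>
            Φ (fun x => spinAt R (ps.getD 0 []) x.castSucc) (spinAt R (ps.getD 0 []) (Fin.last N))
              (fun x => spinAt R (ps.getD 1 []) x.castSucc) (spinAt R (ps.getD 1 []) (Fin.last N))) -
        ET R (lin R) (prodW R (pw (N := N) (S := S) (β := β) R W h u) fun p s => c (spinAt R p) s)
          [(0, l), (0, 0)] (fun ps =>
            Φ (spinAt R ((ps.getD 0 []).map Prod.fst)) (leafB R (ps.getD 0 []))
              (spinAt R ((ps.getD 1 []).map Prod.fst)) (leafB R (ps.getD 1 [])))| ≤ C / ((N : ℝ) + 1) := by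
  refine ⟨2 * rootC S β, by unfold rootC; positivity, ?_⟩
  intro N _ W hW c hc h u hh hu l hl Φ hΦ
  set J : List (Bare N S β × Bool) → List (Bare N S β × Bool) → ℝ := fun x y =>
    Φ (spinB R (x.map Prod.fst)) (leafB R x) (spinB R (y.map Prod.fst)) (leafB R y) with hJ
  have hJ1 : ∀ x y, |J x y| ≤ 1 := fun x y => hΦ _ _ _ _
  change |ET R (lin R) (wS (β := β) (S := S) R W c h u) _ _ -
    ET R (lin R) (wP (β := β) (S := S) R W c h u) _ _| ≤ _
  simp only [Vale.Agent.P168.MP.ET_cons, Vale.Agent.P168.MP.ET_nil, List.take_zero, List.nil_append,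
    List.cons_append, List.getD_cons_zero, List.getD_cons_succ, Nat.sub_zero]
  have pS : ∀ p, 0 < wS R W c h u (β := β) (S := S) p := fun p =>
    mul_pos (mul_pos (hW _) (hc _ _)) (exp_pos _)
  have pP : ∀ p, 0 < wP R W c h u (β := β) (S := S) p := fun p =>
    mul_pos (mul_pos (hW _) (exp_pos _)) (hc _ _)
  have eS : ∀ p q : List (Mark (N + 1) S β),
      Φ (fun x => spinAt R p x.castSucc) (spinAt R p (Fin.last N))
        (fun x => spinAt R q x.castSucc) (spinAt R q (Fin.last N)) = J (p.map fS) (q.map fS) :=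
    fun p q => by simp only [hJ, spinB_fS, leafB_fS]
  have eP : ∀ p q : List (Mark N S β × Bool),
      Φ (spinAt R (p.map Prod.fst)) (leafB R p) (spinAt R (q.map Prod.fst)) (leafB R q) =
        J (p.map fP) (q.map fP) :=
    fun p q => by simp only [hJ, spinB_fP, leafB_map fP (fun _ => rfl)]
  simp only [eS, eP]
  have hC : 0 ≤ rootC S β / ((N:ℝ) + 1) := by unfold rootC; positivity
  rcases l with _ | j
  · -- independent below the root
    simp only [List.take_zero, Nat.sub_zero]
    set HS := fun x => ext (lin R) (wS R W c h u) R [] (fun q => J x (q.map fS))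
    set HP := fun x => ext (lin R) (wP R W c h u) R [] (fun q => J x (q.map fP))
    have hH : ∀ x, |HS x - HP x| ≤ rootC S β / ((N:ℝ) + 1) := fun x => by
      refine (root_bound hR hW hc hh hu (fun q => hJ1 _ _) (fun q => hJ1 _ _) (δ := 0)
        fun v q => ?_).trans_eq (zero_add _)
      rw [extStep v q (J x) _ [], extP v q (J x) _ []]
      simp
    refine (root_bound hR hW hc hh hu (FS := fun p => HS (p.map fS)) (FP := fun p => HP (p.map fP))
      (fun p => Vale.Agent.P168.MP.ext_bound pS fun q => hJ1 _ _)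
      (fun p => Vale.Agent.P168.MP.ext_bound pP fun q => hJ1 _ _)
      (δ := rootC S β / ((N:ℝ) + 1)) fun v q => ?_).trans_eq (by ring)
    rw [extStep v q HS _ [], extP v q HP _ [], List.map_nil, List.map_nil,
      ← Vale.Agent.P168.MP.ext_sub]
    exact Vale.Agent.P168.MP.ext_bound (fun p => mul_pos (mul_pos (hW _) (exp_pos _)) (hc _ _)) hH
  · -- a common first mark
    refine (root_bound hR hW hc hh hu (fun p => Vale.Agent.P168.MP.ext_bound pS fun q => hJ1 _ _)
      (fun p => Vale.Agent.P168.MP.ext_bound pP fun q => hJ1 _ _) (δ := 0) fun v q => ?_).trans ?_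
    · set K : List (Bare N S β × Bool) → ℝ := fun x =>
        ext (lin R) (w0 R W c h u v) (R - (j + 1)) (x.take (j + 1)) (J x) with hK
      rw [Vale.Agent.P168.MP.ext_congr (G := fun p => K (p.map fS)) fun suf _ => ?_,
        Vale.Agent.P168.MP.ext_congr (w := wP R W c h u) (G := fun p => K (p.map fP)) fun suf _ => ?_,
        extStep v q K _ [], extP v q K _ []]
      · simp
      · simp only [hK, List.singleton_append, List.take_succ_cons, List.map_cons, fP_equiv]
        rw [extP v q (J _) _ (suf.take j), List.map_take]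
      · simp only [hK, List.singleton_append, List.take_succ_cons, List.map_cons, fS_equiv]
        rw [extStep v q (J _) _ (suf.take j), List.map_take]
    · rw [zero_add, mul_div_assoc]; linarith

/-! ### symmetry between the sites -/

namespace Sym

variable {n S : ℕ} {ι : Type} [Fintype ι] [DecidableEq ι] {β : ι → Batch}

/-- exchange of two sites in a mark -/
def markEquiv (a b : Fin n) : Mark n S β ≃ Mark n S β where
  toFun o := (o.1 ∘ Equiv.swap a b, fun i => (Equiv.swap a b (o.2 i).1, (o.2 i).2))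
  invFun o := (o.1 ∘ Equiv.swap a b, fun i => (Equiv.swap a b (o.2 i).1, (o.2 i).2))
  left_inv o := by
    refine Prod.ext (funext fun x => ?_) (funext fun i => Prod.ext ?_ rfl) <;>
      simp [Equiv.swap_apply_self]
  right_inv o := by
    refine Prod.ext (funext fun x => ?_) (funext fun i => Prod.ext ?_ rfl) <;>
      simp [Equiv.swap_apply_self]

variable [NeZero n] {a b : Fin n}

lemma spinAt_map (R : ℕ) (p : List (Mark n S β)) :
    spinAt R (p.map (markEquiv a b)) = fun x => spinAt R p (Equiv.swap a b x) := by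
  simp only [spinAt, List.getD_eq_getElem?_getD, List.getElem?_map]
  cases p[R - 1]? <;> rfl

lemma site_map (p : List (Mark n S β)) (i : ι × Fin S) (l : ℕ) :
    (Vale.Agent.P168.MP.siteAt (p.map (markEquiv a b)) i l).2 =
      (Vale.Agent.P168.MP.siteAt p i l).2 := by
  simp only [Vale.Agent.P168.MP.siteAt, List.getD_eq_getElem?_getD, List.getElem?_map]
  cases p[l - 1]? <;> rfl

variable {M : ℕ} {f : ℝ → ℝ} {h u : ι → ℝ} {R : ℕ}

/-- the patterns with two coordinates exchanged -/
def swapC (a b : Fin n) (g : Fin M → Fin n → ℝ) : Fin M → Fin n → ℝ :=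
  fun k x => g k (Equiv.swap a b x)

lemma ham_swap (g : Fin M → Fin n → ℝ) (σ : Fin n → Bool) :
    ham f (swapC a b g) σ = ham f g (fun x => σ (Equiv.swap a b x)) := by
  unfold ham
  refine congrArg exp (sum_congr rfl fun k _ => congrArg f ?_)
  unfold dot
  refine (Equiv.sum_comp (Equiv.swap a b) _).symm.trans (sum_congr rfl fun x _ => ?_)
  simp [swapC, Lim.xv, Equiv.swap_apply_self]

lemma pw_swap (g : Fin M → Fin n → ℝ) {p : List (Mark n S β)} (hp : p ≠ []) :
    pw R (ham f (swapC a b g)) h u p = pw R (ham f g) h u (p.map (markEquiv a b)) := by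
  obtain ⟨o, t, rfl⟩ := List.exists_cons_of_ne_nil hp
  rw [pw, pw, ham_swap, spinAt_map]
  congr 2
  refine sum_congr rfl fun i _ => ?_
  have hv : spinAt R ((o :: t).map (markEquiv a b))
      (Vale.Agent.P168.MP.siteAt ((o :: t).map (markEquiv a b)) i 1).1 =
      spinAt R (o :: t) (Vale.Agent.P168.MP.siteAt (o :: t) i 1).1 := by
    rw [spinAt_map]
    simp [Vale.Agent.P168.MP.siteAt, markEquiv, Equiv.swap_apply_self]
  rw [gain1, gain1,
    Vale.Agent.P168.MP.psiH_transfer (β i.1) hv (site_map (o :: t) i),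
    Vale.Agent.P168.MP.psi0_transfer (β i.1) hv (site_map (o :: t) i)]

/-- the correlation of site `x` between two replicas -/
noncomputable def pairAt (f : ℝ → ℝ) (R S : ℕ) (β : ι → Batch) (h u : ι → ℝ) (l : ℕ)
    (g : Fin M → Fin n → ℝ) (x : Fin n) : ℝ :=
  ET R (lin R) (pw (S := S) (β := β) R (ham f g) h u) [(0, l), (0, 0)] fun ps =>
    sg (spinAt R (ps.getD 0 []) x) * sg (spinAt R (ps.getD 1 []) x)

lemma qP_eq (l : ℕ) (g : Fin M → Fin n → ℝ) :
    qP f R S β h u g l = avg (pairAt f R S β h u l g) := by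
  simp only [qP, Par.qlev, Par.ovK, Par.ov, avg, pairAt, div_eq_mul_inv,
    Vale.Agent.P168.MP.ET_mul_const, Vale.Agent.P168.MP.ET_sum]

lemma pairAt_swap (hR : 1 ≤ R) {l : ℕ} (hl : l ≤ R) (g : Fin M → Fin n → ℝ) (x : Fin n) :
    pairAt f R S β h u l (swapC a b g) x = pairAt f R S β h u l g (Equiv.swap a b x) := by
  unfold pairAt
  rw [Vale.Agent.P168.MP.ET_congr_weight (Par.valid2 hl)
      (w' := fun p => pw R (ham f g) h u (p.map (markEquiv a b))) (fun q hq => pw_swap g (by
        rintro rfl; simp at hq; omega)),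
    Vale.Agent.P168.MP.ET_equiv (markEquiv a b)]
  congr 1
  funext ps
  rw [show ([] : List (Mark n S β)) = List.map (markEquiv a b).symm [] from rfl, List.getD_map,
    List.getD_map, show (markEquiv (S := S) (β := β) a b).symm = markEquiv a b from rfl]
  simp [spinAt_map]

lemma qP_min (g : Fin M → Fin n → ℝ) (l : ℕ) :
    qP f R S β h u g l = qP f R S β h u g (min l R) := by
  rcases le_total l R with hl | hl
  · rw [min_eq_left hl]
  · rw [min_eq_right hl]
    simp only [qP, Par.qlev, Vale.Agent.P168.MP.ET_cons, Vale.Agent.P168.MP.ET_nil, Nat.sub_self,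
      Nat.sub_eq_zero_of_le hl, Vale.Agent.P168.MP.ext_zero, List.nil_append, List.cons_append,
      List.getD_cons_zero, List.take_zero, Nat.sub_zero]
    refine Par.ext_congr_len fun p hp => ?_
    rw [List.take_of_length_le (hp.le.trans hl), List.take_of_length_le hp.le]

lemma qP_swap (hR : 1 ≤ R) (g : Fin M → Fin n → ℝ) :
    qP f R S β h u (swapC a b g) = qP f R S β h u g := by
  funext l
  rw [qP_min _ l, qP_min g l, qP_eq, qP_eq]
  simp only [funext (pairAt_swap (a := a) (b := b) hR (min_le_right l R) g)]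
  exact Vale.Agent.P168.MP.avg_equiv (Equiv.swap a b) _

lemma measurePreserving_swapC (a b : Fin n) :
    MeasurePreserving (swapC (M := M) a b) (pats n M) (pats n M) :=
  measurePreserving_pi _ _ fun _ =>
    ⟨measurable_pi_lambda _ fun _ => measurable_pi_apply _, Lim.map_reindex (Equiv.swap a b)⟩

end Sym

open Vale.Agent.P157.Full.Sym in
/-- the mean overlap may be read at the last site -/
theorem site_sym {f : ℝ → ℝ} (hf : Continuous f) {ι : Type} [Fintype ι] [DecidableEq ι]
    {β : ι → Batch} {R S N M : ℕ} {h u : ι → ℝ} (hR : 1 ≤ R) {F : (ℕ → ℝ) → ℝ} {C : ℝ}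
    (hc : Continuous fun g : Fin M → Fin (N + 1) → ℝ => F (qP f R S β h u g))
    (hb : ∀ g : Fin M → Fin (N + 1) → ℝ, |F (qP f R S β h u g)| ≤ C) {l : ℕ} (hl : l ≤ R) :
    ∫ g : Fin M → Fin (N + 1) → ℝ, F (qP f R S β h u g) * qP f R S β h u g l ∂pats (N + 1) M =
      ∫ g : Fin M → Fin (N + 1) → ℝ, F (qP f R S β h u g) *
        ET R (lin R) (pw (S := S) (β := β) R (ham f g) h u) [(0, l), (0, 0)] (fun ps =>
          sg (spinAt R (ps.getD 0 []) (Fin.last N)) * sg (spinAt R (ps.getD 1 []) (Fin.last N)))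
        ∂pats (N + 1) M := by
  set H : Fin (N + 1) → (Fin M → Fin (N + 1) → ℝ) → ℝ := fun x g =>
    F (qP f R S β h u g) * pairAt f R S β h u l g x with hH
  show _ = ∫ g, H (Fin.last N) g ∂pats (N + 1) M
  have hcont : ∀ x, Continuous (H x) := fun x => hc.mul
    (Par.continuous_ET (Par.continuous_pw_ham hf) Par.pw_ham_pos R _ fun _ => continuous_const)
  have hint : ∀ x, Integrable (H x) (pats (N + 1) M) := fun x =>
    Integrable.of_bound (hcont x).aestronglyMeasurable C (Filter.Eventually.of_forall fun g => by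
      rw [Real.norm_eq_abs, hH, abs_mul]
      refine (mul_le_mul (hb g) (Vale.Agent.P168.MP.ET_bound (Par.pw_ham_pos g) (C := 1) fun ps => ?_)
        (abs_nonneg _) ((abs_nonneg _).trans (hb g))).trans_eq (mul_one C)
      rw [abs_mul, Vale.Agent.P168.abs_sg, Vale.Agent.P168.abs_sg, one_mul])
  have key : ∀ x, ∫ g, H x g ∂pats (N + 1) M = ∫ g, H (Fin.last N) g ∂pats (N + 1) M := fun x => by
    have hp := measurePreserving_swapC (M := M) x (Fin.last N)
    conv_rhs => rw [← hp.map_eq, integral_map hp.measurable.aemeasurable (hcont _).aestronglyMeasurable]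
    refine integral_congr_ae (Filter.Eventually.of_forall fun g => ?_)
    simp only [hH, pairAt_swap hR hl, Equiv.swap_apply_right,
      qP_swap (a := x) (b := Fin.last N) hR g]
  calc ∫ g, F (qP f R S β h u g) * qP f R S β h u g l ∂pats (N + 1) M
      = ∫ g, avg (fun x => H x g) ∂pats (N + 1) M := by
        simp only [hH, Vale.Agent.P168.MP.avg_mul_left, qP_eq]
    _ = avg fun x => ∫ g, H x g ∂pats (N + 1) M := by
        simp only [avg]; rw [integral_div, integral_finsetSum _ fun x _ => hint x]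
    _ = _ := by simp only [key, Vale.Agent.P168.MP.avg_const]

end Vale.Agent.P157.Full
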