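import Vale.Agent.P157.Par.Defs

/-! Objects of the Hopf form of the formula for every bounded Borel potential. A point is a monotone
nonnegative path `h` of covariances of a site field over the levels `0..R`; the overlaps it generates
are `qh R h`, and the formula is the infimum of `Jval`. -/

open MeasureTheory ProbabilityTheory Real
open Vale.Agent.P168.MP (lin)

namespace Vale.Agent.P157.Full

/-- overlaps generated by the path `h`: tilted second moments of `tanh`, and `1` at the top -/
noncomputable def qh (R : ℕ) (h : ℕ → ℝ) (l : ℕ) : ℝ :=
  if l < R then Par.Gamma Real.cosh Real.tanh R (lin R) h l else 1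

/-- the site functional; it does not depend on the top covariance -/
noncomputable def psiH (R : ℕ) (h : ℕ → ℝ) : ℝ := Par.Phi Real.cosh R (lin R) h - h R / 2

/-- the pairing of a path with overlaps -/
noncomputable def dotH (R : ℕ) (h q : ℕ → ℝ) : ℝ := (∑ l ∈ Finset.range R, h l * q l) / R

/-- the value of a path -/
noncomputable def Jval (α : ℝ) (f : ℝ → ℝ) (R : ℕ) (h : ℕ → ℝ) : ℝ :=
  α * Par.Phi (fun y => Real.exp (f y)) R (lin R) (qh R h) + psiH R h + dotH R h (qh R h) / 2

/-- the path constant on blocks of `k` levels -/
def rep (k : ℕ) (h : ℕ → ℝ) : ℕ → ℝ := fun l => h (l / k)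

end Vale.Agent.P157.Full
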