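import Vale.Agent.P157.Full.SpinMarg
import Vale.Agent.P157.Full.Defs
import Vale.Agent.P157.Par.Incr

/-! The new spin given the base system: its pair overlaps are those generated by the field `α Γ(q)`, and it
moves the old overlaps little. -/

open MeasureTheory ProbabilityTheory Real Finset
open Vale.Agent.P150 (gauss dot)
open Vale.Agent.P168 (sg)
open Vale.Agent.P168.MP (lin ET avg)

namespace Vale.Agent.P157.Full

open Par (Sm Prof Gm siteF uat gsum cv avec)

variable {f f1 f2 f3 : ℝ → ℝ} {B D : ℝ}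

lemma sg_sq (s : Bool) : sg s ^ 2 = 1 := by cases s <;> norm_num [sg]

lemma abs_sg_one (s : Bool) : |sg s| = 1 := by cases s <;> norm_num [sg]

lemma avg_exp_sg (x : ℝ) : avg (fun s : Bool => exp (sg s * x)) = cosh x := by
  simp [avg, sg, cosh_eq]

lemma spinMean_const {Ω : Type} {Y : List Ω → Bool → ℝ} (hY : ∀ p s, 0 < Y p s) (H : List Ω → ℝ) (p : List Ω) :
    spinMean Y (fun p _ => H p) p = H p := by
  unfold spinMean
  have h := (Vale.Agent.P168.MP.avg_pos (hY p)).ne'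
  simp only [avg] at h ⊢
  rw [← sum_mul]
  field_simp
  exact mul_div_cancel_left₀ _ (fun e => h (by rw [e]; simp))

lemma spinMean_sg {Ω : Type} (X : List Ω → ℝ) (c : ℝ) (p : List Ω) :
    spinMean (fun p s => exp (sg s * X p)) (fun _ s => c * sg s) p = c * (sinh (X p) / cosh (X p)) := by
  unfold spinMean
  rw [show avg (fun s : Bool => exp (sg s * X p) * (c * sg s)) = c * sinh (X p) by
    simp [avg, sg, sinh_eq]; ring, avg_exp_sg, mul_div_assoc]

/-- a Gaussian absolute moment of order six -/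
noncomputable def c6 : ℝ := ∫ z, |z| ^ 6 ∂gaussianReal 0 1

lemma c6_nonneg : 0 ≤ c6 := integral_nonneg fun z => by positivity

lemma integral_cube_sq {ι : Type} [Fintype ι] :
    Integrable (fun z : ι → ℝ => (∑ a, |z a| ^ 3) ^ 2) (gauss ι) ∧
    ∫ z, (∑ a, |z a| ^ 3) ^ 2 ∂gauss ι ≤ Fintype.card ι * (Fintype.card ι * c6) := by
  have h : ∀ a : ι, Integrable (fun z : ι → ℝ => |z a| ^ 6) (gauss ι) := fun a =>
    (measurePreserving_eval (fun _ : ι => gaussianReal 0 1) a).integrable_comp_of_integrable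
      (Par.integrable_pow_gaussian 6)
  have hs : Integrable (fun z : ι → ℝ => (Fintype.card ι : ℝ) * ∑ a, |z a| ^ 6) (gauss ι) :=
    (integrable_finsetSum _ fun a _ => h a).const_mul _
  have hle : ∀ z : ι → ℝ, (∑ a, |z a| ^ 3) ^ 2 ≤ (Fintype.card ι : ℝ) * ∑ a, |z a| ^ 6 := fun z => by
    refine (sq_sum_le_card_mul_sum_sq (s := univ) (f := fun a => |z a| ^ 3)).trans_eq ?_
    simp [← pow_mul]
  have hi : Integrable (fun z : ι → ℝ => (∑ a, |z a| ^ 3) ^ 2) (gauss ι) :=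
    hs.mono' (Continuous.aestronglyMeasurable (by fun_prop)) (Filter.Eventually.of_forall fun z => by
      rw [Real.norm_eq_abs, abs_of_nonneg (sq_nonneg _)]; exact hle z)
  refine ⟨hi, (integral_mono hi hs hle).trans_eq ?_⟩
  rw [integral_const_mul, integral_finsetSum _ fun a _ => h a]
  congr 1
  rw [sum_congr rfl fun a _ => show ∫ z : ι → ℝ, |z a| ^ 6 ∂gauss ι = c6 from
    (measurePreserving_eval (fun _ : ι => gaussianReal 0 1) a).hasLaw.integral_comp
      (f := fun x => |x| ^ 6) (by fun_prop)]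
  simp

section kernel
variable {Ω : Type} [Fintype Ω] [Nonempty Ω] {R N M : ℕ}

lemma devOf_avec (hS : Sm f f1 f2 f3 B D) {w : List Ω → ℝ} (hw : ∀ p, 0 < w p)
    (rd : List Ω → Fin N → Bool) (g : Fin M → Fin N → ℝ)
    {c t : ℝ} (hc : 0 ≤ c) (hct : c ^ 2 + t ^ 2 = 1) {α : ℝ} (hα : 0 ≤ α) (G : ℕ → ℝ) (l : ℕ) :
    Par.devOf R w (cv (avec f1 c t rd g)) (fun l => α * G l) l ≤ α * Par.devOf R w (Par.qK f1 rd g) G l +
      (|(M : ℝ) * t ^ 2 - α| * D ^ 2 + t ^ 2 * t ^ 2 * (2 * D ^ 2) * gsum g) := by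
  refine (Vale.Agent.P168.MP.ET_mono hw fun ps =>
    Par.abs_cv_avec hS rd g hc hct (ps.getD 0 []) (ps.getD 1 []) (G := G l) hα).trans_eq ?_
  rw [Vale.Agent.P168.MP.ET_add, Vale.Agent.P168.MP.ET_const_mul, Vale.Agent.P168.MP.ET_const hw]
  rfl

end kernel

section steps
variable {Ω : Type} [Fintype Ω] [Nonempty Ω] {R N M : ℕ}

/-- the exponent of the shrunk base -/
noncomputable def psiS (f f2 : ℝ → ℝ) (c t : ℝ) (rd : List Ω → Fin N → Bool) (g : Fin M → Fin N → ℝ)
    (p : List Ω) : ℝ :=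
  ∑ i, (f (c * uat rd g p i) - f (uat rd g p i) + t ^ 2 / 2 * f2 (c * uat rd g p i))

/-- the second order remainder -/
noncomputable def remS (f2 : ℝ → ℝ) (c t : ℝ) (rd : List Ω → Fin N → Bool) (g : Fin M → Fin N → ℝ)
    (z : Fin M → ℝ) (p : List Ω) : ℝ :=
  ∑ i, t ^ 2 / 2 * f2 (c * uat rd g p i) * (z i ^ 2 - 1)

/-- the third order remainder -/
noncomputable def kapS (D t : ℝ) (z : Fin M → ℝ) : ℝ := D * t ^ 3 * ∑ i, |z i| ^ 3

omit [Fintype Ω] [Nonempty Ω] in
lemma abs_psiS_le (hS : Sm f f1 f2 f3 B D) (rd : List Ω → Fin N → Bool) (g : Fin M → Fin N → ℝ) {c t A U : ℝ}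
    (hc : 0 ≤ c) (hct : c ^ 2 + t ^ 2 = 1) (hMt : (M : ℝ) * t ^ 2 ≤ A) {p : List Ω}
    (hU : t ^ 2 * ∑ a, |uat rd g p a| ≤ U) : |psiS f f2 c t rd g p| ≤ D * (U + A) := by
  have hD := hS.nonneg
  refine (abs_sum_le_sum_abs _ _).trans ((sum_le_sum
    (g := fun i => D * t ^ 2 * |uat rd g p i| + t ^ 2 / 2 * D) fun i _ => ?_).trans ?_)
  · refine (abs_add_le _ _).trans (add_le_add ?_ ?_)
    · refine (Par.lip_of_deriv hS.d0 hS.b1 _ _).trans ?_
      rw [show c * uat rd g p i - uat rd g p i = (c - 1) * uat rd g p i by ring, abs_mul, mul_assoc]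
      exact mul_le_mul_of_nonneg_left (mul_le_mul_of_nonneg_right (Par.shrink hc hct).1 (abs_nonneg _)) hD
    · rw [abs_mul, abs_of_nonneg (show (0:ℝ) ≤ t ^ 2 / 2 by positivity)]
      exact mul_le_mul_of_nonneg_left (hS.b2 _) (by positivity)
  · rw [sum_add_distrib, ← mul_sum, sum_const, card_univ, Fintype.card_fin, nsmul_eq_mul, mul_assoc D, mul_add]
    have h2 := mul_le_mul_of_nonneg_right hMt hD
    have h0 : 0 ≤ (M : ℝ) * t ^ 2 * D := by positivity
    exact add_le_add (mul_le_mul_of_nonneg_left hU hD) (by linarith)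

omit [Fintype Ω] [Nonempty Ω] in
lemma siteF_eq (hS : Sm f f1 f2 f3 B D) (rd : List Ω → Fin N → Bool) (g : Fin M → Fin N → ℝ) (c : ℝ) {t : ℝ}
    (ht : 0 < t) (z : Fin M → ℝ) (p : List Ω) (s : Bool) :
    ∃ e : ℝ, |e| ≤ |remS f2 c t rd g z p| + kapS D t z ∧
      siteF f c t g z (rd p) s = exp (psiS f f2 c t rd g p + sg s * dot (avec f1 c t rd g p) z + e) := by
  refine ⟨remS f2 c t rd g z p + ∑ i, (f (c * uat rd g p i + t * sg s * z i) - f (c * uat rd g p i) -
    t * sg s * z i * f1 (c * uat rd g p i) - (t * sg s * z i) ^ 2 / 2 * f2 (c * uat rd g p i)),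
    (abs_add_le _ _).trans (add_le_add le_rfl ((abs_sum_le_sum_abs _ _).trans ?_)), ?_⟩
  · simp only [kapS, mul_sum]
    refine sum_le_sum fun i _ => (hS.taylor_two _ _).trans_eq ?_
    rw [abs_mul, abs_mul, abs_sg_one, mul_one, abs_of_pos ht]; ring
  · rw [siteF]
    congr 1
    simp only [psiS, remS, avec, dot, mul_sum, ← sum_add_distrib, uat]
    refine sum_congr rfl fun i _ => ?_
    rw [show (t * sg s * z i) ^ 2 = t ^ 2 * sg s ^ 2 * z i ^ 2 by ring, sg_sq]
    ring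

omit [Fintype Ω] [Nonempty Ω] in
lemma abs_remS_le (hS : Sm f f1 f2 f3 B D) (rd : List Ω → Fin N → Bool) (g : Fin M → Fin N → ℝ) (c t : ℝ)
    (z : Fin M → ℝ) (p : List Ω) :
    |remS f2 c t rd g z p| ≤ D / 2 * ((∑ i, t ^ 2 * (z i ^ 2 - 1)) + 2 * ((M : ℝ) * t ^ 2)) := by
  have hD := hS.nonneg
  refine (abs_sum_le_sum_abs _ _).trans ((sum_le_sum
    (g := fun i => D / 2 * (t ^ 2 * (z i ^ 2 - 1) + 2 * t ^ 2)) fun i _ => ?_).trans_eq ?_)
  · rw [abs_mul, abs_mul, abs_of_nonneg (show (0:ℝ) ≤ t ^ 2 / 2 by positivity),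
      show t ^ 2 * (z i ^ 2 - 1) + 2 * t ^ 2 = t ^ 2 * (z i ^ 2 + 1) by ring]
    have h1 : |z i ^ 2 - 1| ≤ z i ^ 2 + 1 := abs_le.2 ⟨by linarith [sq_nonneg (z i)], by linarith⟩
    calc t ^ 2 / 2 * |f2 (c * uat rd g p i)| * |z i ^ 2 - 1| ≤ t ^ 2 / 2 * D * (z i ^ 2 + 1) :=
          mul_le_mul (mul_le_mul_of_nonneg_left (hS.b2 _) (by positivity)) h1 (abs_nonneg _) (by positivity)
      _ = _ := by ring
  · rw [← mul_sum, sum_add_distrib, sum_const, card_univ, Fintype.card_fin, nsmul_eq_mul]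
    ring

/-- at a fixed noise: the exact factor against the exponential of the field -/
lemma noise_cmp (hR : 1 ≤ R) {w : List Ω → ℝ} (hw : ∀ p, 0 < w p) {Ψ X H : List Ω → ℝ}
    {Y : List Ω → Bool → ℝ} (hY : ∀ p s, 0 < Y p s)
    (he : ∀ p s, ∃ e : ℝ, |e| ≤ H p ∧ Y p s = exp (Ψ p + sg s * X p + e))
    {b bad : ℝ} (hbad : 0 ≤ bad) (hgood : bad < 1 → ∀ p, H p ≤ b) {T : List (ℕ × ℕ)}
    (hT : Vale.Agent.P168.MP.Valid R T) {F : List (List (Ω × Bool)) → ℝ} {C : ℝ} (hF : ∀ ps, |F ps| ≤ C) :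
    |ET R (lin R) (prodW R w Y) T F -
        ET R (lin R) (prodW R (fun p => w p * exp (Ψ p)) fun p s => exp (sg s * X p)) T F| ≤
      C * (exp (2 * b) * (3 * T.length)) *
          ET R (lin R) (fun p => w p * exp (Ψ p)) [(0, 0)] (fun ps => H (ps.getD 0 []) * cosh (X (ps.getD 0 []))) +
        2 * C * bad := by
  choose e heb hee using he
  have hC : 0 ≤ C := (abs_nonneg _).trans (hF [])
  have hH : ∀ p, 0 ≤ H p := fun p => (abs_nonneg _).trans (heb p true)
  set w' := fun p => w p * exp (Ψ p)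
  have hw' : ∀ p, 0 < w' p := fun p => mul_pos (hw p) (exp_pos _)
  set W0 := prodW R w' fun p s => exp (sg s * X p)
  have hW0 : ∀ p, 0 < W0 p := prodW_pos hw' fun p s => exp_pos _
  have hW : ∀ p, 0 < prodW R w Y p := prodW_pos hw hY
  set Hb := ET R (lin R) w' [(0, 0)] fun ps => H (ps.getD 0 []) * cosh (X (ps.getD 0 []))
  have hHb : 0 ≤ Hb := Vale.Agent.P168.MP.ET_nonneg hw' fun _ => mul_nonneg (hH _) (cosh_pos _).le
  have e2 := Vale.Agent.P168.MP.ET_bound (R := R) (m := lin R) (T := T) hW0 hF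
  rcases lt_or_ge bad 1 with hb | hb
  · set E := fun p : List (Ω × Bool) => e (p.map Prod.fst) (leafB R p)
    have heq : prodW R w Y = fun p => W0 p * exp (E p) := funext fun p => by
      simp only [prodW, W0, w', E, hee, exp_add]; ring
    have h := ET_exp_small hR hW0 (U := E) (b := b) (fun p => (heb _ _).trans (hgood hb _)) hT hF
    rw [← heq] at h
    have hs : ET R (lin R) W0 [(0, 0)] (fun ps => |E (ps.getD 0 [])|) ≤ Hb := by
      refine (Vale.Agent.P168.MP.ET_mono (G := fun ps => H ((ps.getD 0 []).map Prod.fst)) hW0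
        fun ps => heb _ _).trans ?_
      rw [ET_prodW_one (w := w') hR hw' (fun p s => exp_pos _) fun p _ => H p]
      simp only [spinMean_const (Y := fun p s => exp (sg s * X p)) fun p s => exp_pos _]
      rw [show wbar w' (fun p s => exp (sg s * X p)) = fun p => w' p * cosh (X p) from funext fun p => by
        rw [wbar, avg_exp_sg]]
      refine (Par.ET_one_tilt hR hw' one_pos (Y := fun p => cosh (X p)) (fun p => one_le_cosh _) hH).trans_eq ?_
      simp [Hb]
    refine h.trans (le_trans ?_ (le_add_of_nonneg_right (mul_nonneg (by positivity) hbad)))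
    rw [mul_assoc C (exp (2 * b))]
    exact mul_le_mul_of_nonneg_left hs (by positivity)
  · refine ((abs_sub _ _).trans (add_le_add (Vale.Agent.P168.MP.ET_bound hW hF) e2)).trans ?_
    have h1 := mul_nonneg (mul_nonneg hC (show 0 ≤ exp (2 * b) * (3 * (T.length : ℝ)) by positivity)) hHb
    have h2 := mul_le_mul_of_nonneg_left hb (show 0 ≤ 2 * C by positivity)
    linarith

omit [Fintype Ω] [Nonempty Ω] in
/-- the mean of the remainder -/
lemma integral_rem_le (hS : Sm f f1 f2 f3 B D) (rd : List Ω → Fin N → Bool) (g : Fin M → Fin N → ℝ) (c : ℝ)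
    {t A V : ℝ} (ht : 0 < t) (hMt : (M : ℝ) * t ^ 2 ≤ A) (p : List Ω)
    (hV : cv (avec f1 c t rd g) p p ≤ V) :
    Integrable (fun z => (|remS f2 c t rd g z p| + kapS D t z) * cosh (dot (avec f1 c t rd g p) z))
        (gauss (Fin M)) ∧
      ∫ z, (|remS f2 c t rd g z p| + kapS D t z) * cosh (dot (avec f1 c t rd g p) z) ∂gauss (Fin M) ≤
        t * (A * Par.c4 * D ^ 2 + exp (2 * V) + (D ^ 2 * c6 * A ^ 2 + exp (2 * V))) := by
  have hD := hS.nonneg
  have hc6 := c6_nonneg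
  set a := avec f1 c t rd g p
  obtain ⟨h1, h2⟩ := Par.integral_centred_le hS (fun i => f2 (c * uat rd g p i)) (fun i => hS.b2 _) a ht hMt hV
  obtain ⟨h3, h4⟩ := integral_cube_sq (ι := Fin M)
  obtain ⟨h5, h6⟩ := Par.integrable_cosh_sq a
  have hk0 : ∀ z : Fin M → ℝ, 0 ≤ kapS D t z := fun z =>
    mul_nonneg (by positivity) (sum_nonneg fun _ _ => by positivity)
  have hle : ∀ z, kapS D t z * cosh (dot a z) ≤ (D * t ^ 3) ^ 2 / t * (∑ i, |z i| ^ 3) ^ 2 +
      t * cosh (dot a z) ^ 2 := fun z => by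
    rw [div_mul_eq_mul_div, ← mul_pow, div_add' _ _ _ ht.ne', le_div_iff₀ ht]
    have hh := hk0 z
    simp only [kapS] at hh ⊢
    nlinarith [two_mul_le_add_sq (D * t ^ 3 * ∑ i, |z i| ^ 3) (t * cosh (dot a z)),
      mul_nonneg (mul_nonneg hh ht.le) (cosh_pos (dot a z)).le]
  have hrhs : Integrable (fun z => (D * t ^ 3) ^ 2 / t * (∑ i, |z i| ^ 3) ^ 2 + t * cosh (dot a z) ^ 2)
      (gauss (Fin M)) := (h3.const_mul _).add (h5.const_mul t)
  have hik : Integrable (fun z => kapS D t z * cosh (dot a z)) (gauss (Fin M)) := by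
    refine hrhs.mono' ?_ (Filter.Eventually.of_forall fun z => ?_)
    · exact ((show Continuous fun z : Fin M → ℝ => kapS D t z by unfold kapS; fun_prop).mul
        (continuous_cosh.comp (Par.continuous_dot_left _))).aestronglyMeasurable
    · rw [Real.norm_eq_abs, abs_of_nonneg (mul_nonneg (hk0 z) (cosh_pos _).le)]
      exact hle z
  have h1' : Integrable (fun z => |remS f2 c t rd g z p| * cosh (dot a z)) (gauss (Fin M)) := h1
  rw [show (fun z => (|remS f2 c t rd g z p| + kapS D t z) * cosh (dot a z)) =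
    fun z => |remS f2 c t rd g z p| * cosh (dot a z) + kapS D t z * cosh (dot a z) from funext fun z => add_mul _ _ _]
  refine ⟨h1'.add hik, ?_⟩
  rw [integral_add h1' hik, mul_add]
  refine add_le_add h2 ((integral_mono hik hrhs hle).trans ?_)
  rw [integral_add (h3.const_mul _) (h5.const_mul t), integral_const_mul, integral_const_mul, mul_add]
  refine add_le_add ?_ (mul_le_mul_of_nonneg_left (h6.trans (exp_le_exp.2 ?_)) ht.le)
  · rw [Fintype.card_fin] at h4
    calc (D * t ^ 3) ^ 2 / t * _ ≤ (D * t ^ 3) ^ 2 / t * ((M:ℝ) * ((M:ℝ) * c6)) :=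
          mul_le_mul_of_nonneg_left h4 (by positivity)
      _ = t * (D ^ 2 * c6 * ((M:ℝ) * t ^ 2) ^ 2) := by field_simp
      _ ≤ _ := by gcongr
  · exact mul_le_mul_of_nonneg_left hV (by norm_num)

lemma continuous_kapS (D t : ℝ) : Continuous fun z : Fin M → ℝ => kapS D t z := by unfold kapS; fun_prop

/-- averaged over the noise, the exact factor is the exponential of the field up to `O(t)` -/
lemma noise_mean (hS : Sm f f1 f2 f3 B D) (hR : 1 ≤ R) {w : List Ω → ℝ} (hw : ∀ p, 0 < w p)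
    (rd : List Ω → Fin N → Bool) (g : Fin M → Fin N → ℝ) {c t A V : ℝ} (ht : 0 < t) (ht1 : t ≤ 1)
    (hMt : (M : ℝ) * t ^ 2 ≤ A) (hV : ∀ p, cv (avec f1 c t rd g) p p ≤ V) {T : List (ℕ × ℕ)}
    (hT : Vale.Agent.P168.MP.Valid R T) {F : List (List (Ω × Bool)) → ℝ} {C : ℝ} (hF : ∀ ps, |F ps| ≤ C) :
    |(∫ z, ET R (lin R) (prodW R w fun p s => siteF f c t g z (rd p) s) T F ∂gauss (Fin M)) -
      ∫ z, ET R (lin R) (prodW R (fun p => w p * exp (psiS f f2 c t rd g p))
        fun p s => exp (sg s * dot (avec f1 c t rd g p) z)) T F ∂gauss (Fin M)| ≤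
      C * (exp (2 * (D / 2 * (1 + 2 * A) + 1)) * (3 * T.length) *
          (A * Par.c4 * D ^ 2 + exp (2 * V) + (D ^ 2 * c6 * A ^ 2 + exp (2 * V))) +
        2 * (Par.c4 * A + A * D * Par.c3)) * t := by
  have hD := hS.nonneg
  have hc4 := Par.c4_nonneg
  have hC : 0 ≤ C := (abs_nonneg _).trans (hF [])
  have hf0 : Continuous f := hS.cont0
  set Ψ := psiS f f2 c t rd g
  set w' := fun p => w p * exp (Ψ p) with hw'def
  have hw' : ∀ p, 0 < w' p := fun p => mul_pos (hw p) (exp_pos _)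
  set KH := A * Par.c4 * D ^ 2 + exp (2 * V) + (D ^ 2 * c6 * A ^ 2 + exp (2 * V))
  set K0 := exp (2 * (D / 2 * (1 + 2 * A) + 1)) * (3 * (T.length : ℝ))
  set bad : (Fin M → ℝ) → ℝ := fun z => (∑ i, t ^ 2 * (z i ^ 2 - 1)) ^ 2 + kapS D t z with hbad
  set Hb : (Fin M → ℝ) → ℝ := fun z => ET R (lin R) w' [(0, 0)] fun ps =>
    (|remS f2 c t rd g z (ps.getD 0 [])| + kapS D t z) * cosh (dot (avec f1 c t rd g (ps.getD 0 [])) z) with hHb
  have hk0 : ∀ z : Fin M → ℝ, 0 ≤ kapS D t z := fun z =>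
    mul_nonneg (by positivity) (sum_nonneg fun _ _ => by positivity)
  have hb0 : ∀ z, 0 ≤ bad z := fun z => add_nonneg (sq_nonneg _) (hk0 z)
  have hWp : ∀ z p, 0 < prodW R w (fun p s => siteF f c t g z (rd p) s) p := fun z p =>
    prodW_pos hw (fun p s => exp_pos _) p
  have hW0p : ∀ z p, 0 < prodW R w' (fun p s => exp (sg s * dot (avec f1 c t rd g p) z)) p := fun z p =>
    prodW_pos hw' (fun p s => exp_pos _) p
  have i1 : Integrable (fun z => ET R (lin R) (prodW R w fun p s => siteF f c t g z (rd p) s) T F)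
      (gauss (Fin M)) :=
    Integrable.of_bound (Par.continuous_ET (m := lin R) (fun p => by simp only [prodW, siteF]; fun_prop)
      hWp R T (F := fun _ => F) fun _ => continuous_const).aestronglyMeasurable C
      (Filter.Eventually.of_forall fun z => Vale.Agent.P168.MP.ET_bound (hWp z) hF)
  have i2 : Integrable (fun z => ET R (lin R)
      (prodW R w' fun p s => exp (sg s * dot (avec f1 c t rd g p) z)) T F) (gauss (Fin M)) :=
    Integrable.of_bound (Par.continuous_ET (m := lin R) (fun p => by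
        simp only [prodW]
        exact continuous_const.mul (continuous_exp.comp (continuous_const.mul (Par.continuous_dot_left _))))
      hW0p R T (F := fun _ => F) fun _ => continuous_const).aestronglyMeasurable C
      (Filter.Eventually.of_forall fun z => Vale.Agent.P168.MP.ET_bound (hW0p z) hF)
  have hcmp : ∀ z, |ET R (lin R) (prodW R w fun p s => siteF f c t g z (rd p) s) T F -
      ET R (lin R) (prodW R w' fun p s => exp (sg s * dot (avec f1 c t rd g p) z)) T F| ≤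
      C * K0 * Hb z + 2 * C * bad z := fun z => by
    refine noise_cmp hR hw (H := fun p => |remS f2 c t rd g z p| + kapS D t z) (fun p s => exp_pos _)
      (fun p s => siteF_eq hS rd g c ht z p s) (hb0 z) (fun hb p => ?_) hT hF
    have h1 : ∑ i, t ^ 2 * (z i ^ 2 - 1) ≤ 1 := by
      have hsq : (∑ i, t ^ 2 * (z i ^ 2 - 1)) ^ 2 < 1 := by simp only [hbad] at hb; linarith [hk0 z]
      nlinarith
    have h2 : kapS D t z ≤ 1 := by
      simp only [hbad] at hb; linarith [sq_nonneg (∑ i, t ^ 2 * (z i ^ 2 - 1))]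
    refine add_le_add ((abs_remS_le hS rd g c t z p).trans ?_) h2
    exact mul_le_mul_of_nonneg_left (by linarith) (by positivity)
  obtain ⟨hiX, heX⟩ := Par.integral_sq_sum (ι := Fin M) fun _ => t ^ 2
  obtain ⟨hiK, heK⟩ := Par.integral_abs_cube (ι := Fin M)
  have hkc : Integrable (fun z : Fin M → ℝ => kapS D t z) (gauss (Fin M)) := hiK.const_mul _
  have hib : Integrable bad (gauss (Fin M)) := hiX.add hkc
  have hbadi : ∫ z, bad z ∂gauss (Fin M) ≤ t * (Par.c4 * A + A * D * Par.c3) := by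
    simp only [hbad]
    rw [integral_add hiX hkc, mul_add]
    refine add_le_add (heX.trans_le ?_) ?_
    · rw [sum_const, card_univ, Fintype.card_fin, nsmul_eq_mul]
      calc Par.c4 * ((M : ℝ) * (t ^ 2) ^ 2) = t ^ 2 * (Par.c4 * ((M : ℝ) * t ^ 2)) := by ring
        _ ≤ t * (Par.c4 * A) := mul_le_mul (by nlinarith) (mul_le_mul_of_nonneg_left hMt hc4)
            (by positivity) ht.le
    · simp only [kapS]
      rw [integral_const_mul, heK, Fintype.card_fin]
      have := Par.c3_nonneg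
      calc D * t ^ 3 * (Par.c3 * M) = t * ((M:ℝ) * t ^ 2 * D * Par.c3) := by ring
        _ ≤ _ := by gcongr
  obtain ⟨hiH, heH⟩ := Par.integral_ET_one (R := R) (m := lin R) (w := w') (μ := gauss (Fin M))
    (fun z p => (|remS f2 c t rd g z p| + kapS D t z) * cosh (dot (avec f1 c t rd g p) z))
    fun p => (integral_rem_le hS rd g c ht hMt p (hV p)).1
  have hHi : ∫ z, Hb z ∂gauss (Fin M) ≤ t * KH := by
    simp only [hHb]
    rw [heH]
    refine (Vale.Agent.P168.MP.ET_mono hw' fun ps => (integral_rem_le hS rd g c ht hMt _ (hV _)).2).trans_eq ?_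
    rw [Vale.Agent.P168.MP.ET_const hw']
  rw [← integral_sub i1 i2]
  refine abs_integral_le_integral_abs.trans ((integral_mono (i1.sub i2).abs
    ((hiH.const_mul (C * K0)).add (hib.const_mul (2 * C))) hcmp).trans ?_)
  rw [integral_add' (hiH.const_mul _) (hib.const_mul _), integral_const_mul, integral_const_mul]
  have h1 := mul_le_mul_of_nonneg_left hHi (show 0 ≤ C * K0 by positivity)
  have h2 := mul_le_mul_of_nonneg_left hbadi (show 0 ≤ 2 * C by positivity)
  linarith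

/-- the covariance of the new field against `α Γ(q)` under the tilted base -/
lemma dev_tilt (hS : Sm f f1 f2 f3 B D) [NeZero N] (hR : 1 ≤ R) {w : List Ω → ℝ} (hw : ∀ p, 0 < w p)
    {Y : List Ω → ℝ} {b : ℝ} (hY : ∀ p, exp (-b) ≤ Y p ∧ Y p ≤ exp b) (rd : List Ω → Fin N → Bool)
    (g : Fin M → Fin N → ℝ) {c t α A : ℝ} (hc : 0 ≤ c) (ht : 0 < t) (hct : c ^ 2 + t ^ 2 = 1) (hα : 0 ≤ α)
    (hαA : α ≤ A) (q : ℕ → ℝ) {l : ℕ} (hl : l ≤ R) :
    0 ≤ sdev f f1 R w rd g q l + |(M : ℝ) * t ^ 2 - α| + t ^ 2 * t ^ 2 * gsum g + t ∧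
    t ≤ sdev f f1 R w rd g q l + |(M : ℝ) * t ^ 2 - α| + t ^ 2 * t ^ 2 * gsum g + t ∧
    Par.devOf R (fun p => w p * Y p) (cv (avec f1 c t rd g)) (fun j => α * Gm f f1 R q j) l +
        Par.adev R (fun p => w p * Y p) (cv (avec f1 c t rd g)) (fun j => α * Gm f f1 R q j) ≤
      exp (4 * b) * (A + 6 * D ^ 2 + 1) *
        (sdev f f1 R w rd g q l + |(M : ℝ) * t ^ 2 - α| + t ^ 2 * t ^ 2 * gsum g + t) ∧
    Par.devOf R (fun p => w p * Y p) (Par.ovK rd) q l ≤ exp (4 * b) * (A + 6 * D ^ 2 + 1) *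
        (sdev f f1 R w rd g q l + |(M : ℝ) * t ^ 2 - α| + t ^ 2 * t ^ 2 * gsum g + t) := by
  have hA : 0 ≤ A := hα.trans hαA
  set S := sdev f f1 R w rd g q l + |(M : ℝ) * t ^ 2 - α| + t ^ 2 * t ^ 2 * gsum g + t with hSd
  have hdl := abs_nonneg ((M : ℝ) * t ^ 2 - α)
  have hG0 : 0 ≤ t ^ 2 * t ^ 2 * gsum g :=
    mul_nonneg (by positivity) (sum_nonneg fun _ _ => sum_nonneg fun _ _ => by positivity)
  have h1 := Par.devOf_nn (R := R) (C := Par.ovK rd) (q := q) hw l
  have h2 := Par.adev_nn (R := R) (C := Par.ovK rd) (q := q) hw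
  have h3 := Par.devOf_nn (R := R) (C := Par.qK f1 rd g) (q := Gm f f1 R q) hw l
  have h4 := Par.adev_nn (R := R) (C := Par.qK f1 rd g) (q := Gm f f1 R q) hw
  have hs : 0 ≤ S ∧ Par.devOf R w (Par.qK f1 rd g) (Gm f f1 R q) l +
      Par.adev R w (Par.qK f1 rd g) (Gm f f1 R q) ≤ S ∧ Par.devOf R w (Par.ovK rd) q l ≤ S ∧
      |(M : ℝ) * t ^ 2 - α| + t ^ 2 * t ^ 2 * gsum g ≤ S ∧ t ≤ S := by
    simp only [hSd, sdev]
    refine ⟨?_, ?_, ?_, ?_, ?_⟩ <;> linarith
  have htilt : ∀ (C : List Ω → List Ω → ℝ) (p : ℕ → ℝ) {j : ℕ}, j ≤ R →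
      Par.devOf R (fun p => w p * Y p) C p j ≤ exp (4 * b) * Par.devOf R w C p j := fun C p j hj =>
    (Par.rep_tilt hR hw hY rd C p hj).1
  refine ⟨hs.1, hs.2.2.2.2, ?_, ?_⟩
  · set a := avec f1 c t rd g
    set q' := fun j => α * Gm f f1 R q j
    have hR' : (0:ℝ) < R := by exact_mod_cast hR
    have hsum : Par.adev R (fun p => w p * Y p) (cv a) q' ≤ exp (4 * b) * Par.adev R w (cv a) q' := by
      rw [Par.adev, Par.adev, mul_add, ← mul_div_assoc, mul_sum]
      exact add_le_add (div_le_div_of_nonneg_right (sum_le_sum fun j hj => htilt _ _ (mem_range.1 hj).le) hR'.le)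
        (htilt _ _ le_rfl)
    refine (add_le_add (htilt _ _ hl) hsum).trans ?_
    rw [← mul_add, mul_assoc (exp (4 * b))]
    refine mul_le_mul_of_nonneg_left ((add_le_add (devOf_avec (R := R) hS hw rd g hc hct hα (Gm f f1 R q) l)
      (Par.adev_avec hS hR hw rd g hc hct hα (Gm f f1 R q))).trans ?_) (exp_pos _).le
    have e1 : α * Par.devOf R w (Par.qK f1 rd g) (Gm f f1 R q) l +
        α * Par.adev R w (Par.qK f1 rd g) (Gm f f1 R q) ≤ A * S := by
      rw [← mul_add]; exact mul_le_mul hαA hs.2.1 (add_nonneg h3 h4) hA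
    have e2 := mul_le_mul_of_nonneg_left hs.2.2.2.1 (show 0 ≤ 6 * D ^ 2 by positivity)
    nlinarith [mul_nonneg (sq_nonneg D) hdl, mul_nonneg (sq_nonneg D) hG0, hs.1]
  · refine (htilt _ _ hl).trans ?_
    rw [mul_assoc (exp (4 * b))]
    exact mul_le_mul_of_nonneg_left (hs.2.2.1.trans (le_mul_of_one_le_left hs.1
      (by nlinarith [sq_nonneg D]))) (exp_pos _).le

end steps

/-- **The new spin is self-consistent.** -/
theorem site_spin (hS : Sm f f1 f2 f3 B D) (_hB : ∀ x, f x ≤ B) (A U : ℝ) : ∃ K : ℝ, 0 ≤ K ∧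
    ∀ {Ω : Type} [Fintype Ω] [Nonempty Ω] {R N M : ℕ} [NeZero N], 1 ≤ R →
      ∀ (rd : List Ω → Fin N → Bool) {w : List Ω → ℝ}, (∀ p, 0 < w p) →
      ∀ (g : Fin M → Fin N → ℝ) {c t α : ℝ}, 0 ≤ c → 0 < t → c ^ 2 + t ^ 2 = 1 →
      (M : ℝ) * t ^ 2 ≤ A → 0 ≤ α → α ≤ A → (∀ p, t ^ 2 * ∑ a, |uat rd g p a| ≤ U) →
      ∀ {q : ℕ → ℝ}, Prof R q 1 → ∀ {l : ℕ}, l < R →
      |(∫ z, ET R (lin R) (prodW R w fun p s => siteF f c t g z (rd p) s) [(0, l), (0, 0)] (spinPr R)
          ∂gauss (Fin M)) - qh R (fun j => α * Gm f f1 R q j) l| ≤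
        K * (sdev f f1 R w rd g q l + |(M : ℝ) * t ^ 2 - α| + t ^ 2 * t ^ 2 * gsum g + t) ∧
      ∫ z, ET R (lin R) (prodW R w fun p s => siteF f c t g z (rd p) s) [(0, l), (0, 0)]
          (fun ps => |Par.ov (rd ((ps.getD 0 []).map Prod.fst)) (rd ((ps.getD 1 []).map Prod.fst)) - q l|)
          ∂gauss (Fin M) ≤
        K * (sdev f f1 R w rd g q l + |(M : ℝ) * t ^ 2 - α| + t ^ 2 * t ^ 2 * gsum g + t) := by
  have hD := hS.nonneg
  have hc3 := Par.c3_nonneg
  have hc4 := Par.c4_nonneg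
  have hc6 := c6_nonneg
  set A' := |A|
  set V := A' * D ^ 2 with hV
  obtain ⟨Kp, hKp, hpair⟩ := Par.pair_close Par.sm_logcosh V
  set P := exp (2 * (D / 2 * (1 + 2 * A') + 1)) * (3 * 2) *
      (A' * Par.c4 * D ^ 2 + exp (2 * V) + (D ^ 2 * c6 * A' ^ 2 + exp (2 * V))) +
    2 * (Par.c4 * A' + A' * D * Par.c3)
  set L := exp (4 * (D * (|U| + A'))) * (A' + 6 * D ^ 2 + 1)
  have hP0 : 0 ≤ P := by positivity
  have hL0 : 0 ≤ L := by positivity
  refine ⟨2 * P + (2 * Kp + 1) * L, by positivity, ?_⟩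
  intro Ω _ _ R N M _ hR rd w hw g c t α hc ht hct hMt hα hαA hU q hq l hl
  have hA : α ≤ A' := hαA.trans (le_abs_self A)
  have hMt' : (M : ℝ) * t ^ 2 ≤ A' := hMt.trans (le_abs_self A)
  have ht1 : t ≤ 1 := by nlinarith [sq_nonneg c]
  set a := avec f1 c t rd g with ha
  have haa : ∀ p, cv a p p ≤ V := fun p => by
    have : cv a p p = t ^ 2 * ∑ i, f1 (c * uat rd g p i) ^ 2 := by
      simp only [a, cv, dot, avec, mul_sum]; exact sum_congr rfl fun i _ => by ring
    rw [this]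
    refine (mul_le_mul_of_nonneg_left (sum_le_sum (g := fun _ => D ^ 2) fun i _ => ?_) (sq_nonneg t)).trans ?_
    · rw [← sq_abs (f1 _)]; exact pow_le_pow_left₀ (abs_nonneg _) (hS.b1 _) 2
    · rw [sum_const, card_univ, Fintype.card_fin, nsmul_eq_mul, hV, ← mul_assoc, mul_comm (t ^ 2)]
      exact mul_le_mul_of_nonneg_right hMt' (sq_nonneg D)
  set Ψ := psiS f f2 c t rd g
  set w' := fun p => w p * exp (Ψ p)
  have hw' : ∀ p, 0 < w' p := fun p => mul_pos (hw p) (exp_pos _)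
  have hY : ∀ p, exp (-(D * (|U| + A'))) ≤ exp (Ψ p) ∧ exp (Ψ p) ≤ exp (D * (|U| + A')) := fun p => by
    have h := abs_le.1 (abs_psiS_le hS rd g hc hct hMt' ((hU p).trans (le_abs_self U)))
    exact ⟨exp_le_exp.2 h.1, exp_le_exp.2 h.2⟩
  set q' := fun j => α * Gm f f1 R q j
  have hq' : Prof R q' V :=
    ((Par.gm_prof hS hR hq).scale hα).weaken (mul_le_mul_of_nonneg_right hA (sq_nonneg D))
  obtain ⟨hS0, htS, hdev, hdov⟩ := dev_tilt hS hR hw hY rd g hc ht hct hα hA q hl.le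
  set S := sdev f f1 R w rd g q l + |(M : ℝ) * t ^ 2 - α| + t ^ 2 * t ^ 2 * gsum g + t
  have hcz : ∀ {F : List (List (Ω × Bool)) → ℝ} {C : ℝ}, (∀ ps, |F ps| ≤ C) →
      |(∫ z, ET R (lin R) (prodW R w fun p s => siteF f c t g z (rd p) s) [(0, l), (0, 0)] F ∂gauss (Fin M)) -
        ∫ z, ET R (lin R) (prodW R w' fun p s => exp (sg s * dot (a p) z)) [(0, l), (0, 0)] F ∂gauss (Fin M)| ≤
      C * P * t := fun {F C} hF => by
    refine (noise_mean hS hR hw rd g ht ht1 hMt' haa (Par.valid_pair hl.le) hF).trans_eq ?_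
    norm_num [P]
  have ew : ∀ z, wbar w' (fun p s => exp (sg s * dot (a p) z)) =
      fun p => w' p * Par.fac (fun x => log (cosh x)) a z p := fun z => funext fun p => by
    rw [wbar, avg_exp_sg, Par.fac, exp_log (cosh_pos _)]
  have hPS := mul_le_mul_of_nonneg_left htS hP0
  have hKL := mul_nonneg (mul_nonneg hKp hL0) hS0
  constructor
  · have h0 := hcz (F := spinPr R) (C := 1) fun ps => by
      rw [spinPr, abs_mul, abs_sg_one, abs_sg_one, one_mul]
    have e : ∀ z, ET R (lin R) (prodW R w' fun p s => exp (sg s * dot (a p) z)) [(0, l), (0, 0)] (spinPr R) =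
        ET R (lin R) (fun p => w' p * Par.fac (fun x => log (cosh x)) a z p) [(0, l), (0, 0)] fun ps =>
          (fun _ _ => (1:ℝ)) (ps.getD 0 []) (ps.getD 1 []) *
            ((fun x => sinh x / cosh x) (dot (a (ps.getD 0 [])) z) *
              (fun x => sinh x / cosh x) (dot (a (ps.getD 1 [])) z)) := fun z => by
      rw [← ew z]
      refine (ET_prodW_pair (w := w') hl hw' (fun p s => exp_pos _) fun _ s _ s' => sg s * sg s').trans ?_
      congr 1; funext ps
      simp only [spinMean_sg]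
      rw [show (fun (p : List Ω) s => sg s * (sinh (dot (a (ps.getD 1 [])) z) / cosh (dot (a (ps.getD 1 [])) z))) =
        fun _ s => (sinh (dot (a (ps.getD 1 [])) z) / cosh (dot (a (ps.getD 1 [])) z)) * sg s from
          funext fun p => funext fun s => mul_comm _ _]
      rw [spinMean_sg fun p => dot (a p) z]; ring
    have hp := (hpair (w := w') hR hw' haa hq' hl.le (Ψ := fun _ _ => 1) (C := 1) fun _ _ => by simp).1
    rw [Vale.Agent.P168.MP.ET_const hw', mul_one, mul_one, Par.cosh_eq_exp] at hp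
    simp only [← e] at hp
    rw [qh, if_pos hl, show tanh = fun x => sinh x / cosh x from funext tanh_eq_sinh_div_cosh]
    refine (abs_sub_le _ _ _).trans ((add_le_add h0 (hp.trans (mul_le_mul_of_nonneg_left hdev hKp))).trans ?_)
    nlinarith [mul_nonneg hL0 hS0, mul_nonneg hP0 hS0]
  · set Φ : List Ω → List Ω → ℝ := fun p p' => |Par.ovK rd p p' - q l| with hΦ
    have hΦb : ∀ p p', |Φ p p'| ≤ 2 := fun p p' => by
      rw [hΦ, abs_abs]
      refine (abs_sub _ _).trans ?_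
      have := hq.bd hl.le
      rw [abs_of_nonneg this.1]
      have h2 : |Par.ovK rd p p'| ≤ 1 := Par.abs_ov_le _ _
      linarith [this.2]
    have h0 := hcz (F := fun ps => Φ ((ps.getD 0 []).map Prod.fst) ((ps.getD 1 []).map Prod.fst))
      fun ps => hΦb _ _
    have e : ∀ z, ET R (lin R) (prodW R w' fun p s => exp (sg s * dot (a p) z)) [(0, l), (0, 0)]
          (fun ps => Φ ((ps.getD 0 []).map Prod.fst) ((ps.getD 1 []).map Prod.fst)) =
        ET R (lin R) (fun p => w' p * Par.fac (fun x => log (cosh x)) a z p) [(0, l), (0, 0)] fun ps =>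
          Φ (ps.getD 0 []) (ps.getD 1 []) := fun z => by
      rw [← ew z]
      refine (ET_prodW_pair (w := w') hl hw' (fun p s => exp_pos _) fun p _ p' _ => Φ p p').trans ?_
      congr 1; funext ps
      simp only [spinMean_const (Y := fun p s => exp (sg s * dot (a p) z)) (fun p s => exp_pos _),
        spinMean_const (Y := fun p s => exp (sg s * dot (a p) z)) (fun p s => exp_pos _) (fun p => Φ p (ps.getD 1 []))]
    have hp := (abs_le.1 (hpair (w := w') hR hw' haa hq' hl.le (Ψ := Φ) (C := 2) hΦb).2).2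
    simp only [← e] at hp
    have hd : ET R (lin R) w' [(0, l), (0, 0)] (fun ps => Φ (ps.getD 0 []) (ps.getD 1 [])) ≤ L * S := hdov
    have h5 := mul_le_mul_of_nonneg_left hdev (show 0 ≤ Kp * 2 by positivity)
    change ∫ z, ET R (lin R) (prodW R w fun p s => siteF f c t g z (rd p) s) [(0, l), (0, 0)]
      (fun ps => Φ ((ps.getD 0 []).map Prod.fst) ((ps.getD 1 []).map Prod.fst)) ∂gauss (Fin M) ≤ _
    linarith [(abs_le.1 h0).2, mul_le_mul_of_nonneg_left hPS (show (0:ℝ) ≤ 2 by norm_num)]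

end Vale.Agent.P157.Full
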