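import Vale.Agent.P157.Full.Fields
import Vale.Agent.P157.Full.GrowPair
import Vale.Agent.P157.Full.SiteSpin

/-! One step of the self-consistency: the enlarged system against its base, at fixed base patterns. -/

open MeasureTheory ProbabilityTheory Real Finset
open Vale.Agent.P150 (gauss dot)
open Vale.Agent.P168 (sg)
open Vale.Agent.P168.MP (lin ET Batch Mark pw spinAt gain1)
open Vale.Agent.P157.Lim (xv)

namespace Vale.Agent.P157.Full

open Par (Sm Prof Gm dist1 qP adP wg qb uat gsum pats ham siteF addC ovK qK adev devOf)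

set_option linter.unusedSectionVars false

variable {f f1 f2 f3 : ℝ → ℝ} {B D : ℝ}

/-- the self-consistent overlaps of a profile -/
noncomputable def qmap (α : ℝ) (f f1 : ℝ → ℝ) (R : ℕ) (q : ℕ → ℝ) : ℕ → ℝ :=
  qh R fun l => α * Gm f f1 R q l

lemma qmap_mem (hS : Sm f f1 f2 f3 B D) {α : ℝ} (hα : 0 ≤ α) {R : ℕ} (hR : 1 ≤ R) {q : ℕ → ℝ}
    (hq : Prof R q 1) {l : ℕ} (hl : l ≤ R) : 0 ≤ qmap α f f1 R q l ∧ qmap α f f1 R q l ≤ 1 :=
  qhm_mem ((Par.gm_prof hS hR hq).scale hα) hl

/-- adding a site changes an overlap by at most `2 / (N + 1)` -/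
lemma ov_down {N : ℕ} [NeZero N] (σ τ : Fin (N + 1) → Bool) :
    |Par.ov σ τ - Par.ov (fun x => σ x.castSucc) (fun x => τ x.castSucc)| ≤ 2 / ((N:ℝ) + 1) := by
  set o := Par.ov (fun x : Fin N => σ x.castSucc) (fun x => τ x.castSucc) with ho
  have hN : (0:ℝ) < N := by exact_mod_cast NeZero.pos N
  have e1 : ∑ x : Fin N, sg (σ x.castSucc) * sg (τ x.castSucc) = N * o := by
    rw [ho, Par.ov, Vale.Agent.P168.MP.avg, Fintype.card_fin, mul_div_cancel₀ _ hN.ne']
  have e : Par.ov σ τ - o = (sg (σ (Fin.last N)) * sg (τ (Fin.last N)) - o) / ((N:ℝ) + 1) := by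
    rw [Par.ov, Vale.Agent.P168.MP.avg, Fin.sum_univ_castSucc, e1, Fintype.card_fin]
    push_cast
    field_simp
    ring
  rw [e, abs_div, abs_of_pos (show (0:ℝ) < (N:ℝ) + 1 by positivity)]
  refine div_le_div_of_nonneg_right ((abs_sub _ _).trans ?_) (by positivity)
  rw [abs_mul, Vale.Agent.P168.abs_sg, Vale.Agent.P168.abs_sg]
  have h2 : |o| ≤ 1 := Par.abs_ov_le _ _
  linarith

section sys
variable {ι : Type} [Fintype ι] [DecidableEq ι] {β : ι → Batch} {R S N M : ℕ} [NeZero N] {h u : ι → ℝ}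

/-- the weight of the perturbation -/
noncomputable def gw (R : ℕ) (h u : ι → ℝ) (p : List (Mark N S β)) : ℝ :=
  exp (∑ i : ι × Fin S, gain1 R h u p i)

lemma gw_pos (p : List (Mark N S β)) : 0 < gw R h u p := exp_pos _

lemma wg_gw (f : ℝ → ℝ) (g : Fin M → Fin N → ℝ) :
    wg f (gw (S := S) (β := β) R h u) (spinAt R) g = pw (S := S) (β := β) R (ham f g) h u :=
  funext fun _ => mul_comm _ _

/-- deviation of the correlation of the derivatives at fixed patterns -/
noncomputable def adK (f f1 : ℝ → ℝ) (R S : ℕ) (β : ι → Batch) (h u : ι → ℝ)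
    (g : Fin M → Fin N → ℝ) : ℝ :=
  adev R (pw (S := S) (β := β) R (ham f g) h u) (qK f1 (spinAt R) g) (Gm f f1 R (qP f R S β h u g))

lemma adK_nonneg (g : Fin M → Fin N → ℝ) : 0 ≤ adK f f1 R S β h u g :=
  Par.adev_nn (Par.pw_ham_pos g)

lemma adK_props (hS : Sm f f1 f2 f3 B D) (hR : 1 ≤ R) :
    Integrable (adK (N := N) (M := M) f f1 R S β h u) (pats N M) := by
  have := (Par.integrable_adev_of hR (μ := pats N M)
    (w := fun g => wg f (gw (S := S) (β := β) R h u) (spinAt R) g)
    (C := fun g => qK f1 (spinAt R) g)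
    (q := fun g => Gm f f1 R (qb f (gw (S := S) (β := β) R h u) (spinAt R) R g))
    fun l hl => Par.integrable_qKdev hS hR gw_pos (spinAt R) hl).1
  refine this.congr (Filter.Eventually.of_forall fun g => ?_)
  simp only [adK, qb, qP, wg_gw]

/-- the spins of the new site -/
noncomputable def olast (f : ℝ → ℝ) (R S : ℕ) (β : ι → Batch) (h u : ι → ℝ) (l : ℕ)
    (G : Fin M → Fin (N + 1) → ℝ) : ℝ :=
  ET R (lin R) (pw (S := S) (β := β) R (ham f G) h u) [(0, l), (0, 0)] fun ps =>
    sg (spinAt R (ps.getD 0 []) (Fin.last N)) * sg (spinAt R (ps.getD 1 []) (Fin.last N))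

lemma abs_olast_le (l : ℕ) (G : Fin M → Fin (N + 1) → ℝ) : |olast f R S β h u l G| ≤ 1 :=
  Vale.Agent.P168.MP.ET_bound (Par.pw_ham_pos G) fun ps => by
    rw [abs_mul, Vale.Agent.P168.abs_sg, Vale.Agent.P168.abs_sg, mul_one]

lemma continuous_olast (hf : Continuous f) (l : ℕ) :
    Continuous (olast (N := N) (M := M) f R S β h u l) :=
  Par.continuous_ET (Par.continuous_pw_ham hf) Par.pw_ham_pos R _ fun _ => continuous_const

lemma continuous_addC (g : Fin M → Fin N → ℝ) : Continuous fun z : Fin M → ℝ => addC g z := by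
  refine continuous_pi fun a => continuous_pi fun i => ?_
  simp only [addC]
  induction i using Fin.lastCases with
  | last => simpa using continuous_apply a
  | cast j => simpa using continuous_const

/-- the error of one step at fixed base patterns -/
noncomputable def stepErr (f f1 : ℝ → ℝ) (R S : ℕ) (β : ι → Batch) (h u : ι → ℝ) (α U K C : ℝ)
    (g : Fin M → Fin N → ℝ) : ℝ :=
  2 * ((1 / √((N:ℝ) + 1)) ^ 2 * lse g / U) + (2 * C + 2) / ((N:ℝ) + 1) +
    K * (adP f R S β h u g + adK f f1 R S β h u g + |(M:ℝ) * (1 / √((N:ℝ) + 1)) ^ 2 - α| +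
      (1 / √((N:ℝ) + 1)) ^ 2 * (1 / √((N:ℝ) + 1)) ^ 2 * gsum g + 1 / √((N:ℝ) + 1))

/-- sums of the deviations over the levels -/
lemma sdev_sum {Ω : Type} [Fintype Ω] [Nonempty Ω] {R : ℕ} (hR : 1 ≤ R) {w : List Ω → ℝ}
    (hw : ∀ p, 0 < w p) (rd : List Ω → Fin N → Bool) (g : Fin M → Fin N → ℝ) (q : ℕ → ℝ) :
    ∑ l ∈ range R, sdev f f1 R w rd g q l ≤
      2 * (R * (adev R w (ovK rd) q + adev R w (qK f1 rd g) (Gm f f1 R q))) := by
  have hR' : (0:ℝ) < R := by exact_mod_cast hR
  have key : ∀ (C : List Ω → List Ω → ℝ) (q : ℕ → ℝ), ∑ l ∈ range R, devOf R w C q l ≤ R * adev R w C q := by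
    intro C q
    unfold Par.adev
    rw [mul_add, mul_div_cancel₀ _ hR'.ne']
    exact le_add_of_nonneg_right (mul_nonneg hR'.le (Par.devOf_nn hw R))
  simp only [sdev, sum_add_distrib, sum_const, card_range, nsmul_eq_mul]
  linarith [key (ovK rd) q, key (qK f1 rd g) (Gm f f1 R q)]

end sys

/-- **One step**: the overlaps move little and the new spin is self-consistent -/
theorem cross (hS : Sm f f1 f2 f3 B D) (hB : ∀ x, f x ≤ B) {α : ℝ} (hα : 0 ≤ α) {U : ℝ} (hU : 0 < U) :
    ∃ K : ℝ, 0 ≤ K ∧ ∀ {ι : Type} [Fintype ι] [DecidableEq ι] (β : ι → Batch) (R S : ℕ), 2 ≤ R →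
      ∃ C : ℝ, 0 ≤ C ∧ ∀ {h u : ι → ℝ}, (∀ j, |h j| ≤ 1) → (∀ j, |u j| ≤ 1) →
      ∀ {N M : ℕ} [NeZero N], (M : ℝ) * (1 / √((N:ℝ) + 1)) ^ 2 ≤ α → ∀ g : Fin M → Fin N → ℝ,
        ∫ z, (∑ l ∈ range R, |qP f R S β h u (addC g z) l - qP f R S β h u g l|) ∂gauss (Fin M) ≤
            R * stepErr f f1 R S β h u α U K C g ∧
          ∑ l ∈ range R, |(∫ z, olast f R S β h u l (addC g z) ∂gauss (Fin M)) -
              qmap α f f1 R (qP f R S β h u g) l| ≤ R * stepErr f f1 R S β h u α U K C g := by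
  obtain ⟨K, hK, hsite⟩ := site_spin hS hB α U
  refine ⟨4 * K, by positivity, ?_⟩
  intro ι _ _ β R S hR
  obtain ⟨C, hC, hgrow⟩ := grow_pair β R S hR
  refine ⟨C, hC, ?_⟩
  intro h u hh hu N M _ hMt g
  have hR1 : 1 ≤ R := by omega
  have hf : Continuous f := hS.cont0
  set t := 1 / √((N:ℝ) + 1) with ht
  set c := √(N:ℝ) / √((N:ℝ) + 1)
  have ht0 : 0 < t := by positivity
  have ht2 : t ^ 2 = 1 / ((N:ℝ) + 1) := by rw [ht, div_pow, one_pow, Real.sq_sqrt (by positivity)]
  have hct : c ^ 2 + t ^ 2 = 1 := by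
    rw [ht2, div_pow, Real.sq_sqrt (Nat.cast_nonneg N), Real.sq_sqrt (by positivity)]; field_simp
  set q := qP f R S β h u g with hqdef
  have hq : Prof R q 1 := Par.qP_prof g
  set w := pw (S := S) (β := β) R (ham f g) h u
  have hw : ∀ p, 0 < w p := Par.pw_ham_pos g
  set E0 := |(M:ℝ) * t ^ 2 - α| + t ^ 2 * t ^ 2 * gsum g + t
  have hgs : 0 ≤ gsum g := sum_nonneg fun _ _ => sum_nonneg fun _ _ => by positivity
  have hE0 : 0 ≤ E0 := by positivity
  have hP : 0 ≤ adP f R S β h u g := Par.adP_nonneg g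
  have hKd : 0 ≤ adK f f1 R S β h u g := adK_nonneg g
  have hlse := lse_nonneg g
  have hN1 : (0:ℝ) < (N:ℝ) + 1 := by positivity
  have hR' : (0:ℝ) < R := by exact_mod_cast hR1
  set E := stepErr f f1 R S β h u α U (4 * K) C g with hE
  have hEeq : E = 2 * (t ^ 2 * lse g / U) + (2 * C + 2) / ((N:ℝ) + 1) +
      4 * K * (adP f R S β h u g + adK f f1 R S β h u g + E0) := by
    simp only [hE, stepErr, E0, ← ht]; ring
  -- both quantities are bounded
  have hq1 : ∀ z, ∀ l ≤ R, |qP f R S β h u (addC g z) l - q l| ≤ 2 := fun z l hl => by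
    have a := (Par.qP_prof (f := f) (h := h) (u := u) (S := S) (β := β) (R := R) (addC g z)).upper hl
    have b := hq.upper hl
    rw [abs_le]; constructor <;> linarith
  have hcw : ∀ z : Fin M → ℝ, ∀ p, Continuous fun z : Fin M → ℝ =>
      pw (S := S) (β := β) R (ham f (addC g z)) h u p := fun _ p =>
    (Par.continuous_pw_ham hf p).comp (continuous_addC g)
  have hic : ∀ {H : (Fin M → Fin (N + 1) → ℝ) → ℝ}, Continuous H → ∀ {b : ℝ}, (∀ G, |H G| ≤ b) →
      Integrable (fun z => H (addC g z)) (gauss (Fin M)) := fun {H} hH {b} hb =>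
    Integrable.of_bound (hH.comp (continuous_addC g)).aestronglyMeasurable b
      (Filter.Eventually.of_forall fun z => (Real.norm_eq_abs _).trans_le (hb _))
  by_cases hbad : U < t ^ 2 * lse g
  · have h1 : 1 ≤ t ^ 2 * lse g / U := (one_le_div hU).2 hbad.le
    have hE2 : 2 ≤ E := by
      have : 0 ≤ (2 * C + 2) / ((N:ℝ) + 1) := by positivity
      have : 0 ≤ 4 * K * (adP f R S β h u g + adK f f1 R S β h u g + E0) := by positivity
      rw [hEeq]; linarith
    constructor
    · refine (integral_mono_of_nonneg (Filter.Eventually.of_forall fun z => sum_nonneg fun _ _ => abs_nonneg _)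
        (integrable_const ((R:ℝ) * E)) (Filter.Eventually.of_forall fun z => ?_)).trans_eq (by simp)
      refine (sum_le_sum fun l hl => (hq1 z l (mem_range.1 hl).le).trans hE2).trans_eq ?_
      simp
    · refine (sum_le_sum (g := fun _ => E) fun l hl => le_trans ?_ hE2).trans_eq (by simp)
      have a := abs_integral_le_integral_abs (μ := gauss (Fin M))
        (f := fun z => olast f R S β h u l (addC g z))
      have b : ∫ z, |olast f R S β h u l (addC g z)| ∂gauss (Fin M) ≤ 1 := by
        refine (integral_mono_of_nonneg (Filter.Eventually.of_forall fun z => abs_nonneg _)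
          (integrable_const (1:ℝ)) (Filter.Eventually.of_forall fun z => abs_olast_le l _)).trans_eq (by simp)
      have c' := qmap_mem hS hα hR1 hq (mem_range.1 hl).le
      refine (abs_sub _ _).trans ?_
      rw [abs_of_nonneg c'.1]
      linarith [c'.2]
  rw [not_lt] at hbad
  have hu' : ∀ p : List (Mark N S β), t ^ 2 * ∑ a, |uat (spinAt R) g p a| ≤ U := fun p =>
    (mul_le_mul_of_nonneg_left (abs_le_lse g (spinAt R p)) (sq_nonneg t)).trans hbad
  have hsite' := fun l (hl : l < R) => hsite (R := R) hR1 (spinAt R) hw g (c := c) (t := t) (α := α)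
    (by positivity) ht0 hct hMt hα le_rfl hu' hq hl
  -- the enlarged system against the product system
  have eW : ∀ z, ham f (addC g z) = fun τ : Fin (N + 1) → Bool => ham f g (fun i => τ i.castSucc) *
      siteF f c t g z (fun i => τ i.castSucc) (τ (Fin.last N)) := fun z => funext fun τ => Par.ham_addC f g z τ
  set V := fun z : Fin M → ℝ => prodW R w fun p s => siteF f c t g z (spinAt R p) s
  have hVp : ∀ z p, 0 < V z p := fun z p => mul_pos (hw _) (exp_pos _)
  have hVc : ∀ p, Continuous fun z => V z p := fun p => by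
    simp only [V, prodW, siteF]
    have := hS.cont0
    fun_prop
  have hint : ∀ (l : ℕ) (Φ : List (List (Mark N S β × Bool)) → ℝ) (b : ℝ), (∀ ps, |Φ ps| ≤ b) →
      Integrable (fun z => ET R (lin R) (V z) [(0, l), (0, 0)] Φ) (gauss (Fin M)) := fun l Φ b hb =>
    Integrable.of_bound (Par.continuous_ET (m := lin R) hVc hVp R [(0, l), (0, 0)] (F := fun _ => Φ) fun _ => continuous_const).aestronglyMeasurable b
      (Filter.Eventually.of_forall fun z => (Real.norm_eq_abs _).trans_le
        (Vale.Agent.P168.MP.ET_bound (hVp z) hb))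
  set A := fun (l : ℕ) => sdev f f1 R w (spinAt R) g q l + E0
  have hA : ∀ l, sdev f f1 R w (spinAt R) g q l + |(M:ℝ) * t ^ 2 - α| + t ^ 2 * t ^ 2 * gsum g + t = A l :=
    fun l => by simp only [A, E0]; ring
  simp only [hA] at hsite'
  have hO : ∀ l < R, |(∫ z, olast f R S β h u l (addC g z) ∂gauss (Fin M)) -
      qmap α f f1 R q l| ≤ C / ((N:ℝ) + 1) + K * A l := by
    intro l hl
    have hg : ∀ z, |olast f R S β h u l (addC g z) - ET R (lin R) (V z) [(0, l), (0, 0)] (spinPr R)| ≤
        C / ((N:ℝ) + 1) := fun z => by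
      rw [olast, eW z]
      exact hgrow (fun σ => Par.ham_pos f g σ) (c := siteF f c t g z) (fun _ _ => exp_pos _) hh hu hl
        (fun _ s _ s' => sg s * sg s') fun _ s _ s' => by
          rw [abs_mul, Vale.Agent.P168.abs_sg, Vale.Agent.P168.abs_sg, mul_one]
    have i1 := hic (continuous_olast (R := R) (S := S) (β := β) (h := h) (u := u) hf l) fun G => abs_olast_le l G
    have i2 := hint l (spinPr R) 1 fun ps => by
      rw [spinPr, abs_mul, Vale.Agent.P168.abs_sg, Vale.Agent.P168.abs_sg, mul_one]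
    have d : |(∫ z, olast f R S β h u l (addC g z) ∂gauss (Fin M)) -
        ∫ z, ET R (lin R) (V z) [(0, l), (0, 0)] (spinPr R) ∂gauss (Fin M)| ≤ C / ((N:ℝ) + 1) := by
      rw [← integral_sub i1 i2]
      refine abs_integral_le_integral_abs.trans ?_
      exact (integral_mono (i1.sub i2).abs (integrable_const _) hg).trans_eq (by simp)
    exact (abs_sub_le _ _ _).trans (add_le_add d (hsite' l hl).1)
  have hQ : ∀ l < R, ∫ z, |qP f R S β h u (addC g z) l - q l| ∂gauss (Fin M) ≤
      (2 * C + 2) / ((N:ℝ) + 1) + K * A l := by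
    intro l hl
    set Φ : (Fin N → Bool) → Bool → (Fin N → Bool) → Bool → ℝ := fun σ _ σ' _ => |Par.ov σ σ' - q l| / 2
    have hql := hq.upper hl.le
    have hΦ : ∀ σ s σ' s', |Φ σ s σ' s'| ≤ 1 := fun σ s σ' s' => by
      simp only [Φ]
      rw [abs_of_nonneg (by positivity), div_le_one two_pos]
      refine (abs_sub _ _).trans ?_
      rw [abs_of_nonneg hql.1]
      linarith [Par.abs_ov_le σ σ', hql.2]
    set P := fun z : Fin M → ℝ => ET R (lin R) (V z) [(0, l), (0, 0)] fun ps =>
      |Par.ov (spinAt R ((ps.getD 0 []).map Prod.fst)) (spinAt R ((ps.getD 1 []).map Prod.fst)) - q l|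
    have hg : ∀ z, |qP f R S β h u (addC g z) l - q l| ≤ P z + (2 * C + 2) / ((N:ℝ) + 1) := fun z => by
      have hwz := Par.pw_ham_pos (f := f) (R := R) (S := S) (β := β) (h := h) (u := u) (addC g z)
      have e : qP f R S β h u (addC g z) l - q l =
          ET R (lin R) (pw (S := S) (β := β) R (ham f (addC g z)) h u) [(0, l), (0, 0)] fun ps =>
            ovK (spinAt R) (ps.getD 0 []) (ps.getD 1 []) - q l := by
        rw [Vale.Agent.P168.MP.ET_sub, Vale.Agent.P168.MP.ET_const hwz]; rfl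
      have h1 := hgrow (fun σ => Par.ham_pos f g σ) (c := siteF f c t g z) (fun _ _ => exp_pos _) hh hu hl Φ hΦ
      rw [← eW z] at h1
      simp only [Φ, div_eq_mul_inv _ (2:ℝ), Vale.Agent.P168.MP.ET_mul_const] at h1
      rw [← sub_mul, abs_mul, abs_of_pos (show (0:ℝ) < 2⁻¹ by norm_num)] at h1
      have h1' := (abs_le.1 ((mul_inv_le_iff₀ (two_pos (α := ℝ))).1 h1)).2
      rw [e]
      refine (Vale.Agent.P168.MP.ET_abs_le hwz _ _).trans ?_
      refine (Vale.Agent.P168.MP.ET_mono hwz (G := fun ps =>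
        |Par.ov (fun x => spinAt R (ps.getD 0 []) x.castSucc) (fun x => spinAt R (ps.getD 1 []) x.castSucc) - q l| +
          2 / ((N:ℝ) + 1)) fun ps => ?_).trans ?_
      · refine (abs_sub_le _ _ _).trans ((add_comm _ _).trans_le (add_le_add le_rfl ?_))
        exact ov_down _ _
      · rw [Vale.Agent.P168.MP.ET_add, Vale.Agent.P168.MP.ET_const hwz,
          show (2 * C + 2) / ((N:ℝ) + 1) = C / ((N:ℝ) + 1) * 2 + 2 / ((N:ℝ) + 1) by ring, ← add_assoc]
        simp only [P]
        linarith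
    have i1 := (hic (((Par.continuous_qP (R := R) (S := S) (β := β) (h := h) (u := u) hf l).sub continuous_const).abs)
      (b := 2) fun G => by
        have a := (Par.qP_prof (f := f) (h := h) (u := u) (S := S) (β := β) (R := R) G).upper hl.le
        simp only [Pi.sub_apply, abs_abs]
        rw [abs_le]; constructor <;> linarith [hql.1, hql.2])
    have i2 : Integrable P (gauss (Fin M)) := hint l _ 2 fun ps => by
      rw [abs_abs]
      refine (abs_sub _ _).trans ?_
      rw [abs_of_nonneg hql.1]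
      linarith [Par.abs_ov_le (spinAt R ((ps.getD 0 []).map Prod.fst)) (spinAt R ((ps.getD 1 []).map Prod.fst)), hql.2]
    refine (integral_mono i1 (i2.add (integrable_const _)) hg).trans ?_
    simp only [Pi.add_apply]
    rw [integral_add i2 (integrable_const _)]
    simp only [integral_const, probReal_univ, one_smul]
    linarith [(hsite' l hl).2]
  -- sum over the levels
  have hsum : ∀ {x : ℕ → ℝ}, (∀ l < R, x l ≤ (2 * C + 2) / ((N:ℝ) + 1) + K * A l) →
      ∑ l ∈ range R, x l ≤ R * E := by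
    intro x hx
    refine (sum_le_sum fun l hl => hx l (mem_range.1 hl)).trans ?_
    simp only [A, sum_add_distrib, ← mul_sum, sum_const, card_range, nsmul_eq_mul]
    have hs := mul_le_mul_of_nonneg_left (sdev_sum (f := f) (f1 := f1) hR1 hw (spinAt R) g q) hK
    have h0 : 0 ≤ (R:ℝ) * (2 * (t ^ 2 * lse g / U)) := by positivity
    have h4 : K * (R * E0) ≤ 4 * K * (R * E0) := by nlinarith [mul_nonneg hK (mul_nonneg hR'.le hE0)]
    have h5 : 2 * (K * (R * (adP f R S β h u g + adK f f1 R S β h u g))) ≤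
        4 * K * (R * (adP f R S β h u g + adK f f1 R S β h u g)) := by
      nlinarith [mul_nonneg hK (mul_nonneg hR'.le (add_nonneg hP hKd))]
    rw [hEeq]
    simp only [adP, adK, ← hqdef] at hs h5 ⊢
    linarith
  constructor
  · rw [integral_finsetSum]
    · exact hsum hQ
    · intro l hl
      exact hic (((Par.continuous_qP (R := R) (S := S) (β := β) (h := h) (u := u) hf l).sub continuous_const).abs)
        (b := 2) fun G => by
        have a := (Par.qP_prof (f := f) (h := h) (u := u) (S := S) (β := β) (R := R) G).upper (mem_range.1 hl).le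
        have b := hq.upper (mem_range.1 hl).le
        simp only [Pi.sub_apply, abs_abs]
        rw [abs_le]; constructor <;> linarith
  · refine hsum fun l hl => (hO l hl).trans (add_le_add ?_ le_rfl)
    exact div_le_div_of_nonneg_right (by linarith) hN1.le

end Vale.Agent.P157.Full
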