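import Vale.Agent.P157.Full.Defs
import Vale.Agent.P157.Full.Tangent
import Vale.Agent.P157.Par.Upper

/-! The site overlaps as a profile, independence of the top field level, invariance of all functionals under
repetition of levels. -/

open MeasureTheory ProbabilityTheory Real Filter Finset
open Vale.Agent.P168.MP (lin)
open Vale.Agent.P157.Par (Ex ex_lin Prof Adm Vn tl tlN Sm)

namespace Vale.Agent.P157.Full

variable {f f1 f2 f3 e : ℝ → ℝ} {B D : ℝ} {R k : ℕ} {q h h' : ℕ → ℝ} {V V' : ℝ}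

/-- the overlaps of a path form a profile -/
theorem qh_prof (hR : 1 ≤ R) (hh : Prof R h V) : Prof R (qh R h) 1 ∧ qh R h R = 1 := by
  have g : ∀ l ≤ R, 0 ≤ Par.Gamma cosh tanh R (lin R) h l ∧ Par.Gamma cosh tanh R (lin R) h l ≤ 1 ∧
      (l < R → Par.Gamma cosh tanh R (lin R) h l ≤ Par.Gamma cosh tanh R (lin R) h (l + 1)) := fun l hl => by
    have := Par.gamma_mono Par.adm_cosh (ex_lin R) hh continuous_tanh'
      (fun y => (abs_tanh_lt_one y).le) hl
    simpa using this
  have ht : qh R h R = 1 := by simp [qh]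
  refine ⟨⟨?_, fun l hl => ?_, ht.le⟩, ht⟩
  · rw [qh, if_pos (by omega)]
    exact (g 0 (Nat.zero_le R)).1
  · rw [qh, if_pos hl, qh]
    split_ifs with h1
    · exact (g l hl.le).2.2 hl
    · exact (g l hl.le).2.1

/-! ### repetition of levels -/

/-- the level of the coarse chain reached after `i` steps of the repeated one -/
def cl (k i : ℕ) : ℕ := (i + (k - 1)) / k

lemma cl_mul (hk : 1 ≤ k) (j : ℕ) : cl k (k * j) = j := by
  rw [cl, add_comm, Nat.add_mul_div_left _ _ (by omega), Nat.div_eq_of_lt (by omega), zero_add]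

lemma cl_add (hk : 1 ≤ k) (j : ℕ) {r : ℕ} (h1 : 1 ≤ r) (h2 : r ≤ k) : cl k (k * j + r) = j + 1 := by
  rw [cl, show k * j + r + (k - 1) = (r - 1) + k * (j + 1) by rw [Nat.mul_succ]; omega,
    Nat.add_mul_div_left _ _ (by omega), Nat.div_eq_of_lt (by omega), zero_add]

lemma cl_sub (hk : 1 ≤ k) {l : ℕ} (hl : l ≤ k * R) : cl k (k * R - l) = R - l / k := by
  have h1 := Nat.div_add_mod l k
  have h2 := Nat.mod_lt l (show 0 < k by omega)
  have hp : l / k ≤ R := (Nat.div_le_div_right hl).trans (by rw [Nat.mul_div_cancel_left _ (by omega)])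
  obtain ⟨p, rfl⟩ : ∃ p, R = l / k + p := ⟨R - l / k, by omega⟩
  rw [Nat.add_sub_cancel_left]
  rcases Nat.eq_zero_or_pos (l % k) with h0 | h0
  · rw [show k * (l / k + p) - l = k * p by rw [Nat.mul_add]; omega, cl_mul hk]
  · rcases p with _ | p
    · exfalso; simp only [Nat.add_zero] at hl; omega
    · rw [show k * (l / k + (p + 1)) - l = k * p + (k - l % k) by
        rw [Nat.mul_add, Nat.mul_add, Nat.mul_one]; omega, cl_add hk p (by omega) (by omega)]

lemma lin_mul (hk : 1 ≤ k) {p : ℕ} (hp : p ≤ R) : lin (k * R) (k * p) = lin R p := by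
  have h : (k : ℝ) ≠ 0 := by exact_mod_cast (show k ≠ 0 by omega)
  simp only [Vale.Agent.P168.MP.lin, if_pos hp, if_pos (Nat.mul_le_mul_left k hp)]
  push_cast
  rw [mul_div_mul_left _ _ h]

/-- a step of the repeated chain is either a step of the coarse chain or trivial -/
lemma step_cases (hk : 1 ≤ k) (q : ℕ → ℝ) {i : ℕ} (hi : i < k * R) :
    (cl k i < R ∧ cl k (i + 1) = cl k i + 1 ∧ lin (k * R) (k * R - i) = lin R (R - cl k i) ∧
      rep k q (k * R - i) - rep k q (k * R - (i + 1)) = q (R - cl k i) - q (R - (cl k i + 1))) ∨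
    (cl k i ≤ R ∧ cl k (i + 1) = cl k i ∧ rep k q (k * R - i) - rep k q (k * R - (i + 1)) ≤ 0) := by
  have h1 := Nat.div_add_mod i k
  have h2 := Nat.mod_lt i (show 0 < k by omega)
  have hj : i / k < R := by
    rw [Nat.div_lt_iff_lt_mul (by omega), mul_comm]; exact hi
  obtain ⟨p, rfl⟩ : ∃ p, R = i / k + (p + 1) := ⟨R - i / k - 1, by omega⟩
  set j := i / k with hjdef
  have d : ∀ a r, r < k → rep k q (k * a + r) = q a := fun a r hr => by
    rw [rep, add_comm, Nat.add_mul_div_left _ _ (by omega), Nat.div_eq_of_lt hr, zero_add]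
  have e : k * (j + (p + 1)) = k * j + k * p + k := by rw [Nat.mul_add, Nat.mul_add, Nat.mul_one, add_assoc]
  rcases Nat.eq_zero_or_pos (i % k) with h0 | h0
  · left
    have hi' : i = k * j := by omega
    have hs : cl k i = j := by rw [hi', cl_mul hk]
    refine ⟨hs ▸ (by omega), ?_, ?_, ?_⟩
    · rw [hs, hi', cl_add hk j le_rfl hk]
    · rw [hs, show k * (j + (p + 1)) - i = k * (p + 1) by rw [Nat.mul_add k p 1, Nat.mul_one]; omega,
        lin_mul hk (by omega), show j + (p + 1) - j = p + 1 by omega]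
    · rw [hs, show k * (j + (p + 1)) - i = k * (p + 1) + 0 by rw [Nat.mul_add k p 1, Nat.mul_one]; omega,
        show k * (j + (p + 1)) - (i + 1) = k * p + (k - 1) by omega, d _ _ (by omega), d _ _ (by omega),
        show j + (p + 1) - j = p + 1 by omega, show j + (p + 1) - (j + 1) = p by omega]
  · right
    have hs : cl k i = j + 1 := by rw [← h1, cl_add hk j h0 h2.le]
    refine ⟨hs ▸ (by omega), ?_, ?_⟩
    · rw [hs, show i + 1 = k * j + (i % k + 1) by omega, cl_add hk j (by omega) h2]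
    · rw [show k * (j + (p + 1)) - i = k * p + (k - i % k) by omega,
        show k * (j + (p + 1)) - (i + 1) = k * p + (k - i % k - 1) by omega, d _ _ (by omega), d _ _ (by omega),
        sub_self]

section chain

variable (hpos : ∀ p ≤ R, ∀ y, 0 < Vn e R (lin R) q p y)

include hpos

lemma Vn_rep (hk : 1 ≤ k) :
    ∀ i ≤ k * R, Vn e (k * R) (lin (k * R)) (rep k q) i = Vn e R (lin R) q (cl k i)
  | 0, _ => by rw [show cl k 0 = 0 from cl_mul hk 0]; rfl
  | i + 1, hi => by
    rw [Vn_succ, Vn_rep hk i (by omega)]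
    rcases step_cases hk q (show i < k * R by omega) with ⟨_, h2, h3, h4⟩ | ⟨h1, h2, h3⟩
    · rw [h2, h3, h4, Vn_succ]
    · rw [h2]
      exact funext fun y => sV_zero (hpos _ h1)
        ((ex_lin (k * R)).mem (show i < k * R by omega)).1.ne' h3 y

lemma tlN_rep (hk : 1 ≤ k) (F : ℝ → ℝ) (i : ℕ) : ∀ j, i + j ≤ k * R →
    tlN e (k * R) (lin (k * R)) (rep k q) i j F = tlN e R (lin R) q (cl k i) (cl k (i + j) - cl k i) F
  | 0, _ => by simp [tlN]
  | j + 1, hj => by
    have hle : cl k i ≤ cl k (i + j) := Nat.div_le_div_right (by omega)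
    rw [tlN, tlN_rep hk F i j (by omega), tl_eq, Vn_rep hpos hk (i + j) (by omega), ← add_assoc i j 1]
    rcases step_cases hk q (show i + j < k * R by omega) with ⟨_, h2, h3, h4⟩ | ⟨h1, h2, h3⟩
    · rw [h2, h3, h4, Nat.succ_sub hle, tlN, tl_eq, show cl k i + (cl k (i + j) - cl k i) = cl k (i + j) by omega]
    · rw [h2]
      exact funext fun y => sF_zero (hpos _ h1) h3 y

lemma Gamma_rep (hk : 1 ≤ k) (F : ℝ → ℝ) {l : ℕ} (hl : l ≤ k * R) :
    Par.Gamma e F (k * R) (lin (k * R)) (rep k q) l = Par.Gamma e F R (lin R) q (l / k) := by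
  have hp : l / k ≤ R := (Nat.div_le_div_right hl).trans (by rw [Nat.mul_div_cancel_left _ (by omega)])
  simp only [Par.Gamma]
  rw [tlN_rep hpos hk F 0 (k * R - l) (by omega), tlN_rep hpos hk _ (k * R - l) l (by omega),
    show k * R - l + l = k * R by omega, cl_sub hk hl, cl_mul hk, zero_add, show cl k 0 = 0 from cl_mul hk 0,
    Nat.sub_zero, cl_sub hk hl, Nat.sub_sub_self hp, show rep k q 0 = q 0 by simp [rep]]

end chain

lemma Vn_pos {a A D' : ℝ} (he : Adm e a A D') (q : ℕ → ℝ) : ∀ p ≤ R, ∀ y, 0 < Vn e R (lin R) q p y :=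
  fun p hp y => by
    obtain ⟨A', h⟩ := Par.Vn_adm he (ex_lin R) q p hp
    exact h.a_pos.trans_le (h.lb y)

theorem qh_rep (_hR : 1 ≤ R) (hk : 1 ≤ k) (_hh : Prof R h V) {l : ℕ} (hl : l ≤ k * R) :
    qh (k * R) (rep k h) l = qh R h (l / k) := by
  have e : l < k * R ↔ l / k < R := by rw [Nat.div_lt_iff_lt_mul (by omega), mul_comm R k]
  by_cases hlt : l < k * R
  · rw [qh, qh, if_pos hlt, if_pos (e.1 hlt), Gamma_rep (Vn_pos Par.adm_cosh h) hk tanh hl]
  · rw [qh, qh, if_neg hlt, if_neg (mt e.2 hlt)]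

theorem Phi_rep {a A D' : ℝ} (he : Adm e a A D') (_hR : 1 ≤ R) (hk : 1 ≤ k) (_hq : Prof R q V) :
    Par.Phi e (k * R) (lin (k * R)) (rep k q) = Par.Phi e R (lin R) q := by
  rw [Par.Phi, Par.Phi, Vn_rep (Vn_pos he q) hk _ le_rfl, cl_mul hk, show rep k q 0 = q 0 by simp [rep]]

theorem psiH_rep (hR : 1 ≤ R) (hk : 1 ≤ k) (hh : Prof R h V) : psiH (k * R) (rep k h) = psiH R h := by
  rw [psiH, psiH, Phi_rep Par.adm_cosh hR hk hh, rep, Nat.mul_div_cancel_left _ (by omega)]

lemma sum_rep (hk : 1 ≤ k) (F : ℕ → ℝ) (R : ℕ) :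
    ∑ l ∈ range (k * R), F (l / k) = (k : ℝ) * ∑ p ∈ range R, F p := by
  induction R with
  | zero => simp
  | succ R ih =>
    rw [Nat.mul_succ, sum_range_add, ih, sum_range_succ, mul_add]
    congr 1
    rw [sum_congr rfl fun r hr => by
      rw [add_comm (k * R) r, Nat.add_mul_div_left _ _ (show 0 < k by omega),
        Nat.div_eq_of_lt (mem_range.1 hr), zero_add]]
    simp

theorem Jval_rep (hS : Sm f f1 f2 f3 B D) (hR : 1 ≤ R) (hk : 1 ≤ k) {α : ℝ} (hh : Prof R h V) :
    Jval α f (k * R) (rep k h) = Jval α f R h := by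
  have hq : qh (k * R) (rep k h) = rep k (qh R h) := by
    funext l
    rcases le_or_gt l (k * R) with hl | hl
    · exact qh_rep hR hk hh hl
    · have : R ≤ l / k := (Nat.le_div_iff_mul_le (by omega)).2 (by rw [mul_comm]; exact hl.le)
      simp only [qh, rep, if_neg (not_lt.2 hl.le), if_neg (not_lt.2 this)]
  have hd : dotH (k * R) (rep k h) (rep k (qh R h)) = dotH R h (qh R h) := by
    have h0 : (k : ℝ) ≠ 0 := by exact_mod_cast (show k ≠ 0 by omega)
    rw [dotH, dotH]
    show (∑ l ∈ range (k * R), (fun p => h p * qh R h p) (l / k)) / _ = _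
    rw [sum_rep hk (fun p => h p * qh R h p)]
    push_cast
    rw [mul_div_mul_left _ _ h0]
  rw [Jval, Jval, hq, psiH_rep hR hk hh, hd, Phi_rep (Par.adm_exp hS) hR hk (qh_prof hR hh).1]

/-- the site functional and the overlaps do not see the top level -/
theorem psiH_congr (hR : 1 ≤ R) (hh : Prof R h V) (hh' : Prof R h' V') (e : ∀ l < R, h l = h' l) :
    psiH R h = psiH R h' ∧ ∀ l, qh R h l = qh R h' l := by
  have hv : ∀ {g : ℕ → ℝ} {W : ℝ}, Prof R g W → g (R - 1) ≤ g R := fun {g W} hg => by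
    have := hg.mono (R - 1) (by omega)
    rwa [show R - 1 + 1 = R by omega] at this
  have h2 : h' (R - 1) ≤ h R := e (R - 1) (by omega) ▸ hv hh
  refine ⟨psi_congr hR e (hv hh') h2, fun l => ?_⟩
  rcases Nat.lt_or_ge l R with hl | hl
  · rw [qh_eq hl, qh_eq hl]
    exact rs_congr (ex_lin R) (lin_top hR) e (hv hh') h2 hl
  · simp [qh, not_lt.2 hl]

end Vale.Agent.P157.Full
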