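import Vale.Agent.P157.Full.EnvLam
import Vale.Agent.P157.Full.Reps
import Vale.Agent.P157.Par.UpperEnds
import Vale.Agent.P157.Par.Lip

/-! Without patterns the field value tends to the site functional, uniformly on bounded amplitudes. -/

open MeasureTheory ProbabilityTheory Real Finset Filter
open scoped Topology
open Vale.Agent.P150 (gauss dot l1 abs_dot_le)
open Vale.Agent.P168.MP (lin Batch gain1 gainCap logZ0 ok_lin)

namespace Vale.Agent.P157.Full

open Par (Prof Sm sm_logcosh cosh_eq_exp)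

variable {R₀ k : ℕ} {lam : Fin R₀ → ℝ}

lemma cst_step (J : ℕ) : ∀ i, Par.cst (step J) i = if i = J then 1 else 0
  | 0 => by
    rcases Nat.eq_zero_or_pos J with rfl | hJ
    · simp [Par.cst, step]
    · simp [Par.cst, step, show ¬J ≤ 0 by omega, show ¬(0 = J) by omega]
  | i + 1 => by
    rcases lt_trichotomy (i + 1) J with h | h | h
    · simp [Par.cst, step, show ¬J ≤ i + 1 by omega, show ¬J ≤ i by omega, h.ne]
    · simp [Par.cst, step, h.symm]
    · simp [Par.cst, step, show J ≤ i + 1 by omega, show J ≤ i by omega, h.ne']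

lemma rep_lamPath (hk : 1 ≤ k) (lam : Fin R₀ → ℝ) (l : ℕ) :
    rep k (lamPath lam) l = ∑ j : Fin R₀, if (j : ℕ) * k ≤ l then lam j ^ 2 else 0 :=
  show (∑ j : Fin R₀, if (j : ℕ) ≤ l / k then lam j ^ 2 else 0) = _ from
    sum_congr rfl fun j _ => by simp only [Nat.le_div_iff_mul_le (show 0 < k by omega)]

lemma sqrt_single (hk : 1 ≤ k) (hl : ∀ j, 0 ≤ lam j) (i : ℕ) :
    √(∑ j : Fin R₀, if (j : ℕ) * k = i then lam j ^ 2 else 0) =
      ∑ j : Fin R₀, if (j : ℕ) * k = i then lam j else 0 := by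
  by_cases h : ∃ j : Fin R₀, (j : ℕ) * k = i
  · obtain ⟨j₀, hj₀⟩ := h
    have hne : ∀ j : Fin R₀, j ≠ j₀ → (j : ℕ) * k ≠ i := fun j hj e =>
      hj (Fin.ext (Nat.eq_of_mul_eq_mul_right (show 0 < k by omega) (e.trans hj₀.symm)))
    rw [sum_eq_single_of_mem j₀ (mem_univ _) (fun j _ hj => if_neg (hne j hj)),
      sum_eq_single_of_mem j₀ (mem_univ _) (fun j _ hj => if_neg (hne j hj)), if_pos hj₀, if_pos hj₀,
      sqrt_sq (hl j₀)]
  · push Not at h
    rw [sum_eq_zero fun j _ => if_neg (h j), sum_eq_zero fun j _ => if_neg (h j), sqrt_zero]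

lemma cst_lamPath (hk : 1 ≤ k) (hl : ∀ j, 0 ≤ lam j) (i : ℕ) :
    Par.cst (rep k (lamPath lam)) i = ∑ j : Fin R₀, lam j * Par.cst (step ((j : ℕ) * k)) i := by
  have e : ∀ j : Fin R₀, lam j * Par.cst (step ((j : ℕ) * k)) i = if (j : ℕ) * k = i then lam j else 0 := fun j => by
    rw [cst_step, mul_ite, mul_one, mul_zero]
    simp only [eq_comm]
  rw [sum_congr rfl fun j _ => e j, ← sqrt_single hk hl]
  cases i with
  | zero =>
    rw [Par.cst, rep_lamPath hk]
    congr 1
    exact sum_congr rfl fun j _ => by simp only [Nat.le_zero]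
  | succ i =>
    rw [Par.cst, rep_lamPath hk, rep_lamPath hk, ← sum_sub_distrib]
    congr 1
    refine sum_congr rfl fun j _ => ?_
    split_ifs <;> first | (exfalso; omega) | ring

lemma lamVec_eq {N n : ℕ} (hk : 1 ≤ k) (hl : ∀ j, 0 ≤ lam j) :
    lamVec (N := N) (n := n) R₀ k lam = Par.siteVec (k * R₀) (fun x => Par.node (k * R₀) (rep k (lamPath lam)) x) := by
  funext p x
  simp only [lamVec, blockVec, Par.siteVec]
  split_ifs with hp
  · simp only [Par.node, mul_left_comm (lam _), ← mul_sum]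
    congr 1
    simp only [mul_sum]
    rw [sum_comm]
    refine sum_congr rfl fun i _ => ?_
    split_ifs
    · exact (cst_lamPath hk hl i).symm
    · simp
  · simp

lemma prof_rep_lamPath (hk : 1 ≤ k) (lam : Fin R₀ → ℝ) {V : ℝ} (hV : ∑ j, lam j ^ 2 ≤ V) :
    Prof (k * R₀) (rep k (lamPath lam)) V := by
  refine ⟨?_, fun l _ => ?_, le_trans ?_ hV⟩
  · rw [rep_lamPath hk]; exact sum_nonneg fun j _ => by split_ifs <;> positivity
  · rw [rep_lamPath hk, rep_lamPath hk]
    exact sum_le_sum fun j _ => by split_ifs <;> first | (exfalso; omega) | positivity | exact le_rfl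
  · rw [rep_lamPath hk]
    exact sum_le_sum fun j _ => by split_ifs <;> first | exact le_rfl | positivity

/-- a bounded tilt on marks that extend the marks of the weight -/
lemma abs_tilt_fst {A B : Type} [Fintype A] [Fintype B] [Nonempty A] [Nonempty B] {R : ℕ} (hR : 1 ≤ R)
    {w₀ : List A → ℝ} (hw : ∀ p, 0 < w₀ p) {Y : List (A × B) → ℝ} {b : ℝ} (hY : ∀ p, |Y p| ≤ b) :
    |logZ0 R (lin R) (fun p : List (A × B) => w₀ (p.map Prod.fst) * exp (Y p)) - logZ0 R (lin R) w₀| ≤ b := by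
  rw [← Vale.Agent.P168.MP.logZ0_prod (w₀ := w₀) (B := B)]
  exact abs_logZ0_tilt hR (fun p => hw _) hY

/-- the field alone is integrable -/
lemma intX_field {f : ℝ → ℝ} {B : ℝ} {N n M : ℕ} [NeZero N] (hf : Continuous f) (hb : ∀ x, |f x| ≤ B)
    (hR : 1 ≤ k * R₀) (lam : Fin R₀ → ℝ) :
    IntX (N := N) (M := M) (R := k * R₀) (n := n)
      fun g z => logZ0 (k * R₀) (lin (k * R₀)) (fieldW (n := n) f R₀ k lam g z) := by
  have hc : ∀ p : List (Par.Site N (n + 1)), Continuous fun x : (Fin M → Fin N → ℝ) × (Fin N × Par.Ix (k * R₀) n → ℝ) =>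
      fieldW (n := n) f R₀ k lam x.1 x.2 p := fun p => by
    unfold fieldW
    exact ((Par.continuous_base hf _).comp continuous_fst).mul
      (continuous_exp.comp ((Par.continuous_dot_left _).comp continuous_snd))
  have hb' : ∀ (g : Fin M → Fin N → ℝ) (z : Fin N × Par.Ix (k * R₀) n → ℝ), |logZ0 (k * R₀) (lin (k * R₀)) (fieldW (n := n) f R₀ k lam g z)| ≤
      (M : ℝ) * B + lamSum lam * l1 z := fun g z => by
    refine Par.abs_logZ0_le (ok_lin hR (fieldW_pos g z)) fun p => ?_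
    rw [fieldW, log_mul (Par.base_pos g _).ne' (exp_pos _).ne', log_exp]
    exact (abs_add_le _ _).trans (add_le_add (Par.abs_log_base hb g _) (abs_dot_le (abs_lamVec_le _) z))
  exact intX_of_l1 (Par.continuous_logZ0 hc (fun x p => fieldW_pos x.1 x.2 p) _) hb'

/-- one node field with cosh converges uniformly on profiles below `V` -/
theorem node_cosh (V : ℝ) : ∃ K : ℝ, 0 ≤ K ∧ ∀ (R n : ℕ) (q : ℕ → ℝ), 1 ≤ R → Prof R q V →
    |∫ z, logZ0 R (lin R) (fun x : List (Fin (n + 1)) => cosh (dot (Par.node R q x) z)) ∂gauss (Par.Ix R n) -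
      Par.Phi cosh R (lin R) q| ≤ K * (2 * (V / ((n : ℝ) + 1))) := by
  obtain ⟨K, hK, h⟩ := Par.value_close sm_logcosh V
  refine ⟨K, hK, fun R n q hR hq => ?_⟩
  have := @h (Fin (n + 1)) (Par.Ix R n) _ _ _ R hR (fun _ => 1) (fun _ => one_pos) (Par.node R q)
    (fun p => Par.cv_node_le hq p) q hq
  simp only [fun g : Par.Ix R n → ℝ => Par.nest_one (lin R)
    (Y := Par.fac (fun y => log (cosh y)) (Par.node R q) g) (fun _ => exp_pos _) R []] at this
  rw [cosh_eq_exp] at this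
  have e : ∀ g : Par.Ix R n → ℝ, Par.fac (fun y => log (cosh y)) (Par.node R q) g =
      fun x => cosh (dot (Par.node R q x) g) := fun g => funext fun x => exp_log (cosh_pos _)
  simp only [e] at this
  refine this.trans (mul_le_mul_of_nonneg_left ((Par.adev_node_prof hR hq).trans_eq ?_) hK)
  simp

/-- without patterns: the field value tends to the site functional, uniformly on bounded amplitudes -/
theorem meanX_zero {f : ℝ → ℝ} {R₀ k : ℕ} (hR₀ : 1 ≤ R₀) (hk : 1 ≤ k) {ι : Type} [Fintype ι] [DecidableEq ι]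
    (β : ι → Batch) (S : ℕ) (h u : ι → ℝ) (hh : ∀ j, |h j| ≤ 1) (hu : ∀ j, |u j| ≤ 1) (Λ : ℝ)
    {ε : ℝ} (hε : 0 < ε) :
    ∀ᶠ n : ℕ in atTop, ∀ (N : ℕ) [NeZero N] (lam : Fin R₀ → ℝ), (∀ i, 0 ≤ lam i ∧ lam i ≤ Λ) →
      |meanX (N := N) (M := 0) (FX (N := N) (n := n) f R₀ k S β h u lam) -
        N * (psiH R₀ (lamPath lam) + lamPath lam R₀ / 2)| ≤
          Vale.Agent.P168.MP.gainCap S β + N * ε := by
  obtain ⟨K, -, hK⟩ := node_cosh ((R₀ : ℝ) * Λ ^ 2)
  have hlim : Tendsto (fun n : ℕ => K * (2 * ((R₀ : ℝ) * Λ ^ 2 / ((n : ℝ) + 1)))) atTop (𝓝 0) := by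
    have := (Par.tendsto_err (K * 2) ((R₀ : ℝ) * Λ ^ 2))
    simpa [mul_assoc] using this
  filter_upwards [hlim.eventually (Iic_mem_nhds hε)] with n hn
  intro N _ lam hlam
  set R := k * R₀
  have hR : 1 ≤ R := Nat.mul_pos (by omega) (by omega)
  have hV : ∑ j, lam j ^ 2 ≤ (R₀ : ℝ) * Λ ^ 2 := by
    refine (sum_le_card_nsmul _ _ (Λ ^ 2) fun j _ => pow_le_pow_left₀ (hlam j).1 (hlam j).2 2).trans_eq ?_
    simp
  set f₀ : ℝ → ℝ := fun _ => 0
  have e0 : FX (N := N) (n := n) (M := 0) f R₀ k S β h u lam = FX (N := N) (n := n) (M := 0) f₀ R₀ k S β h u lam := by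
    funext g z
    have : ∀ p, fieldW (n := n) f R₀ k lam g z p = fieldW f₀ R₀ k lam g z p := fun p => by
      simp [fieldW, Par.base, Par.ham]
    unfold FX wX
    rw [show fieldW (n := n) f R₀ k lam g z = fieldW f₀ R₀ k lam g z from funext this]
  set E := fun (g : Fin 0 → Fin N → ℝ) (z : Fin N × Par.Ix R n → ℝ) =>
    logZ0 R (lin R) (fieldW (n := n) f₀ R₀ k lam g z)
  have hf₀ : Continuous f₀ := continuous_const
  have hb₀ : ∀ x, |f₀ x| ≤ 0 := fun x => by simp [f₀]
  have hclose : ∀ g z, |FX f₀ R₀ k S β h u lam g z - E g z| ≤ gainCap S β := fun g z => by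
    have e : wX f₀ R₀ k S β h u lam g z = fun p : List (MarkX (Par.Site N (n + 1)) N S β) =>
        fieldW (n := n) f₀ R₀ k lam g z (p.map Prod.fst) * exp (∑ i : ι × Fin S, gain1 R h u (p.map (plain cfg)) i) := rfl
    simp only [FX, e, E]
    exact abs_tilt_fst (w₀ := fieldW (n := n) f₀ R₀ k lam g z)
      (Y := fun p : List (MarkX (Par.Site N (n + 1)) N S β) => ∑ i : ι × Fin S, gain1 R h u (p.map (plain cfg)) i)
      hR (fieldW_pos g z) (fun p => abs_gain_plain hh hu p)
  have iF : IntX (FX (N := N) (n := n) (M := 0) f₀ R₀ k S β h u lam) := intX_FX hf₀ hb₀ hR hh hu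
  have iE : IntX E := intX_field hf₀ hb₀ hR lam
  have hPv : meanX E = Par.Pv f₀ N R (lin R) (fun x : List (Fin (n + 1)) => Par.node R (rep k (lamPath lam)) x) 0 1 := by
    simp only [meanX, Par.Pv, Par.linVal, E, R]
    refine integral_congr_ae (Eventually.of_forall fun g => integral_congr_ae (Eventually.of_forall fun z => ?_))
    refine congrArg (logZ0 (k * R₀) (lin (k * R₀))) (funext fun p => ?_)
    simp only [fieldW, Par.linW, lamVec_eq hk (fun j => (hlam j).1), sqrt_one, one_mul]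
  have hQ := prof_rep_lamPath hk lam hV
  have hnode := hK R n _ hR hQ
  rw [Phi_rep Par.adm_cosh hR₀ hk (prof_lamPath lam)] at hnode
  rw [Par.Pv_start (fun w hw => ok_lin hR hw) hR (Par.nodeVec_node hQ)] at hPv
  have h1 : |meanX (FX (N := N) (n := n) (M := 0) f₀ R₀ k S β h u lam) - meanX E| ≤ gainCap S β := by
    rw [← meanX_sub iF iE]
    exact (abs_meanX_le (iF.sub iE)).trans ((meanX_mono (iF.sub iE).abs (intX_const _) hclose).trans_eq (meanX_const _))
  have h2 : |meanX E - N * Par.Phi cosh R₀ (lin R₀) (lamPath lam)| ≤ N * ε := by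
    rw [hPv, ← mul_sub, abs_mul, Nat.abs_cast]
    exact mul_le_mul_of_nonneg_left (hnode.trans hn) (Nat.cast_nonneg N)
  rw [e0, psiH, sub_add_cancel]
  exact (abs_sub_le _ _ _).trans (add_le_add h1 h2)

end Vale.Agent.P157.Full
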