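import Vale.Agent.P157.Full.UDefs
import Vale.Agent.P157.Par.Lip

/-! Finite algebra of the envelope: tails over blocks of levels, distances of monotone profiles, and the
affine part of the objective with its logarithmic barrier. -/

open Finset Real

namespace Vale.Agent.P157.Full

open Par (Prof dist1)

variable {R₀ k : ℕ} {r r' : ℕ → ℝ}

lemma tailAvg_nil {R J : ℕ} (h : R ≤ J) (r : ℕ → ℝ) : tailAvg R J r = 0 := by
  simp [tailAvg, Finset.Ico_eq_empty (not_lt.2 h)]

lemma tailAvg_split {R I J : ℕ} (h1 : I ≤ J) (h2 : J ≤ R) (r : ℕ → ℝ) :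
    tailAvg R I r = (∑ l ∈ Ico I J, r l) / R + tailAvg R J r := by
  rw [tailAvg, tailAvg, ← add_div, sum_Ico_consecutive _ h1 h2]

lemma sum_block_const (k : ℕ) (q : ℕ → ℝ) (j : ℕ) :
    ∑ l ∈ Ico (j * k) ((j + 1) * k), rep k q l = k * q j := by
  rw [sum_congr rfl (g := fun _ => q j) fun l hl => ?_]
  · simp [Nat.add_mul]
  · obtain ⟨h1, h2⟩ := mem_Ico.1 hl
    rw [rep, Nat.div_eq_of_lt_le h1 h2]

/-- tails of a repeated profile at block starts -/
lemma tailAvg_rep (hk : 1 ≤ k) (q : ℕ → ℝ) : ∀ (d j : ℕ), j + d = R₀ →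
    tailAvg (k * R₀) (j * k) (rep k q) = tailAvg R₀ j q
  | 0, j, h => by rw [tailAvg_nil (by rw [Nat.mul_comm k]; exact Nat.mul_le_mul_right k (by omega)),
      tailAvg_nil (by omega)]
  | d + 1, j, h => by
    have hle : (j + 1) * k ≤ k * R₀ := by rw [Nat.mul_comm k]; exact Nat.mul_le_mul_right k (by omega)
    rw [tailAvg_split (show j * k ≤ (j + 1) * k from Nat.mul_le_mul_right k (by omega)) hle,
      tailAvg_rep hk q d (j + 1) (by omega), tailAvg_split (show j ≤ j + 1 by omega) (show j + 1 ≤ R₀ by omega),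
      sum_block_const, Nat.Ico_succ_singleton, sum_singleton]
    push_cast
    have : (k:ℝ) ≠ 0 := by exact_mod_cast (show k ≠ 0 by omega)
    rw [mul_div_mul_left _ _ this]

/-- the tail bound at block starts holds at every level -/
lemma tail_block (hk : 1 ≤ k) (hr : ∀ l, l + 1 < k * R₀ → r l ≤ r (l + 1)) {q : ℕ → ℝ} {η : ℝ} (hη : 0 ≤ η)
    (h : ∀ j < R₀, tailAvg (k * R₀) (j * k) (rep k q) - η ≤ tailAvg (k * R₀) (j * k) r) {J : ℕ}
    (hJ : J < k * R₀) : tailAvg (k * R₀) J (rep k q) - η ≤ tailAvg (k * R₀) J r := by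
  set R := k * R₀
  obtain ⟨h1, h2⟩ : J / k * k ≤ J ∧ J < (J / k + 1) * k :=
    ⟨Nat.div_mul_le_self J k, Nat.lt_mul_of_div_lt (Nat.lt_succ_self _) (by omega)⟩
  set j := J / k
  have hj : j < R₀ := Nat.div_lt_of_lt_mul hJ
  have hR : (j + 1) * k ≤ R := by
    simp only [R]; rw [Nat.mul_comm k]; exact Nat.mul_le_mul_right k (by omega)
  have hmono : ∀ a b, a ≤ b → b < R → r a ≤ r b := fun a b hab => by
    induction b, hab using Nat.le_induction with
    | base => exact fun _ => le_rfl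
    | succ b hab ih => exact fun hb => (ih (by omega)).trans (hr b hb)
  have hend : tailAvg R ((j + 1) * k) (rep k q) - η ≤ tailAvg R ((j + 1) * k) r := by
    rcases Nat.lt_or_ge (j + 1) R₀ with h' | h'
    · exact h (j + 1) h'
    · have : R ≤ (j + 1) * k := by simp only [R]; rw [Nat.mul_comm k]; exact Nat.mul_le_mul_right k h'
      rw [tailAvg_nil this, tailAvg_nil this]; linarith
  have hq : ∀ l, j * k ≤ l → l < (j + 1) * k → rep k q l = q j := fun l a b => by
    rw [rep, Nat.div_eq_of_lt_le a b]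
  rcases le_or_gt (q j) (r J) with hd | hd
  · rw [tailAvg_split h2.le hR (rep k q), tailAvg_split h2.le hR r]
    have : ∑ l ∈ Ico J ((j + 1) * k), rep k q l ≤ ∑ l ∈ Ico J ((j + 1) * k), r l :=
      sum_le_sum fun l hl => by
        obtain ⟨a, b⟩ := mem_Ico.1 hl
        rw [hq l (h1.trans a) b]
        exact hd.trans (hmono J l a (b.trans_le hR))
    have := div_le_div_of_nonneg_right this (Nat.cast_nonneg (α := ℝ) R)
    linarith
  · have h0 := h j hj
    rw [tailAvg_split h1 (by omega) (rep k q), tailAvg_split h1 (by omega) r] at h0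
    have : ∑ l ∈ Ico (j * k) J, r l ≤ ∑ l ∈ Ico (j * k) J, rep k q l := sum_le_sum fun l hl => by
      obtain ⟨a, b⟩ := mem_Ico.1 hl
      rw [hq l a (b.trans h2)]
      exact (hmono l J b.le hJ).trans hd.le
    have := div_le_div_of_nonneg_right this (Nat.cast_nonneg (α := ℝ) R)
    linarith

/-- monotone profiles with close block tails are close -/
lemma dist_block (hR₀ : 1 ≤ R₀) (hk : 1 ≤ k) (h : Prof (k * R₀) r 1) (h1 : r (k * R₀) = 1)
    (h' : Prof (k * R₀) r' 1) (h1' : r' (k * R₀) = 1) :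
    dist1 (k * R₀) r r' ≤ 2 / R₀ +
      2 * ∑ j ∈ range R₀, |tailAvg (k * R₀) (j * k) r - tailAvg (k * R₀) (j * k) r'| := by
  set R := k * R₀
  have hk0 : (0:ℝ) < k := by exact_mod_cast hk
  have hR0 : (0:ℝ) < R₀ := by exact_mod_cast hR₀
  have hRc : (R:ℝ) = k * R₀ := by simp [R]
  have hle : ∀ j, j ≤ R₀ → j * k ≤ R := fun j hj => by
    simp only [R]; rw [Nat.mul_comm k]; exact Nat.mul_le_mul_right k hj
  set T : ℕ → ℝ := fun j => tailAvg R (j * k) r - tailAvg R (j * k) r'
  set osc : ℕ → ℝ := fun j => (r ((j + 1) * k) - r (j * k)) + (r' ((j + 1) * k) - r' (j * k))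
  have hb : ∀ j < R₀, (∑ l ∈ Ico (j * k) ((j + 1) * k), |r l - r' l|) / R ≤
      |T j - T (j + 1)| + osc j / R₀ := by
    intro j hj
    set I := Ico (j * k) ((j + 1) * k)
    have hs : (j + 1) * k ≤ R := hle (j + 1) hj
    have eT : T j - T (j + 1) = (∑ l ∈ I, (r l - r' l)) / R := by
      simp only [T]
      rw [tailAvg_split (show j * k ≤ (j + 1) * k from Nat.mul_le_mul_right k (by omega)) hs r,
        tailAvg_split (show j * k ≤ (j + 1) * k from Nat.mul_le_mul_right k (by omega)) hs r', sum_sub_distrib,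
        sub_div]
      ring
    set D := ∑ l ∈ I, (r l - r' l)
    have hcard : (I.card : ℝ) = k := by simp [I, Nat.add_mul]
    have hpt : ∀ l ∈ I, |r l - r' l| ≤ |D| / k + osc j := by
      intro l hl
      obtain ⟨a, b⟩ := mem_Ico.1 hl
      have key : ∀ i ∈ I, |(r l - r' l) - (r i - r' i)| ≤ osc j := fun i hi => by
        obtain ⟨c, d⟩ := mem_Ico.1 hi
        have m : ∀ {s : ℕ → ℝ}, Prof R s 1 → |s l - s i| ≤ s ((j + 1) * k) - s (j * k) := fun {s} hs' => by
          have := hs'.le_of_le a (b.le.trans hs); have := hs'.le_of_le b.le hs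
          have := hs'.le_of_le c (d.le.trans hs); have := hs'.le_of_le d.le hs
          rw [abs_le]; constructor <;> linarith
        have := abs_sub (r l - r i) (r' l - r' i)
        rw [show (r l - r i) - (r' l - r' i) = (r l - r' l) - (r i - r' i) by ring] at this
        simp only [osc]
        linarith [m h, m h']
      have h2 : |k * (r l - r' l) - D| ≤ k * osc j := by
        rw [← hcard, ← nsmul_eq_mul, ← sum_const, ← nsmul_eq_mul, ← sum_const, ← sum_sub_distrib]
        exact (abs_sum_le_sum_abs _ _).trans (sum_le_sum key)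
      have h3 : |(k:ℝ) * (r l - r' l)| ≤ |D| + k * osc j := by
        have := abs_sub_abs_le_abs_sub ((k:ℝ) * (r l - r' l)) D
        linarith
      rw [abs_mul, abs_of_pos hk0] at h3
      rw [div_add' _ _ _ hk0.ne', le_div_iff₀ hk0]
      linarith
    refine (div_le_div_of_nonneg_right (sum_le_card_nsmul _ _ _ hpt) (Nat.cast_nonneg _)).trans (le_of_eq ?_)
    rw [nsmul_eq_mul, hcard, eT, abs_div, Nat.abs_cast, hRc]
    field_simp
  have hsum : ∀ j, j ≤ R₀ → ∑ l ∈ range (j * k), |r l - r' l| =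
      ∑ i ∈ range j, ∑ l ∈ Ico (i * k) ((i + 1) * k), |r l - r' l| := fun j _ => by
    induction j with
    | zero => simp
    | succ j ih =>
      rw [sum_range_succ, ← ih (by omega), sum_range_add_sum_Ico _ (Nat.mul_le_mul_right k (Nat.le_succ j))]
  have ho : ∑ j ∈ range R₀, osc j ≤ 2 := by
    simp only [osc, sum_add_distrib, sum_range_sub fun j => r (j * k), sum_range_sub fun j => r' (j * k),
      Nat.zero_mul]
    rw [Nat.mul_comm R₀ k]
    linarith [h.zero, h'.zero, h.top, h'.top]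
  have hT : ∑ j ∈ range R₀, |T j - T (j + 1)| ≤ 2 * ∑ j ∈ range R₀, |T j| := by
    refine (sum_le_sum fun j _ => abs_sub (T j) (T (j + 1))).trans ?_
    rw [sum_add_distrib, two_mul]
    refine add_le_add le_rfl ?_
    have h0 : T R₀ = 0 := by
      simp only [T]
      have : R ≤ R₀ * k := by simp only [R, Nat.mul_comm]; rfl
      rw [tailAvg_nil this, tailAvg_nil this, sub_zero]
    have := sum_range_succ' (fun j => |T j|) R₀
    rw [sum_range_succ, h0, abs_zero, add_zero] at this
    linarith [abs_nonneg (T 0)]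
  rw [dist1, h1, h1', sub_self, abs_zero, add_zero]
  conv_lhs => rw [show range R = range (R₀ * k) by simp only [R, Nat.mul_comm]]
  rw [hsum R₀ le_rfl, sum_div]
  refine (sum_le_sum fun j hj => hb j (mem_range.1 hj)).trans ?_
  rw [sum_add_distrib, ← sum_div]
  have := div_le_div_of_nonneg_right ho hR0.le
  linarith

/-- coefficient of the square of an amplitude -/
noncomputable def aCoef (R₀ : ℕ) (q : ℕ → ℝ) (j : ℕ) : ℝ := -1 / 2 + tailAvg R₀ j q / 2

/-- affine part and barrier -/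
noncomputable def affX {R₀ : ℕ} (q : ℕ → ℝ) (η : ℝ) (lam : Fin R₀ → ℝ) : ℝ :=
  ∑ j : Fin R₀, (aCoef R₀ q j * lam j ^ 2 + η * log (lam j))

lemma lamPath_top {R₀ : ℕ} (lam : Fin R₀ → ℝ) {l : ℕ} (hl : R₀ ≤ l + 1) :
    lamPath lam l = ∑ j, lam j ^ 2 :=
  sum_congr rfl fun j _ => if_pos (by have := j.isLt; omega)

lemma prof_lamPath {R₀ : ℕ} (lam : Fin R₀ → ℝ) : Prof R₀ (lamPath lam) (∑ j, lam j ^ 2) := by
  refine ⟨sum_nonneg fun j _ => by split_ifs <;> positivity, fun l _ => sum_le_sum fun j _ => ?_,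
    (lamPath_top lam (Nat.le_succ _)).le⟩
  split_ifs <;> first | linarith | positivity

/-- the square part of the objective is the pairing with the overlaps -/
lemma affX_eq {R₀ : ℕ} (q : ℕ → ℝ) (η : ℝ) (lam : Fin R₀ → ℝ) :
    affX q η lam = dotH R₀ (lamPath lam) q / 2 - lamPath lam R₀ / 2 + η * ∑ j, log (lam j) := by
  have e : dotH R₀ (lamPath lam) q = ∑ j : Fin R₀, lam j ^ 2 * tailAvg R₀ j q := by
    simp only [dotH, lamPath, sum_mul, ite_mul, zero_mul]
    rw [sum_comm, sum_div]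
    refine sum_congr rfl fun j _ => ?_
    rw [tailAvg, ← mul_div_assoc, mul_sum]
    congr 1
    rw [← sum_filter]
    refine sum_congr ?_ fun l _ => rfl
    ext l; simp [and_comm]
  simp only [affX, aCoef, e, lamPath_top lam (Nat.le_succ R₀), sum_add_distrib, mul_sum, sum_div]
  rw [← sum_sub_distrib]
  congr 1
  exact sum_congr rfl fun j _ => by ring

/-- second order bound of the logarithm -/
lemma log_add_ge {x d : ℝ} (hx : 0 < x) (hd : |d| ≤ x / 2) :
    log x + d / x - 2 * d ^ 2 / x ^ 2 ≤ log (x + d) := by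
  obtain ⟨h1, h2⟩ := abs_le.1 hd
  have hp : 0 < x + d := by linarith
  have h := one_sub_inv_le_log_of_pos (div_pos hp hx)
  rw [inv_div, log_div hp.ne' hx.ne'] at h
  have key : d / x - 2 * d ^ 2 / x ^ 2 ≤ 1 - x / (x + d) := by
    rw [show 1 - x / (x + d) = d / (x + d) by field_simp; ring,
      show d / x - 2 * d ^ 2 / x ^ 2 = (d * x - 2 * d ^ 2) / x ^ 2 by field_simp,
      div_le_div_iff₀ (by positivity) hp]
    nlinarith [mul_nonneg (sq_nonneg d) (show 0 ≤ x + 2 * d by linarith)]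
  linarith

/-- a maximiser bounds the second difference of the rest -/
lemma aff_one (a η : ℝ) (hη : 0 ≤ η) {x d : ℝ} (hx : 0 < x) (hd : |d| ≤ x / 2) :
    a * x ^ 2 + η * log x + (2 * a * x + η / x) * d - (|a| + 2 * η / x ^ 2) * d ^ 2 ≤
      a * (x + d) ^ 2 + η * log (x + d) := by
  have h := mul_le_mul_of_nonneg_left (log_add_ge hx hd) hη
  have : -|a| * d ^ 2 ≤ a * d ^ 2 := mul_le_mul_of_nonneg_right (neg_abs_le a) (sq_nonneg d)
  have e : η * (log x + d / x - 2 * d ^ 2 / x ^ 2) = η * log x + η / x * d - 2 * η / x ^ 2 * d ^ 2 := by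
    field_simp
  nlinarith

end Vale.Agent.P157.Full
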