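import Vale.Agent.P157.Full.EnvBase
import Vale.Agent.P157.Full.EnvAlg
import Vale.Agent.P157.Par.UpperMix

/-! The field value as a function of the amplitudes and of the number of patterns, and means over a
grid of strengths, patterns and fields together. -/

open MeasureTheory ProbabilityTheory Real Finset
open Vale.Agent.P150 (gauss dot l1 l1_nonneg abs_dot_le)
open Vale.Agent.P168.MP (lin ET Batch gain1 gainCap nest avg logZ0 avg_le_avg avg_const)

namespace Vale.Agent.P157.Full

open Par (pats ham Prof adev ovK qlev)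

/-! ### means over strengths, patterns and fields -/

section joint
variable {A : Type} [Fintype A] {N M R n : ℕ}
  {F G : A → (Fin M → Fin N → ℝ) → (Fin N × Par.Ix R n → ℝ) → ℝ}

/-- the mean over strengths, patterns and fields -/
noncomputable def EX (F : A → (Fin M → Fin N → ℝ) → (Fin N × Par.Ix R n → ℝ) → ℝ) : ℝ :=
  avg fun a => meanX (F a)

lemma EX_add (hF : ∀ a, IntX (F a)) (hG : ∀ a, IntX (G a)) :
    EX (fun a g z => F a g z + G a g z) = EX F + EX G := by
  simp only [EX, avg, meanX_add (hF _) (hG _), sum_add_distrib, add_div]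

lemma EX_sub (hF : ∀ a, IntX (F a)) (hG : ∀ a, IntX (G a)) :
    EX (fun a g z => F a g z - G a g z) = EX F - EX G := by
  simp only [EX, avg, meanX_sub (hF _) (hG _), sum_sub_distrib, sub_div]

lemma EX_const_mul (c : ℝ) : EX (fun a g z => c * F a g z) = c * EX F := by
  simp only [EX, avg, meanX_const_mul, ← mul_sum, mul_div_assoc]

lemma EX_div_const (c : ℝ) : EX (fun a g z => F a g z / c) = EX F / c := by
  simp only [EX, avg, meanX_div_const, ← sum_div]
  rw [div_div, div_div, mul_comm]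

lemma EX_sum {κ : Type} (s : Finset κ) {F : κ → A → (Fin M → Fin N → ℝ) → (Fin N × Par.Ix R n → ℝ) → ℝ}
    (hF : ∀ i ∈ s, ∀ a, IntX (F i a)) :
    EX (fun a g z => ∑ i ∈ s, F i a g z) = ∑ i ∈ s, EX (F i) := by
  simp only [EX, avg, meanX_sum s fun i hi => hF i hi _]
  rw [sum_comm, sum_div]

lemma EX_mono (hF : ∀ a, IntX (F a)) (hG : ∀ a, IntX (G a)) (h : ∀ a g z, F a g z ≤ G a g z) :
    EX F ≤ EX G :=
  avg_le_avg fun a => meanX_mono (hF a) (hG a) (h a)

lemma EX_const [Nonempty A] (c : ℝ) : EX (A := A) (N := N) (M := M) (R := R) (n := n) (fun _ _ _ => c) = c := by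
  simp only [EX, meanX_const, avg_const]

lemma abs_EX_le (hF : ∀ a, IntX (F a)) : |EX F| ≤ EX fun a g z => |F a g z| :=
  abs_le.2 ⟨by
    have := EX_mono (F := fun a g z => (-1) * |F a g z|) (fun a => (hF a).abs.const_mul _) hF
      fun a g z => by linarith [neg_abs_le (F a g z)]
    rw [EX_const_mul] at this; linarith,
    EX_mono hF (fun a => (hF a).abs) fun a g z => le_abs_self _⟩

end joint

/-! ### amplitudes and patterns -/

variable {f : ℝ → ℝ} {B : ℝ} {N n M R₀ k S : ℕ} [NeZero N] {ι : Type} [Fintype ι] [DecidableEq ι]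
  {β : ι → Batch} {h u u' : ι → ℝ}

/-- the log partition function moves by at most the bound of a tilt -/
lemma abs_logZ0_tilt {Ω : Type} [Fintype Ω] [Nonempty Ω] {R : ℕ} (hR : 1 ≤ R) {w Y : List Ω → ℝ}
    (hw : ∀ p, 0 < w p) {b : ℝ} (hY : ∀ p, |Y p| ≤ b) :
    |logZ0 R (lin R) (fun p => w p * exp (Y p)) - logZ0 R (lin R) w| ≤ b := by
  rw [Vale.Agent.P168.MP.logZ0_mul hw (fun p => exp_pos (Y p))]
  exact Par.abs_log_nest_le (Vale.Agent.P168.MP.ok_lin hR hw) fun p =>
    ⟨exp_le_exp.2 (abs_le.1 (hY p)).1, exp_le_exp.2 (abs_le.1 (hY p)).2⟩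

lemma lamVec_sub (lam lam' : Fin R₀ → ℝ) (p : List (Par.Site N (n + 1))) (x : Fin N × Par.Ix (k * R₀) n) :
    lamVec R₀ k lam p x = lamVec R₀ k lam' p x + lamVec R₀ k (lam - lam') p x := by
  simp only [lamVec, ← sum_add_distrib]
  exact sum_congr rfl fun j _ => by simp only [Pi.sub_apply]; ring

lemma abs_FX_lam_le (hR : 1 ≤ k * R₀) (lam lam' : Fin R₀ → ℝ) (g : Fin M → Fin N → ℝ)
    (z : Fin N × Par.Ix (k * R₀) n → ℝ) :
    |FX f R₀ k S β h u lam g z - FX f R₀ k S β h u lam' g z| ≤ lamSum (lam - lam') * l1 z := by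
  have e : wX f R₀ k S β h u lam g z = fun p => wX f R₀ k S β h u lam' g z p *
      exp (dot (lamVec R₀ k (lam - lam') (p.map Prod.fst)) z) := by
    funext p
    have : dot (lamVec R₀ k lam (p.map Prod.fst)) z =
        dot (lamVec R₀ k lam' (p.map Prod.fst)) z + dot (lamVec R₀ k (lam - lam') (p.map Prod.fst)) z := by
      simp only [dot, lamVec_sub lam lam', add_mul, sum_add_distrib]
    simp only [wX, pwX, fieldW, this, exp_add]
    ring
  unfold FX
  rw [e]
  exact abs_logZ0_tilt hR (wX_pos g z) fun p => abs_dot_le (abs_lamVec_le _) z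

/-- patterns raise the value by at most the bound of the potential -/
lemma FX_le_zero (hb : ∀ x, |f x| ≤ B) (hR : 1 ≤ k * R₀) (lam : Fin R₀ → ℝ) (g : Fin M → Fin N → ℝ)
    (g₀ : Fin 0 → Fin N → ℝ) (z : Fin N × Par.Ix (k * R₀) n → ℝ) :
    FX f R₀ k S β h u lam g z ≤ FX f R₀ k S β h u lam g₀ z + M * B := by
  have e : wX f R₀ k S β h u lam g z = fun p => wX f R₀ k S β h u lam g₀ z p *
      exp (log (Par.base f (k * R₀) g (p.map Prod.fst))) := by
    funext p
    rw [exp_log (Par.base_pos g _)]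
    have : Par.base f (k * R₀) g₀ (p.map Prod.fst) = 1 := by simp [Par.base, ham]
    simp only [wX, pwX, fieldW, this]
    ring
  have := abs_le.1 (abs_logZ0_tilt hR (wX_pos (f := f) (S := S) (β := β) (h := h) (u := u) (lam := lam) g₀ z)
    fun p => Par.abs_log_base (R := k * R₀) hb g (p.map Prod.fst))
  unfold FX
  rw [e]
  linarith

/-- the mean of the size of the field -/
noncomputable def meanL1 (N R n : ℕ) : ℝ := ∫ z, l1 z ∂gauss (Fin N × Par.Ix R n)

lemma intX_l1 {R : ℕ} (c : ℝ) : IntX (N := N) (M := M) (R := R) (n := n) fun _ z => c * l1 z :=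
  Integrable.comp_snd (Par.integrable_l1.const_mul c) (pats N M)

lemma abs_meanX_lam_le (hf : Continuous f) (hb : ∀ x, |f x| ≤ B) (hR : 1 ≤ k * R₀) (hh : ∀ j, |h j| ≤ 1)
    (hu : ∀ j, |u j| ≤ 1) (lam lam' : Fin R₀ → ℝ) :
    |meanX (FX (N := N) (n := n) (M := M) f R₀ k S β h u lam) - meanX (FX (N := N) (n := n) (M := M) f R₀ k S β h u lam')| ≤
      lamSum (lam - lam') * meanL1 N (k * R₀) n := by
  have i1 := intX_FX (N := N) (n := n) (M := M) (S := S) (β := β) (lam := lam) hf hb hR hh hu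
  have i2 := intX_FX (N := N) (n := n) (M := M) (S := S) (β := β) (lam := lam') hf hb hR hh hu
  rw [← meanX_sub i1 i2]
  refine (abs_meanX_le (i1.sub i2)).trans ((meanX_mono (i1.sub i2).abs (intX_l1 _)
    fun g z => abs_FX_lam_le hR lam lam' g z).trans_eq ?_)
  simp [meanX, meanL1, integral_const_mul]

lemma meanX_le_zero (hf : Continuous f) (hb : ∀ x, |f x| ≤ B) (hR : 1 ≤ k * R₀) (hh : ∀ j, |h j| ≤ 1)
    (hu : ∀ j, |u j| ≤ 1) (lam : Fin R₀ → ℝ) :
    meanX (FX (N := N) (n := n) (M := M) f R₀ k S β h u lam) ≤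
      meanX (FX (N := N) (n := n) (M := 0) f R₀ k S β h u lam) + M * B := by
  have i1 := intX_FX (N := N) (n := n) (M := M) (S := S) (β := β) (lam := lam) hf hb hR hh hu
  have i0 : IntX (N := N) (M := M) (R := k * R₀) (n := n)
      fun _ z => FX f R₀ k S β h u lam (fun a : Fin 0 => a.elim0) z :=
    intX_of_l1 (((continuous_FX hf).comp (continuous_const.prodMk continuous_id)).comp continuous_snd)
      fun g z => abs_FX_le hb hR hh hu _ z
  refine ((meanX_mono i1 (i0.add (intX_const (M * B))) fun g z => FX_le_zero hb hR lam g _ z).trans_eq ?_)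
  rw [meanX_add i0 (intX_const _), meanX_const]
  congr 1
  unfold meanX
  rw [integral_const, probReal_univ, one_smul]
  have e : ∀ g : Fin 0 → Fin N → ℝ, g = fun a => a.elim0 := fun g => funext fun a => a.elim0
  calc _ = ∫ _g, ∫ z, FX f R₀ k S β h u lam (fun a : Fin 0 => a.elim0) z
        ∂gauss (Fin N × Par.Ix (k * R₀) n) ∂pats N 0 := by rw [integral_const, probReal_univ, one_smul]
    _ = _ := integral_congr_ae (Filter.Eventually.of_forall fun g => by dsimp only; rw [e g])

lemma abs_meanX_str_le (hf : Continuous f) (hb : ∀ x, |f x| ≤ B) (hR : 1 ≤ k * R₀) (hh : ∀ j, |h j| ≤ 1)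
    (hu : ∀ j, |u j| ≤ 1) (hu' : ∀ j, |u' j| ≤ 1) (lam : Fin R₀ → ℝ) :
    |meanX (FX (N := N) (n := n) (M := M) f R₀ k S β h u lam) - meanX (FX (N := N) (n := n) (M := M) f R₀ k S β h u' lam)| ≤
      2 * gainCap S β := by
  have i1 := intX_FX (N := N) (n := n) (M := M) (S := S) (β := β) (lam := lam) hf hb hR hh hu
  have i2 := intX_FX (N := N) (n := n) (M := M) (S := S) (β := β) (lam := lam) hf hb hR hh hu'
  rw [← meanX_sub i1 i2]
  exact (abs_meanX_le (i1.sub i2)).trans ((meanX_mono (i1.sub i2).abs (intX_const _)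
    fun g z => abs_FX_sub_le hR hh hu hu' g z).trans_eq (meanX_const _))

end Vale.Agent.P157.Full
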