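import Vale.Agent.P157.Full.EnvBase
import Vale.Agent.P157.Full.EnvLam
import Vale.Agent.P157.Par.Close
import Vale.Agent.P157.Par.UpperEnds

/-! The envelope system with patterns: the mean field value is at least the pressure, and one pattern adds
the nested functional at the mean overlaps. The case without patterns is in `EndZero`. -/

open MeasureTheory ProbabilityTheory Real Finset Filter
open scoped Topology
open Vale.Agent.P150 (gauss dot l1 l1_nonneg abs_dot_le)
open Vale.Agent.P168 (sg)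
open Vale.Agent.P168.MP (lin ET Batch gain1 gainCap nest logZ0 ok_lin)
open Vale.Agent.P157.Lim (xv)

namespace Vale.Agent.P157.Full

open Par (Sm Prof pats ham adev ovK qlev)

set_option linter.unusedSectionVars false

variable {f f1 f2 f3 : ℝ → ℝ} {B D : ℝ} {N n M R₀ k S : ℕ} [NeZero N] {ι : Type} [Fintype ι]
  [DecidableEq ι] {β : ι → Batch} {h u : ι → ℝ} {lam : Fin R₀ → ℝ}

/-! ### removing the perturbation -/

/-- the field value without perturbation -/
noncomputable def plainVal (f : ℝ → ℝ) (R₀ k : ℕ) (lam : Fin R₀ → ℝ) (g : Fin M → Fin N → ℝ)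
    (z : Fin N × Par.Ix (k * R₀) n → ℝ) : ℝ :=
  logZ0 (k * R₀) (lin (k * R₀)) (fieldW f R₀ k lam g z)

lemma abs_FX_sub_plain (hR : 1 ≤ k * R₀) (hh : ∀ j, |h j| ≤ 1) (hu : ∀ j, |u j| ≤ 1)
    (g : Fin M → Fin N → ℝ) (z : Fin N × Par.Ix (k * R₀) n → ℝ) :
    |FX f R₀ k S β h u lam g z - plainVal f R₀ k lam g z| ≤ gainCap S β := by
  have h1 := abs_logZ0_tilt (Ω := MarkX (Par.Site N (n + 1)) N S β) hR
    (w := fun p => fieldW f R₀ k lam g z (p.map Prod.fst))
    (Y := fun p => ∑ i : ι × Fin S, gain1 (k * R₀) h u (p.map (plain cfg)) i)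
    (fun p => fieldW_pos g z _) (b := gainCap S β) fun p => abs_gain_plain (R := k * R₀) hh hu p
  rw [Vale.Agent.P168.MP.logZ0_prod (w₀ := fieldW f R₀ k lam g z)] at h1
  unfold FX plainVal wX pwX
  exact h1

lemma continuous_plain (hf : Continuous f) :
    Continuous fun x : (Fin M → Fin N → ℝ) × (Fin N × Par.Ix (k * R₀) n → ℝ) =>
      plainVal f R₀ k lam x.1 x.2 := by
  have hc : ∀ p, Continuous fun x : (Fin M → Fin N → ℝ) × (Fin N × Par.Ix (k * R₀) n → ℝ) =>
      fieldW f R₀ k lam x.1 x.2 p := fun p => by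
    unfold fieldW
    exact ((Par.continuous_base hf _).comp continuous_fst).mul (continuous_exp.comp
      ((Par.continuous_dot_left _).comp continuous_snd))
  exact Par.continuous_logZ0 hc (fun x p => fieldW_pos x.1 x.2 p) _

lemma abs_plain_le (hb : ∀ x, |f x| ≤ B) (hR : 1 ≤ k * R₀) (g : Fin M → Fin N → ℝ)
    (z : Fin N × Par.Ix (k * R₀) n → ℝ) :
    |plainVal f R₀ k lam g z| ≤ M * B + lamSum lam * l1 z := by
  refine Par.abs_logZ0_le (ok_lin hR (fieldW_pos g z)) fun p => ?_
  rw [fieldW, log_mul (Par.base_pos g _).ne' (exp_pos _).ne', log_exp]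
  exact (abs_add_le _ _).trans
    (add_le_add (Par.abs_log_base hb g _) (abs_dot_le (abs_lamVec_le _) z))

lemma intX_plain (hf : Continuous f) (hb : ∀ x, |f x| ≤ B) (hR : 1 ≤ k * R₀) :
    IntX (plainVal (N := N) (n := n) (M := M) f R₀ k lam) :=
  intX_of_l1 (continuous_plain hf) fun g z => abs_plain_le hb hR g z

lemma abs_meanX_sub_plain (hf : Continuous f) (hb : ∀ x, |f x| ≤ B) (hR : 1 ≤ k * R₀)
    (hh : ∀ j, |h j| ≤ 1) (hu : ∀ j, |u j| ≤ 1) :
    |meanX (FX (N := N) (n := n) (M := M) f R₀ k S β h u lam) -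
      meanX (plainVal (N := N) (n := n) (M := M) f R₀ k lam)| ≤ gainCap S β := by
  have i1 := intX_FX (N := N) (n := n) (M := M) (S := S) (β := β) (lam := lam) hf hb hR hh hu
  have i2 := intX_plain (N := N) (n := n) (M := M) (lam := lam) hf hb hR
  rw [← meanX_sub i1 i2]
  exact (abs_meanX_le (i1.sub i2)).trans ((meanX_mono (i1.sub i2).abs (intX_const _)
    fun g z => abs_FX_sub_plain hR hh hu g z).trans_eq (meanX_const _))

/-! ### the pressure -/

lemma integral_coord_zero {K : Type} [Fintype K] (x : K) : ∫ z, z x ∂gauss K = 0 := by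
  have hm := measurePreserving_eval (fun _ : K => gaussianReal 0 1) x
  rw [gauss]
  rw [← integral_map (f := fun t : ℝ => t) hm.measurable.aemeasurable (by fun_prop), hm.map_eq]
  exact integral_id_gaussianReal

lemma base_le_plain (hf : Continuous f) (hb : ∀ x, |f x| ≤ B) (hR : 1 ≤ k * R₀)
    (g : Fin M → Fin N → ℝ) :
    logZ0 (k * R₀) (lin (k * R₀)) (Par.base (L := n + 1) f (k * R₀) g) ≤
      ∫ z, plainVal f R₀ k lam g z ∂gauss (Fin N × Par.Ix (k * R₀) n) := by
  set R := k * R₀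
  set w := Par.base (L := n + 1) f R g
  have hw : ∀ p, 0 < w p := fun p => Par.base_pos g p
  set c : (Fin N × Par.Ix R n) → ℝ := fun x => Vale.Agent.P168.MP.ext (lin R) w R [] fun p => lamVec R₀ k lam p x
  have hle : ∀ z, logZ0 R (lin R) w + ∑ x, z x * c x ≤ plainVal f R₀ k lam g z := fun z => by
    have h1 := Par.ext_le_log_nest (ok_lin hR hw) (fun p => dot (lamVec R₀ k lam p) z) R [] (by simp)
    have h2 := Vale.Agent.P168.MP.logZ0_mul (R := R) (m := lin R) hw
      (Y := fun p => exp (dot (lamVec R₀ k lam p) z)) fun p => exp_pos _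
    have h3 : Vale.Agent.P168.MP.ext (lin R) w R [] (fun p => dot (lamVec R₀ k lam p) z) = ∑ x, z x * c x := by
      simp only [dot, c, ← Vale.Agent.P168.MP.ext_const_mul]
      rw [← Vale.Agent.P168.MP.ext_sum]
      simp only [mul_comm]
    show _ ≤ logZ0 R (lin R) fun p => w p * exp (dot (lamVec R₀ k lam p) z)
    linarith
  have hx : ∀ x : Fin N × Par.Ix R n,
      Integrable (fun z : Fin N × Par.Ix R n → ℝ => z x * c x) (gauss (Fin N × Par.Ix R n)) :=
    fun x => (Par.integrable_l1.mono' (measurable_pi_apply x).aestronglyMeasurable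
      (Eventually.of_forall fun z => Vale.Agent.P150.abs_le_l1 z x)).mul_const _
  have hF : Integrable (plainVal f R₀ k lam g) (gauss (Fin N × Par.Ix R n)) :=
    ((integrable_const (M * B)).add (Par.integrable_l1.const_mul (lamSum lam))).mono'
      ((continuous_plain hf).comp (continuous_const.prodMk continuous_id)).aestronglyMeasurable
      (Eventually.of_forall fun z => abs_plain_le hb hR g z)
  have hs : Integrable (fun z : Fin N × Par.Ix R n → ℝ => ∑ x, z x * c x)
      (gauss (Fin N × Par.Ix R n)) := integrable_finsetSum _ fun x _ => hx x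
  have := integral_mono ((integrable_const (logZ0 R (lin R) w)).add hs) hF hle
  rw [integral_add' (integrable_const _) hs, integral_const, probReal_univ, one_smul,
    integral_finsetSum _ fun x _ => hx x] at this
  simpa [integral_mul_const, integral_coord_zero] using this

theorem meanX_ge (hS : Sm f f1 f2 f3 B D) (hB : ∀ x, f x ≤ B) {R₀ k S N n M : ℕ} [NeZero N]
    (hR₀ : 1 ≤ R₀) (hk : 1 ≤ k) {ι : Type} [Fintype ι] [DecidableEq ι] (β : ι → Batch) (h u : ι → ℝ)
    (hh : ∀ j, |h j| ≤ 1) (hu : ∀ j, |u j| ≤ 1) (lam : Fin R₀ → ℝ) :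
    N * pressure (isingUniform N) f M - gainCap S β ≤
      meanX (N := N) (M := M) (FX (N := N) (n := n) f R₀ k S β h u lam) := by
  have hR : 1 ≤ k * R₀ := Nat.one_le_iff_ne_zero.2 (Nat.mul_ne_zero (by omega) (by omega))
  have hf : Continuous f := continuous_iff_continuousAt.2 fun x => (hS.d0 x).continuousAt
  have hb : ∀ x, |f x| ≤ B := fun x => abs_le.2 ⟨hS.lb x, hB x⟩
  have h1 := abs_le.1 (abs_meanX_sub_plain (N := N) (n := n) (M := M) (S := S) (β := β) (lam := lam)
    hf hb hR hh hu)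
  have hend := Par.Pv_end (N := N) (R := k * R₀) (L := n + 1) (m := lin (k * R₀))
    (v := fun (_ : List (Fin (n + 1))) (_ : Unit) => (0:ℝ)) (NeZero.pos N)
    (fun w hw => ok_lin hR hw) hR hf hb M
  have hip := intX_plain (N := N) (n := n) (M := M) (lam := lam) hf hb hR
  have h2 : N * pressure (isingUniform N) f M ≤
      meanX (plainVal (N := N) (n := n) (M := M) f R₀ k lam) := by
    rw [← hend]
    simp only [Par.Pv, Par.linVal, Par.linW_zero, integral_const, probReal_univ, one_smul, meanX]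
    refine integral_mono ?_ hip.integral_prod_left fun g => base_le_plain hf hb hR g
    refine Integrable.of_bound (Par.continuous_logZ0 (fun p => Par.continuous_base hf p)
      (fun g p => Par.base_pos g p) _).aestronglyMeasurable (M * B) (Eventually.of_forall fun g => ?_)
    exact Par.abs_logZ0_le (ok_lin hR fun p => Par.base_pos g p) fun p => Par.abs_log_base hb g p
  linarith

/-! ### one pattern -/

lemma wX_ins (g : Fin M → Fin N → ℝ) (z : Fin N × Par.Ix (k * R₀) n → ℝ) (y : Fin N → ℝ) :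
    wX f R₀ k S β h u lam (Par.ins 0 y g) z = fun p : List (MarkX (Par.Site N (n + 1)) N S β) =>
      wX f R₀ k S β h u lam g z p * Par.fac f (fun q => xv N (Par.spins (k * R₀) (q.map Prod.fst))) y p := by
  funext p
  simp only [wX, pwX, fieldW, Par.base, Par.fac, Par.ham_ins]
  ring

lemma spinX_cfg {R : ℕ} (hR : 1 ≤ R) {p : List (MarkX (Par.Site N (n + 1)) N S β)} :
    spinX cfg R p = Par.spins R (p.map Prod.fst) := by
  funext i
  simp only [spinX, Vale.Agent.P168.MP.spinAt, Par.spins, List.getD_eq_getElem?_getD, List.getElem?_map]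
  cases p[R - 1]? <;> rfl

/-- an integral over one more pattern -/
lemma meanX_succ {R : ℕ} {F : (Fin (M + 1) → Fin N → ℝ) → (Fin N × Par.Ix R n → ℝ) → ℝ} (hF : IntX F)
    (hFy : ∀ g, Integrable (fun x : (Fin N → ℝ) × (Fin N × Par.Ix R n → ℝ) => F (Par.ins 0 x.1 g) x.2)
      ((gauss (Fin N)).prod (gauss (Fin N × Par.Ix R n)))) :
    meanX F = meanX fun g z => ∫ y, F (Par.ins 0 y g) z ∂gauss (Fin N) := by
  unfold meanX
  rw [Par.integral_pats_succ 0 hF.integral_prod_left]
  exact integral_congr_ae (Eventually.of_forall fun g => integral_integral_swap (hFy g))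

lemma IntX.ins {R : ℕ} {G : (Fin (M + 1) → Fin N → ℝ) → (Fin N × Par.Ix R n → ℝ) → ℝ} (hG : IntX G) :
    IntX fun g z => ∫ y, G (Par.ins 0 y g) z ∂gauss (Fin N) := by
  set μ := pats N M
  set γ := gauss (Fin N)
  set ζ := gauss (Fin N × Par.Ix R n)
  have h1 : Integrable (fun x : ((Fin M → Fin N → ℝ) × (Fin N → ℝ)) × (Fin N × Par.Ix R n → ℝ) =>
      G (Par.ins 0 x.1.2 x.1.1) x.2) ((μ.prod γ).prod ζ) :=
    (((Par.measurePreserving_ins (N := N) (M := M) 0).comp Measure.measurePreserving_swap).prod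
      (MeasurePreserving.id ζ)).integrable_comp_of_integrable hG
  have h2 : Integrable (fun x : (Fin M → Fin N → ℝ) × ((Fin N → ℝ) × (Fin N × Par.Ix R n → ℝ)) =>
      G (Par.ins 0 x.2.1 x.1) x.2.2) (μ.prod (γ.prod ζ)) :=
    ((measurePreserving_prodAssoc μ γ ζ).symm _).integrable_comp_of_integrable h1
  have h3 : Integrable (fun x : (Fin M → Fin N → ℝ) × ((Fin N × Par.Ix R n → ℝ) × (Fin N → ℝ)) =>
      G (Par.ins 0 x.2.2 x.1) x.2.1) (μ.prod (ζ.prod γ)) :=
    ((MeasurePreserving.id μ).prod Measure.measurePreserving_swap).integrable_comp_of_integrable h2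
  have h4 : Integrable (fun x : ((Fin M → Fin N → ℝ) × (Fin N × Par.Ix R n → ℝ)) × (Fin N → ℝ) =>
      G (Par.ins 0 x.2 x.1.1) x.1.2) ((μ.prod ζ).prod γ) :=
    (measurePreserving_prodAssoc μ ζ γ).integrable_comp_of_integrable h3
  exact h4.integral_prod_left

lemma dist_rX_ins (hS : Sm f f1 f2 f3 B D) (hB : ∀ x, f x ≤ B) (hR : 1 ≤ k * R₀)
    (g : Fin M → Fin N → ℝ) (z : Fin N × Par.Ix (k * R₀) n → ℝ) (y : Fin N → ℝ) :
    Par.dist1 (k * R₀) (rX f R₀ k S β h u lam (Par.ins 0 y g) z) (rX f R₀ k S β h u lam g z) ≤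
      exp (4 * B) * adX f R₀ k S β h u lam g z := by
  set w := wX f R₀ k S β h u lam g z
  set a : List (MarkX (Par.Site N (n + 1)) N S β) → Fin N → ℝ :=
    fun q => xv N (spinX cfg (k * R₀) q)
  have hw : ∀ p, 0 < w p := wX_pos g z
  have hwy : wX f R₀ k S β h u lam (Par.ins 0 y g) z = fun p => w p * Par.fac f a y p := by
    rw [wX_ins]
    simp only [a, spinX_cfg hR]
    rfl
  have hl : ∀ l ≤ k * R₀, |rX f R₀ k S β h u lam (Par.ins 0 y g) z l - rX f R₀ k S β h u lam g z l| ≤
      exp (4 * B) * Par.devOf (k * R₀) w (ovK (spinX cfg (k * R₀)))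
        (rX f R₀ k S β h u lam g z) l := fun l hl => by
    have h1 := (Par.rep_tilt (R := k * R₀) hR hw (Par.fac_mem hS hB a y) (spinX cfg (k * R₀))
      (ovK (spinX cfg (k * R₀))) (rX f R₀ k S β h u lam g z) hl).2
    unfold rX
    rw [hwy]
    exact h1
  rw [Par.dist1, adX, adev, mul_add, ← mul_div_assoc, Finset.mul_sum]
  exact add_le_add (div_le_div_of_nonneg_right
    (sum_le_sum fun l h => hl l (mem_range.1 h).le) (Nat.cast_nonneg _)) (hl (k * R₀) le_rfl)

lemma cont_PhiX {KL : ℝ} (hf : Continuous f) (hKL : 0 ≤ KL) (hFl : Par.PhiLip f KL) (hR : 1 ≤ k * R₀) :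
    (Continuous fun x : (Fin M → Fin N → ℝ) × (Fin N × Par.Ix (k * R₀) n → ℝ) =>
      Par.Phi (fun y => exp (f y)) (k * R₀) (lin (k * R₀)) (rX f R₀ k S β h u lam x.1 x.2)) ∧
    ∀ g z, |Par.Phi (fun y => exp (f y)) (k * R₀) (lin (k * R₀))
        (rX (N := N) (n := n) (M := M) f R₀ k S β h u lam g z)| ≤
      |Par.Phi (fun y => exp (f y)) (k * R₀) (lin (k * R₀)) fun _ => 1| + 2 * KL := by
  set q : (Fin M → Fin N → ℝ) × (Fin N × Par.Ix (k * R₀) n → ℝ) → ℕ → ℝ :=
    fun x => rX f R₀ k S β h u lam x.1 x.2 with hqdef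
  have hq : ∀ x, Prof (k * R₀) (q x) 1 := fun x => (rX_prof x.1 x.2).1
  have hc : ∀ l, Continuous fun x => q x l := fun l => continuous_rX hf l
  have hF : ∀ a b : ℕ → ℝ, Prof (k * R₀) a 1 → Prof (k * R₀) b 1 →
      |Par.Phi (fun y => exp (f y)) (k * R₀) (lin (k * R₀)) a -
        Par.Phi (fun y => exp (f y)) (k * R₀) (lin (k * R₀)) b| ≤ KL * Par.dist1 (k * R₀) a b :=
    fun a b ha hb => hFl (k * R₀) a b hR ha hb
  obtain ⟨h1, h2⟩ := Par.cont_functional (F := Par.Phi (fun y => exp (f y)) (k * R₀) (lin (k * R₀)))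
    (q := q) hR hKL hF hq hc
  exact ⟨h1, fun g z => h2 (g, z)⟩

lemma cont_slice {X Y Z T : Type*} [TopologicalSpace X] [TopologicalSpace Y] [TopologicalSpace Z]
    [TopologicalSpace T] {G : X → Y → Z} (hG : Continuous fun x : X × Y => G x.1 x.2) {φ : T → X}
    (hφ : Continuous φ) (y : Y) : Continuous fun t => G (φ t) y :=
  hG.comp (hφ.prodMk continuous_const)

lemma pattern_pointwise (hS : Sm f f1 f2 f3 B D) (hB : ∀ x, f x ≤ B) {KV KL : ℝ}
    (hV : Par.ValueClose f KV) (hKL : 0 ≤ KL) (hFl : Par.PhiLip f KL) (hR : 1 ≤ k * R₀)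
    (g : Fin M → Fin N → ℝ) (z : Fin N × Par.Ix (k * R₀) n → ℝ) :
    |(∫ y, FX f R₀ k S β h u lam (Par.ins 0 y g) z ∂gauss (Fin N)) - FX f R₀ k S β h u lam g z -
        ∫ y, Par.Phi (fun y => exp (f y)) (k * R₀) (lin (k * R₀))
          (rX f R₀ k S β h u lam (Par.ins 0 y g) z) ∂gauss (Fin N)| ≤
      (KV + KL * exp (4 * B)) * adX f R₀ k S β h u lam g z := by
  have hf : Continuous f := continuous_iff_continuousAt.2 fun x => (hS.d0 x).continuousAt
  set F : (ℕ → ℝ) → ℝ := Par.Phi (fun y => exp (f y)) (k * R₀) (lin (k * R₀))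
  set w := wX f R₀ k S β h u lam g z
  set rd := spinX (S := S) (β := β) (cfg (N := N) (n := n)) (k * R₀)
  set a : List (MarkX (Par.Site N (n + 1)) N S β) → Fin N → ℝ := fun q => xv N (rd q)
  have hw : ∀ p, 0 < w p := wX_pos g z
  have hwy : ∀ y, wX f R₀ k S β h u lam (Par.ins 0 y g) z = fun p => w p * Par.fac f a y p := fun y => by
    rw [wX_ins]
    simp only [a, rd, spinX_cfg hR]
    rfl
  have hcv : Par.cv a = ovK rd := funext fun p => funext fun p' => Par.ov_eq _ _
  set q := rX f R₀ k S β h u lam g z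
  have hq : Prof (k * R₀) q 1 := (rX_prof g z).1
  have hv := hV hR hw (a := a) (fun p => by rw [hcv]; exact (Par.ov_self _).le) hq
  rw [hcv] at hv
  have e : ∀ y, FX f R₀ k S β h u lam (Par.ins 0 y g) z = FX f R₀ k S β h u lam g z + log (nest (lin (k * R₀)) w (Par.fac f a y) (k * R₀) []) := fun y => by
    have := Vale.Agent.P168.MP.logZ0_mul (R := k * R₀) (m := lin (k * R₀)) hw (Y := Par.fac f a y) fun p => exp_pos _
    show logZ0 (k * R₀) (lin (k * R₀)) _ = logZ0 (k * R₀) (lin (k * R₀)) w + _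
    rw [hwy]
    linarith
  have hsh : ∀ y, |F (rX f R₀ k S β h u lam (Par.ins 0 y g) z) - F q| ≤
      KL * exp (4 * B) * adX f R₀ k S β h u lam g z := fun y => by
    have h1 : |F (rX f R₀ k S β h u lam (Par.ins 0 y g) z) - F q| ≤
        KL * Par.dist1 (k * R₀) (rX f R₀ k S β h u lam (Par.ins 0 y g) z) q :=
      hFl (k * R₀) _ q hR (rX_prof (f := f) (R₀ := R₀) (k := k) (S := S) (β := β) (h := h) (u := u)
        (lam := lam) (Par.ins 0 y g) z).1 hq
    have h2 := mul_le_mul_of_nonneg_left (dist_rX_ins (h := h) (u := u) (S := S) (β := β) (lam := lam)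
      (k := k) (R₀ := R₀) hS hB hR g z y) hKL
    rw [mul_assoc]
    exact h1.trans h2
  have hFc : Continuous fun y : Fin N → ℝ => FX f R₀ k S β h u lam (Par.ins 0 y g) z :=
    cont_slice (G := FX f R₀ k S β h u lam) (continuous_FX (N := N) (n := n) (M := M + 1) (R₀ := R₀)
      (k := k) (S := S) (β := β) (h := h) (u := u) (lam := lam) hf) (Par.continuous_ins g) z
  have hiF : Integrable (fun y => log (nest (lin (k * R₀)) w (Par.fac f a y) (k * R₀) [])) (gauss (Fin N)) := by
    have hc : Continuous fun y : Fin N → ℝ => log (nest (lin (k * R₀)) w (Par.fac f a y) (k * R₀) []) :=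
      (hFc.sub (continuous_const (y := FX f R₀ k S β h u lam g z))).congr fun y => by
        show FX f R₀ k S β h u lam (Par.ins 0 y g) z - FX f R₀ k S β h u lam g z = _
        linarith [e y]
    exact Integrable.of_bound hc.aestronglyMeasurable B (Eventually.of_forall fun y =>
      Par.abs_log_nest_le (ok_lin hR hw) fun p => Par.fac_mem hS hB a y p)
  obtain ⟨hPc0, hPb0⟩ := cont_PhiX (N := N) (n := n) (M := M + 1) (S := S) (β := β) (h := h)
    (u := u) (lam := lam) hf hKL hFl hR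
  have hPc : Continuous fun y : Fin N → ℝ => F (rX f R₀ k S β h u lam (Par.ins 0 y g) z) :=
    cont_slice (G := fun g z => F (rX f R₀ k S β h u lam g z)) hPc0 (Par.continuous_ins g) z
  have hPb : ∀ y : Fin N → ℝ, |F (rX f R₀ k S β h u lam (Par.ins 0 y g) z)| ≤
      |F fun _ => 1| + 2 * KL := fun y => hPb0 _ _
  have hiP : Integrable (fun y => F (rX f R₀ k S β h u lam (Par.ins 0 y g) z)) (gauss (Fin N)) :=
    Integrable.of_bound hPc.aestronglyMeasurable _
      (Eventually.of_forall fun y => (Real.norm_eq_abs _).trans_le (hPb y))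
  have h1 := norm_integral_le_of_norm_le_const (μ := gauss (Fin N))
    (f := fun y => F (rX f R₀ k S β h u lam (Par.ins 0 y g) z) - F q) (Eventually.of_forall fun y =>
      (Real.norm_eq_abs _).trans_le (hsh y))
  rw [integral_sub hiP (integrable_const _), integral_const, probReal_univ, one_smul, mul_one,
    Real.norm_eq_abs] at h1
  rw [show (∫ y, FX f R₀ k S β h u lam (Par.ins 0 y g) z ∂gauss (Fin N)) =
      ∫ y, (FX f R₀ k S β h u lam g z + log (nest (lin (k * R₀)) w (Par.fac f a y) (k * R₀) [])) ∂gauss (Fin N) from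
    integral_congr_ae (Eventually.of_forall e)]
  rw [integral_add (integrable_const _) hiF, integral_const, probReal_univ, one_smul, add_mul]
  have h1' := abs_le.1 h1
  have hv' := abs_le.1 hv
  rw [abs_le]
  simp only [adX] at *
  constructor <;> linarith

theorem pattern_stepX (hS : Sm f f1 f2 f3 B D) (hB : ∀ x, f x ≤ B) : ∃ K : ℝ, 0 ≤ K ∧
    ∀ {R₀ k S N n M : ℕ} [NeZero N] {ι : Type} [Fintype ι] [DecidableEq ι] (β : ι → Batch) (h u : ι → ℝ)
      (lam : Fin R₀ → ℝ), 1 ≤ R₀ → 1 ≤ k → (∀ j, |h j| ≤ 1) → (∀ j, |u j| ≤ 1) →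
      |meanX (N := N) (M := M + 1) (FX (N := N) (n := n) f R₀ k S β h u lam) -
          meanX (N := N) (M := M) (FX (N := N) (n := n) f R₀ k S β h u lam) -
        meanX (N := N) (M := M + 1) (fun g z => Par.Phi (fun y => exp (f y)) (k * R₀) (lin (k * R₀))
          (rX (N := N) (n := n) f R₀ k S β h u lam g z))| ≤
        K * meanX (N := N) (M := M) (fun g z =>
          adev (k * R₀) (wX (N := N) (n := n) f R₀ k S β h u lam g z) (ovK (spinX cfg (k * R₀)))
            (rX (N := N) (n := n) f R₀ k S β h u lam g z)) := by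
  obtain ⟨KV, hKV, hV⟩ := Par.value_close hS 1
  obtain ⟨KL, hKL, hL⟩ := Par.Phi_lip hS 1
  refine ⟨KV + KL * exp (4 * B), by positivity, ?_⟩
  intro R₀ k S N n M _ ι _ _ β h u lam hR₀ hk hh hu
  have hR : 1 ≤ k * R₀ := Nat.one_le_iff_ne_zero.2 (Nat.mul_ne_zero (by omega) (by omega))
  have hf : Continuous f := continuous_iff_continuousAt.2 fun x => (hS.d0 x).continuousAt
  have hb : ∀ x, |f x| ≤ B := fun x => abs_le.2 ⟨hS.lb x, hB x⟩
  set R := k * R₀
  set F : (ℕ → ℝ) → ℝ := Par.Phi (fun y => exp (f y)) R (lin R)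
  have hFl : ∀ q q', Prof R q 1 → Prof R q' 1 → |F q - F q'| ≤ KL * Par.dist1 R q q' :=
    fun q q' hq hq' => (hL R q q' hR hq hq').1
  obtain ⟨hPc, hPb⟩ := cont_PhiX (N := N) (n := n) (M := M + 1) (S := S) (β := β) (h := h)
    (u := u) (lam := lam) hf hKL (fun R q q' hR hq hq' => (hL R q q' hR hq hq').1) hR
  set P1 : (Fin (M + 1) → Fin N → ℝ) → (Fin N × Par.Ix R n → ℝ) → ℝ :=
    fun g z => F (rX f R₀ k S β h u lam g z)
  set F1 : (Fin (M + 1) → Fin N → ℝ) → (Fin N × Par.Ix R n → ℝ) → ℝ :=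
    FX f R₀ k S β h u lam
  set F0 : (Fin M → Fin N → ℝ) → (Fin N × Par.Ix R n → ℝ) → ℝ := FX f R₀ k S β h u lam
  have iF1 : IntX F1 := intX_FX hf hb hR hh hu
  have iF0 : IntX F0 := intX_FX hf hb hR hh hu
  have iP1 : IntX P1 := intX_of_bound hPc fun g z => hPb g z
  have hjoint : ∀ g : Fin M → Fin N → ℝ,
      Continuous fun x : (Fin N → ℝ) × (Fin N × Par.Ix R n → ℝ) => (Par.ins 0 x.1 g, x.2) :=
    fun g => ((Par.continuous_ins g).comp continuous_fst).prodMk continuous_snd
  have iF1y : ∀ g, Integrable (fun x : (Fin N → ℝ) × (Fin N × Par.Ix R n → ℝ) => F1 (Par.ins 0 x.1 g) x.2)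
      ((gauss (Fin N)).prod (gauss (Fin N × Par.Ix R n))) := fun g =>
    (((integrable_const _).add (Par.integrable_l1.const_mul (lamSum lam))).comp_snd _).mono'
      ((continuous_FX hf).comp (hjoint g)).aestronglyMeasurable
      (Eventually.of_forall fun x => abs_FX_le hb hR hh hu _ x.2)
  have iP1y : ∀ g, Integrable (fun x : (Fin N → ℝ) × (Fin N × Par.Ix R n → ℝ) => P1 (Par.ins 0 x.1 g) x.2)
      ((gauss (Fin N)).prod (gauss (Fin N × Par.Ix R n))) := fun g =>
    Integrable.of_bound (hPc.comp (hjoint g)).aestronglyMeasurable _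
      (Eventually.of_forall fun x => (Real.norm_eq_abs _).trans_le (hPb _ _))
  have key := fun g z => pattern_pointwise (N := N) (n := n) (M := M) (R₀ := R₀) (k := k) (S := S)
    (β := β) (h := h) (u := u) (lam := lam) hS hB hV hKL (fun R q q' hR hq hq' => (hL R q q' hR hq hq').1)
    hR g z
  have iA : IntX (adX (N := N) (n := n) (M := M) f R₀ k S β h u lam) := intX_adX hf hR
  have i1 := IntX.ins iF1
  have i2 := IntX.ins iP1
  rw [meanX_succ iF1 iF1y, meanX_succ iP1 iP1y, ← meanX_sub i1 iF0, ← meanX_sub (i1.sub iF0) i2,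
    ← meanX_const_mul]
  exact (abs_meanX_le ((i1.sub iF0).sub i2)).trans
    (meanX_mono ((i1.sub iF0).sub i2).abs (iA.const_mul _) key)

end Vale.Agent.P157.Full
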