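import Vale.Agent.P157.Full.UDefs
import Vale.Agent.P157.Par.QConc
import Vale.Agent.P157.Par.Shift
import Vale.Agent.P168.MP.NestC
import Vale.Agent.P168.MP.Cavity

/-! Means over patterns and fields, and the crude bounds of the envelope system. -/

open MeasureTheory ProbabilityTheory Real Finset
open Vale.Agent.P150 (gauss dot l1 l1_nonneg abs_dot_le)
open Vale.Agent.P168.MP (lin ET Batch gain1 gainCap nest)

namespace Vale.Agent.P157.Full

open Par (pats ham Prof adev ovK qlev)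

/-! ### means -/

section mean
variable {N M R n : ℕ} {F G : (Fin M → Fin N → ℝ) → (Fin N × Par.Ix R n → ℝ) → ℝ}

/-- integrable in patterns and field together -/
def IntX (F : (Fin M → Fin N → ℝ) → (Fin N × Par.Ix R n → ℝ) → ℝ) : Prop :=
  Integrable (fun x : (Fin M → Fin N → ℝ) × (Fin N × Par.Ix R n → ℝ) => F x.1 x.2)
    ((pats N M).prod (gauss (Fin N × Par.Ix R n)))

lemma meanX_eq (hF : IntX F) : meanX F =
    ∫ x, F x.1 x.2 ∂(pats N M).prod (gauss (Fin N × Par.Ix R n)) := (integral_prod _ hF).symm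

lemma intX_const (c : ℝ) : IntX (N := N) (M := M) (R := R) (n := n) fun _ _ => c := integrable_const c

lemma meanX_const (c : ℝ) : meanX (N := N) (M := M) (R := R) (n := n) (fun _ _ => c) = c := by
  simp [meanX]

lemma IntX.add (hF : IntX F) (hG : IntX G) : IntX fun g z => F g z + G g z := Integrable.add hF hG

lemma IntX.sub (hF : IntX F) (hG : IntX G) : IntX fun g z => F g z - G g z := Integrable.sub hF hG

lemma IntX.const_mul (hF : IntX F) (c : ℝ) : IntX fun g z => c * F g z := Integrable.const_mul hF c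

lemma IntX.div_const (hF : IntX F) (c : ℝ) : IntX fun g z => F g z / c := Integrable.div_const hF c

lemma IntX.abs (hF : IntX F) : IntX fun g z => |F g z| := Integrable.abs hF

lemma IntX.sum {α : Type} (s : Finset α) {F : α → (Fin M → Fin N → ℝ) → (Fin N × Par.Ix R n → ℝ) → ℝ}
    (hF : ∀ a ∈ s, IntX (F a)) : IntX fun g z => ∑ a ∈ s, F a g z := integrable_finsetSum _ hF

lemma meanX_add (hF : IntX F) (hG : IntX G) : meanX (fun g z => F g z + G g z) = meanX F + meanX G := by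
  rw [meanX_eq hF, meanX_eq hG, meanX_eq (hF.add hG)]; exact integral_add hF hG

lemma meanX_sub (hF : IntX F) (hG : IntX G) : meanX (fun g z => F g z - G g z) = meanX F - meanX G := by
  rw [meanX_eq hF, meanX_eq hG, meanX_eq (hF.sub hG)]; exact integral_sub hF hG

lemma meanX_const_mul (c : ℝ) : meanX (fun g z => c * F g z) = c * meanX F := by
  simp [meanX, integral_const_mul]

lemma meanX_div_const (c : ℝ) : meanX (fun g z => F g z / c) = meanX F / c := by
  simp [meanX, integral_div]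

lemma meanX_sum {α : Type} (s : Finset α) {F : α → (Fin M → Fin N → ℝ) → (Fin N × Par.Ix R n → ℝ) → ℝ}
    (hF : ∀ a ∈ s, IntX (F a)) : meanX (fun g z => ∑ a ∈ s, F a g z) = ∑ a ∈ s, meanX (F a) := by
  rw [meanX_eq (IntX.sum s hF), sum_congr rfl fun a ha => meanX_eq (hF a ha)]
  exact integral_finsetSum _ hF

lemma meanX_mono (hF : IntX F) (hG : IntX G) (h : ∀ g z, F g z ≤ G g z) : meanX F ≤ meanX G := by
  rw [meanX_eq hF, meanX_eq hG]; exact integral_mono hF hG fun x => h _ _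

lemma abs_meanX_le (hF : IntX F) : |meanX F| ≤ meanX fun g z => |F g z| := by
  rw [meanX_eq hF, meanX_eq hF.abs]; exact abs_integral_le_integral_abs

lemma intX_of_bound (hc : Continuous fun x : (Fin M → Fin N → ℝ) × (Fin N × Par.Ix R n → ℝ) => F x.1 x.2)
    {C : ℝ} (hb : ∀ g z, |F g z| ≤ C) : IntX F :=
  Integrable.of_bound hc.aestronglyMeasurable C
    (Filter.Eventually.of_forall fun x => (Real.norm_eq_abs _).trans_le (hb _ _))

lemma intX_of_l1 (hc : Continuous fun x : (Fin M → Fin N → ℝ) × (Fin N × Par.Ix R n → ℝ) => F x.1 x.2)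
    {A C : ℝ} (hb : ∀ g z, |F g z| ≤ A + C * l1 z) : IntX F := by
  have hi : Integrable (fun z : Fin N × Par.Ix R n → ℝ => A + C * l1 z) (gauss (Fin N × Par.Ix R n)) :=
    (integrable_const A).add (Par.integrable_l1.const_mul C)
  exact (hi.comp_snd (pats N M)).mono' hc.aestronglyMeasurable
    (Filter.Eventually.of_forall fun x => (Real.norm_eq_abs _).trans_le (hb _ _))

end mean

/-! ### the system -/

variable {f : ℝ → ℝ} {B : ℝ} {N n M R₀ k S : ℕ} [NeZero N] {ι : Type} [Fintype ι] [DecidableEq ι]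
  {β : ι → Batch} {h u u' : ι → ℝ} {lam : Fin R₀ → ℝ}

/-- the size of the field per coordinate -/
def lamSum (lam : Fin R₀ → ℝ) : ℝ := ∑ j, |lam j|

lemma lamSum_nonneg (lam : Fin R₀ → ℝ) : 0 ≤ lamSum lam := sum_nonneg fun _ _ => abs_nonneg _

lemma abs_blockVec_le (R k j : ℕ) (p : List (Par.Site N (n + 1))) (x : Fin N × Par.Ix R n) :
    |blockVec R k j p x| ≤ 1 := by
  have hs : Prof R (step (j * k)) 1 := by
    refine ⟨?_, fun l _ => ?_, ?_⟩ <;> unfold step
    · split_ifs <;> norm_num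
    · split_ifs <;> first | (exfalso; omega) | norm_num
    · split_ifs <;> norm_num
  refine (Par.abs_siteVec_le (Par.nodeVec_node hs) p x).trans (Real.sqrt_le_one.2 hs.top)

lemma abs_lamVec_le (p : List (Par.Site N (n + 1))) (x : Fin N × Par.Ix (k * R₀) n) :
    |lamVec R₀ k lam p x| ≤ lamSum lam := by
  refine (abs_sum_le_sum_abs _ _).trans (sum_le_sum fun j _ => ?_)
  rw [abs_mul]
  exact mul_le_of_le_one_right (abs_nonneg _) (abs_blockVec_le _ _ _ _ _)

lemma fieldW_pos (g : Fin M → Fin N → ℝ) (z : Fin N × Par.Ix (k * R₀) n → ℝ)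
    (p : List (Par.Site N (n + 1))) : 0 < fieldW f R₀ k lam g z p :=
  mul_pos (Par.ham_pos f g _) (exp_pos _)

lemma wX_pos (g : Fin M → Fin N → ℝ) (z : Fin N × Par.Ix (k * R₀) n → ℝ)
    (p : List (MarkX (Par.Site N (n + 1)) N S β)) : 0 < wX f R₀ k S β h u lam g z p :=
  mul_pos (fieldW_pos g z _) (exp_pos _)

lemma continuous_wX (hf : Continuous f) (p : List (MarkX (Par.Site N (n + 1)) N S β)) :
    Continuous fun x : (Fin M → Fin N → ℝ) × (Fin N × Par.Ix (k * R₀) n → ℝ) =>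
      wX f R₀ k S β h u lam x.1 x.2 p := by
  unfold wX pwX fieldW
  exact (((Par.continuous_base hf _).comp continuous_fst).mul (continuous_exp.comp
    ((Par.continuous_dot_left _).comp continuous_snd))).mul continuous_const

lemma continuous_wX_lam (g : Fin M → Fin N → ℝ) (z : Fin N × Par.Ix (k * R₀) n → ℝ)
    (p : List (MarkX (Par.Site N (n + 1)) N S β)) :
    Continuous fun l : Fin R₀ → ℝ => wX f R₀ k S β h u l g z p := by
  unfold wX pwX fieldW lamVec dot
  fun_prop

lemma continuous_FX (hf : Continuous f) :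
    Continuous fun x : (Fin M → Fin N → ℝ) × (Fin N × Par.Ix (k * R₀) n → ℝ) =>
      FX f R₀ k S β h u lam x.1 x.2 :=
  Par.continuous_logZ0 (continuous_wX hf) (fun x p => wX_pos x.1 x.2 p) _

lemma abs_gain_plain (hh : ∀ j, |h j| ≤ 1) (hu : ∀ j, |u j| ≤ 1) {R : ℕ}
    (p : List (MarkX (Par.Site N (n + 1)) N S β)) :
    |∑ i : ι × Fin S, gain1 R h u (p.map (plain cfg)) i| ≤ gainCap S β :=
  Vale.Agent.P168.MP.abs_gain_le_gainCap hh hu _

lemma abs_FX_le (hb : ∀ x, |f x| ≤ B) (hR : 1 ≤ k * R₀) (hh : ∀ j, |h j| ≤ 1) (hu : ∀ j, |u j| ≤ 1)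
    (g : Fin M → Fin N → ℝ) (z : Fin N × Par.Ix (k * R₀) n → ℝ) :
    |FX f R₀ k S β h u lam g z| ≤ (M * B + gainCap S β) + lamSum lam * l1 z := by
  refine Par.abs_logZ0_le (Vale.Agent.P168.MP.ok_lin hR (wX_pos g z)) fun p => ?_
  rw [wX, pwX, fieldW, log_mul (mul_pos (Par.base_pos g _) (exp_pos _)).ne' (exp_pos _).ne',
    log_mul (Par.base_pos g _).ne' (exp_pos _).ne', log_exp, log_exp]
  refine (abs_add_le _ _).trans ?_
  refine le_trans (add_le_add ((abs_add_le _ _).trans (add_le_add (Par.abs_log_base hb g _)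
    (abs_dot_le (abs_lamVec_le _) z))) (abs_gain_plain hh hu p)) (le_of_eq ?_)
  ring

lemma intX_FX (hf : Continuous f) (hb : ∀ x, |f x| ≤ B) (hR : 1 ≤ k * R₀) (hh : ∀ j, |h j| ≤ 1)
    (hu : ∀ j, |u j| ≤ 1) : IntX (FX (N := N) (n := n) (M := M) f R₀ k S β h u lam) :=
  intX_of_l1 (continuous_FX hf) fun g z => abs_FX_le hb hR hh hu g z

/-- two strengths of the perturbation -/
lemma abs_FX_sub_le (hR : 1 ≤ k * R₀) (hh : ∀ j, |h j| ≤ 1) (hu : ∀ j, |u j| ≤ 1) (hu' : ∀ j, |u' j| ≤ 1)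
    (g : Fin M → Fin N → ℝ) (z : Fin N × Par.Ix (k * R₀) n → ℝ) :
    |FX f R₀ k S β h u lam g z - FX f R₀ k S β h u' lam g z| ≤ 2 * gainCap S β := by
  set W := fun p : List (MarkX (Par.Site N (n + 1)) N S β) => fieldW f R₀ k lam g z (p.map Prod.fst)
  have hW : ∀ p, 0 < W p := fun p => fieldW_pos g z _
  have key : ∀ v : ι → ℝ, (∀ j, |v j| ≤ 1) →
      |FX f R₀ k S β h v lam g z - Vale.Agent.P168.MP.logZ0 (k * R₀) (lin (k * R₀)) W| ≤ gainCap S β := by
    intro v hv
    have h1 := Vale.Agent.P168.MP.logZ0_mul (R := k * R₀) (m := lin (k * R₀)) hW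
      (Y := fun p : List (MarkX (Par.Site N (n + 1)) N S β) =>
        exp (∑ i : ι × Fin S, gain1 (k * R₀) h v (p.map (plain cfg)) i)) fun p => exp_pos _
    obtain ⟨ha, hb⟩ := Vale.Agent.P168.MP.nest_mem (Vale.Agent.P168.MP.ok_lin hR hW)
      (exp_pos (-gainCap S β)) (b := exp (gainCap S β))
      (Y := fun p : List (MarkX (Par.Site N (n + 1)) N S β) =>
        exp (∑ i : ι × Fin S, gain1 (k * R₀) h v (p.map (plain cfg)) i))
      (fun p _ => ⟨exp_le_exp.2 (abs_le.1 (abs_gain_plain hh hv p)).1,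
        exp_le_exp.2 (abs_le.1 (abs_gain_plain hh hv p)).2⟩) (k * R₀) [] (by simp)
    rw [show FX f R₀ k S β h v lam g z - Vale.Agent.P168.MP.logZ0 (k * R₀) (lin (k * R₀)) W = _ from h1,
      abs_le]
    constructor
    · rw [← log_exp (-gainCap S β)]; exact log_le_log (exp_pos _) ha
    · rw [← log_exp (gainCap S β)]; exact log_le_log ((exp_pos _).trans_le ha) hb
  have h1 := abs_le.1 (key u hu)
  have h2 := abs_le.1 (key u' hu')
  rw [abs_le]; constructor <;> linarith

lemma rX_prof (g : Fin M → Fin N → ℝ) (z : Fin N × Par.Ix (k * R₀) n → ℝ) :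
    Prof (k * R₀) (rX f R₀ k S β h u lam g z) 1 ∧ rX f R₀ k S β h u lam g z (k * R₀) = 1 :=
  Par.qlev_prof (wX_pos g z)

lemma continuous_rX (hf : Continuous f) (l : ℕ) :
    Continuous fun x : (Fin M → Fin N → ℝ) × (Fin N × Par.Ix (k * R₀) n → ℝ) =>
      rX f R₀ k S β h u lam x.1 x.2 l :=
  Par.continuous_ET (continuous_wX hf) (fun x p => wX_pos x.1 x.2 p) _ _ fun _ => continuous_const

lemma intX_rX (hf : Continuous f) (l : ℕ) :
    IntX fun g z => rX (N := N) (n := n) (M := M) f R₀ k S β h u lam g z l :=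
  intX_of_bound (continuous_rX hf l) fun g z => Par.abs_qlev_le (wX_pos g z) l

/-- the mean deviation of the overlap kernel -/
noncomputable def adX (f : ℝ → ℝ) (R₀ k S : ℕ) (β : ι → Batch) (h u : ι → ℝ) (lam : Fin R₀ → ℝ)
    (g : Fin M → Fin N → ℝ) (z : Fin N × Par.Ix (k * R₀) n → ℝ) : ℝ :=
  adev (k * R₀) (wX f R₀ k S β h u lam g z) (ovK (spinX cfg (k * R₀))) (rX f R₀ k S β h u lam g z)

lemma continuous_adX (hf : Continuous f) :
    Continuous fun x : (Fin M → Fin N → ℝ) × (Fin N × Par.Ix (k * R₀) n → ℝ) =>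
      adX f R₀ k S β h u lam x.1 x.2 := by
  have hd : ∀ j, Continuous fun x : (Fin M → Fin N → ℝ) × (Fin N × Par.Ix (k * R₀) n → ℝ) =>
      Par.devOf (k * R₀) (wX f R₀ k S β h u lam x.1 x.2) (ovK (spinX cfg (k * R₀)))
        (rX f R₀ k S β h u lam x.1 x.2) j := fun j =>
    Par.continuous_ET (continuous_wX hf) (fun x p => wX_pos x.1 x.2 p) _ _ fun _ =>
      (continuous_const.sub (continuous_rX hf j)).abs
  unfold adX adev
  exact ((continuous_finsetSum _ fun j _ => hd j).div_const _).add (hd _)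

lemma adX_mem (hR : 1 ≤ k * R₀) (g : Fin M → Fin N → ℝ) (z : Fin N × Par.Ix (k * R₀) n → ℝ) :
    0 ≤ adX f R₀ k S β h u lam g z ∧ adX f R₀ k S β h u lam g z ≤ 6 := by
  refine ⟨Par.adev_nonneg (wX_pos g z) _ _, ?_⟩
  have h1 := Par.abs_dlv_le (wX_pos (f := f) (S := S) (β := β) (h := h) (u := u) (lam := lam) g z) hR
    (spinX cfg (k * R₀)) (k * R₀)
  have h2 := Par.devOf_nonneg (wX_pos (f := f) (S := S) (β := β) (h := h) (u := u) (lam := lam) g z)
    (R := k * R₀) (ovK (spinX cfg (k * R₀))) (rX f R₀ k S β h u lam g z) (k * R₀)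
  simp only [Par.dlv] at h1
  simp only [adX, rX] at *
  linarith [(abs_le.1 h1).2]

lemma intX_adX (hf : Continuous f) (hR : 1 ≤ k * R₀) :
    IntX (adX (N := N) (n := n) (M := M) f R₀ k S β h u lam) :=
  intX_of_bound (continuous_adX hf) fun g z => by
    rw [abs_of_nonneg (adX_mem hR g z).1]; exact (adX_mem hR g z).2

lemma continuous_HX (hf : Continuous f) (j : Fin R₀) :
    Continuous fun x : (Fin M → Fin N → ℝ) × (Fin N × Par.Ix (k * R₀) n → ℝ) =>
      HX f R₀ k S β h u lam x.1 x.2 j :=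
  Par.continuous_ET (continuous_wX hf) (fun x p => wX_pos x.1 x.2 p) _ _ fun _ =>
    (Par.continuous_dot_left _).comp continuous_snd

lemma abs_HX_le (g : Fin M → Fin N → ℝ) (z : Fin N × Par.Ix (k * R₀) n → ℝ) (j : Fin R₀) :
    |HX f R₀ k S β h u lam g z j| ≤ l1 z :=
  Vale.Agent.P168.MP.ET_bound (wX_pos g z) fun _ =>
    (abs_dot_le (abs_blockVec_le _ _ _ _) z).trans_eq (one_mul _)

lemma intX_HX (hf : Continuous f) (j : Fin R₀) :
    IntX fun g z => HX (N := N) (n := n) (M := M) f R₀ k S β h u lam g z j :=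
  intX_of_l1 (continuous_HX hf j) (A := 0) (C := 1) fun g z => by simpa using abs_HX_le g z j

end Vale.Agent.P157.Full
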