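import Vale.Agent.P157.Full.EnvStep

/-! What holds at a maximiser of the objective: the block tails of the mean profile and their variance,
and the growth of the objective in one pattern. -/

open MeasureTheory ProbabilityTheory Real Finset
open Vale.Agent.P150 (gauss dot)
open Vale.Agent.P168.MP (lin Batch gainCap avg avg_le_avg avg_const)

namespace Vale.Agent.P157.Full

open Par (Sm Prof)

variable {A : Type} [Fintype A] [Nonempty A] {f f1 f2 f3 : ℝ → ℝ} {B D : ℝ} {N n M R₀ k S : ℕ} [NeZero N]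
  {ι : Type} [Fintype ι] [DecidableEq ι] {β : ι → Batch} {h : ι → ℝ} {U : A → ι → ℝ} {lam : Fin R₀ → ℝ}
  {q₀ : ℕ → ℝ} {η : ℝ}

/-- tail and variance of one block at a maximiser -/
lemma block_at_max (hF : FieldX f D) (hf : Continuous f) (hb : ∀ x, |f x| ≤ B) (hR₀ : 1 ≤ R₀) (hk : 1 ≤ k)
    (hh : ∀ j, |h j| ≤ 1) (hU : ∀ a j, |U a j| ≤ 1) (hq : Prof R₀ q₀ 1) {α lo hi δ e t : ℝ}
    (hMN : (M:ℝ) ≤ α * N) (hlo : 0 < lo) (hη : 0 ≤ η) (hbox : ∀ i, lo ≤ lam i ∧ lam i ≤ hi)
    (hmax : ∀ lam', (∀ i, lo ≤ lam' i ∧ lam' i ≤ hi) →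
      GX f N n M R₀ k S β h U q₀ η lam' ≤ GX f N n M R₀ k S β h U q₀ η lam)
    (hδ : 0 < δ) (j : Fin R₀) (hδl : lo ≤ lam j - δ) (hδh : lam j + δ ≤ hi) (hδ2 : δ ≤ lam j / 2) (he : 0 ≤ e)
    (hI : ∀ a, (|meanX (N := N) (M := M) (fun g z => HX (N := N) (n := n) f R₀ k S β h (U a) lam g z j) -
        lam j * N * (1 - tailAvg (k * R₀) (j * k) fun l =>
          meanX (N := N) (M := M) fun g z => rX (N := N) (n := n) f R₀ k S β h (U a) lam g z l)| ≤ N * e ∧
      |meanX (N := N) (M := M) (fun g z => HX (N := N) (n := n) f R₀ k S β h (U a) lam g z j *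
          tailAvg (k * R₀) (j * k) (rX (N := N) (n := n) f R₀ k S β h (U a) lam g z)) -
        lam j * N * meanX (N := N) (M := M) (fun g z =>
          (1 - tailAvg (k * R₀) (j * k) (rX (N := N) (n := n) f R₀ k S β h (U a) lam g z)) *
            tailAvg (k * R₀) (j * k) (rX (N := N) (n := n) f R₀ k S β h (U a) lam g z))| ≤
        N * (12 * |lam j| * meanX (N := N) (M := M) (fun g z =>
          Par.adev (k * R₀) (wX (N := N) (n := n) f R₀ k S β h (U a) lam g z) (Par.ovK (spinX cfg (k * R₀)))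
            (rX (N := N) (n := n) f R₀ k S β h (U a) lam g z)) + e)))
    (had : EX (fun a => adX (N := N) (n := n) (M := M) f R₀ k S β h (U a) lam) ≤ t) :
    tailAvg R₀ j q₀ - e / lo ≤ tailAvg (k * R₀) (j * k) (rbar f N n M R₀ k S β h U lam) ∧
    lam j * EX (fun a g z => (TX (N := N) (n := n) (M := M) f R₀ k S β h (U a) lam g z j -
      tailAvg (k * R₀) (j * k) (rbar f N n M R₀ k S β h U lam)) ^ 2) ≤
      2 * e + 12 * hi * t + ((1 / 2 + 2 * η / lo ^ 2) * δ +
        3 * ((3 * (√N * √(α * D ^ 2 + R₀ * hi ^ 2)) + 2 * gainCap S β) / N) / δ) := by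
  have hR : 1 ≤ k * R₀ := Nat.one_le_iff_ne_zero.2 (Nat.mul_ne_zero (by omega) (by omega))
  have hN : (0:ℝ) < N := by exact_mod_cast Nat.pos_of_ne_zero (NeZero.ne N)
  have hx : 0 < lam j := hlo.trans_le (hbox j).1
  have hfield := fun a lam' => hF (N := N) (n := n) (M := M) (S := S) (β := β) hR₀ hk hh (hU a) lam'
  obtain ⟨h1, h2⟩ := ibp_avg hI hf had
  refine ⟨?_, ?_⟩
  · rw [first_order hlo hbox hmax ⟨by linarith, by linarith⟩ fun a => ((hfield a lam).2 j).2, aCoef] at h1
    set T := tailAvg (k * R₀) (j * k) (rbar f N n M R₀ k S β h U lam)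
    have h4 : lam j * (tailAvg R₀ j q₀ - T) ≤ e := by
      have : 0 ≤ η / lam j := by positivity
      nlinarith [(abs_le.1 h1).1]
    have h5 : tailAvg R₀ j q₀ - T ≤ e / lam j := by rwa [le_div_iff₀ hx, mul_comm]
    have h6 := div_le_div_of_nonneg_left he hlo (hbox j).1
    linarith
  · have hΘ := energy_conc (j := j) (δ := δ) (L := 3 * (√N * √(α * D ^ 2 + R₀ * hi ^ 2)))
      hf hb hR hh hU hlo hη hbox hmax hδ hδl hδh hδ2 (fun a g z => ((hfield a lam).2 j).1 g z)
      (fun a => ((hfield a lam).2 j).2) fun a lam' hl' => by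
        refine gauss_dev_pats (mul_nonneg (sqrt_nonneg _) (sqrt_nonneg _)) fun g g' z z' =>
          ((hfield a lam').1 g g' z z').trans (mul_le_mul_of_nonneg_right ?_ (sqrt_nonneg _))
        rw [← sqrt_mul hN.le]
        refine sqrt_le_sqrt ?_
        rw [mul_add]
        refine add_le_add ?_ (mul_le_mul_of_nonneg_left ?_ hN.le)
        · rw [← mul_assoc]
          exact mul_le_mul_of_nonneg_right (hMN.trans_eq (mul_comm _ _)) (sq_nonneg D)
        · refine (sum_le_card_nsmul _ _ (hi ^ 2) fun i _ =>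
            pow_le_pow_left₀ (hlo.le.trans (hl' i).1) (hl' i).2 2).trans_eq ?_
          rw [nsmul_eq_mul, card_univ, Fintype.card_fin]
    have ha : |aCoef R₀ q₀ j| ≤ 1 / 2 := by
      obtain ⟨x0, x1⟩ := tail_mem (J := (j:ℕ)) hq
      rw [aCoef, abs_le]; constructor <;> linarith
    have ht0 : 0 ≤ t := (EX_const 0).symm.trans_le ((EX_mono (fun _ => intX_const 0) (fun a => intX_adX hf hR)
      fun a g z => (adX_mem hR g z).1).trans had)
    have hvar := tail_var hf hx.le h1 h2 hΘ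
    have e2 : 12 * |lam j| * t ≤ 12 * hi * t := by
      rw [abs_of_pos hx]
      exact mul_le_mul_of_nonneg_right (mul_le_mul_of_nonneg_left (hbox j).2 (by norm_num)) ht0
    have e3 := mul_le_mul_of_nonneg_right (add_le_add ha (le_refl (2 * η / lo ^ 2))) hδ.le
    linarith

/-- one more pattern -/
lemma one_pattern {Kp P t : ℝ} (hKp : 0 ≤ Kp) (hP : StepX f Kp) (hR₀ : 1 ≤ R₀) (hk : 1 ≤ k)
    (hh : ∀ j, |h j| ≤ 1) (hU : ∀ a j, |U a j| ≤ 1)
    (hΦ : EX (fun a g z => Par.Phi (fun y => exp (f y)) (k * R₀) (lin (k * R₀))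
        (rX (N := N) (n := n) (M := M + 1) f R₀ k S β h (U a) lam g z)) ≤ P)
    (had : EX (fun a => adX (N := N) (n := n) (M := M) f R₀ k S β h (U a) lam) ≤ t) :
    GX f N n (M + 1) R₀ k S β h U q₀ η lam ≤ GX f N n M R₀ k S β h U q₀ η lam + (P + Kp * t) / N := by
  have h1 : EX (fun a => FX (N := N) (n := n) (M := M + 1) f R₀ k S β h (U a) lam) ≤
      EX (fun a => FX (N := N) (n := n) (M := M) f R₀ k S β h (U a) lam) +
      EX (fun a g z => Par.Phi (fun y => exp (f y)) (k * R₀) (lin (k * R₀))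
        (rX (N := N) (n := n) (M := M + 1) f R₀ k S β h (U a) lam g z)) +
      Kp * EX (fun a => adX (N := N) (n := n) (M := M) f R₀ k S β h (U a) lam) := by
    simp only [EX, avg, mul_div_assoc', mul_sum, ← add_div, ← sum_add_distrib]
    refine div_le_div_of_nonneg_right (sum_le_sum fun a _ => ?_) (Nat.cast_nonneg _)
    have := (abs_le.1 (hP (N := N) (n := n) (M := M) (S := S) β h (U a) lam hR₀ hk hh (hU a))).2
    have e : meanX (adX (N := N) (n := n) (M := M) f R₀ k S β h (U a) lam) = meanX (N := N) (M := M) (fun g z =>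
      Par.adev (k * R₀) (wX (N := N) (n := n) f R₀ k S β h (U a) lam g z) (Par.ovK (spinX cfg (k * R₀)))
        (rX (N := N) (n := n) f R₀ k S β h (U a) lam g z)) := rfl
    rw [e]
    linarith
  have h2 : EX (fun a => FX (N := N) (n := n) (M := M + 1) f R₀ k S β h (U a) lam) ≤
      EX (fun a => FX (N := N) (n := n) (M := M) f R₀ k S β h (U a) lam) + (P + Kp * t) := by
    linarith [mul_le_mul_of_nonneg_left had hKp]
  have := div_le_div_of_nonneg_right h2 (Nat.cast_nonneg (α := ℝ) N)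
  rw [add_div] at this
  unfold GX
  linarith

end Vale.Agent.P157.Full
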