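import Vale.Agent.P157.Full.FieldTail

/-! The mean free energy in the amplitudes and the integration by parts of the field energy: it is the complement of
the tail of the overlaps, and against that tail only the deviation of the overlaps is left. -/

set_option linter.unusedSectionVars false

open MeasureTheory ProbabilityTheory Finset Filter
open scoped Topology
open Vale.Agent.P150 (gauss dot l1 l1_nonneg)
open Vale.Agent.P168.MP (lin ET Batch)
open Vale.Agent.P157.Par (Site Ix Sm ovK adev pats coll)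

namespace Vale.Agent.P157.Full.Fld

variable {f f1 f2 f3 : ℝ → ℝ} {B D : ℝ}

lemma abs_f_le (hS : Sm f f1 f2 f3 B D) (hB : ∀ x, f x ≤ B) (x : ℝ) : |f x| ≤ B :=
  _root_.abs_le.2 ⟨hS.lb x, hB x⟩

section field

variable {R₀ k S N n M : ℕ} [NeZero N] {ι : Type} [Fintype ι] [DecidableEq ι] {β : ι → Batch} {h u : ι → ℝ}

lemma abs_FX_le (hb : ∀ x, |f x| ≤ B) (hR₀ : 1 ≤ R₀) (hk : 1 ≤ k) (lam : Fin R₀ → ℝ) (g : Fin M → Fin N → ℝ)
    (z : Fin N × Ix (k * R₀) n → ℝ) :
    |FX f R₀ k S β h u lam g z| ≤ M * B + gB S β h u + (∑ i, |lam i|) * l1 z := by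
  refine Par.abs_logZ0_le (ok_wX hR₀ hk lam g z) fun p => ?_
  rw [wX_apply, Real.log_mul (bX_pos _ _ _).ne' (Real.exp_pos _).ne', Real.log_exp]
  exact (abs_add_le _ _).trans (add_le_add (abs_log_bX hb _ _ _)
    (Vale.Agent.P150.abs_dot_le (abs_lamVec_le lam _) z))

lemma dom_FX (hf : Continuous f) (hb : ∀ x, |f x| ≤ B) (hR₀ : 1 ≤ R₀) (hk : 1 ≤ k) (lam : Fin R₀ → ℝ) :
    Dom (fun g z => FX (N := N) (n := n) (M := M) f R₀ k S β h u lam g z) := by
  have hB : 0 ≤ B := (abs_nonneg _).trans (hb 0)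
  exact Dom.of_l1 (by unfold gB; positivity) (sum_nonneg fun i _ => abs_nonneg _) (continuous_FX hf lam)
    (abs_FX_le hb hR₀ hk lam)

lemma dom_HX (hf : Continuous f) (lam : Fin R₀ → ℝ) (j : Fin R₀) :
    Dom (fun g z => HX (N := N) (n := n) (M := M) f R₀ k S β h u lam g z j) :=
  Dom.of_l1 le_rfl zero_le_one (continuous_HX hf lam j) fun g z =>
    (abs_HX_le lam g z j).trans (by linarith [l1_nonneg z])

lemma dom_QX (hf : Continuous f) (lam : Fin R₀ → ℝ) (j : Fin R₀) :
    Dom (fun g z => QX (N := N) (n := n) (M := M) f R₀ k S β h u lam g z j) :=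
  Dom.of_bdd (continuous_QX hf lam j) fun g z => abs_QX_le lam g z j

lemma dom_CX (hf : Continuous f) (lam : Fin R₀ → ℝ) :
    Dom (fun g z => CX (N := N) (n := n) (M := M) f R₀ k S β h u lam g z) :=
  Dom.of_bdd (continuous_CX hf lam) fun g z => by
    rw [abs_of_nonneg (CX_bounds lam g z).1]; exact (CX_bounds lam g z).2

lemma dom_rX (hf : Continuous f) (lam : Fin R₀ → ℝ) (l : ℕ) :
    Dom (fun g z => rX (N := N) (n := n) (M := M) f R₀ k S β h u lam g z l) :=
  Dom.of_bdd (continuous_rX hf lam l) fun g z => abs_rX_le lam g z l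

lemma dom_tailX (hf : Continuous f) (lam : Fin R₀ → ℝ) (J : ℕ) :
    Dom (fun g z => tailAvg (k * R₀) J (rX (N := N) (n := n) (M := M) f R₀ k S β h u lam g z)) :=
  Dom.of_bdd (continuous_tailX hf lam J) fun g z => abs_tailX_le lam g z J

lemma dom_adevX (hf : Continuous f) (lam : Fin R₀ → ℝ) :
    Dom (fun g z => adev (k * R₀) (wX (N := N) (n := n) (M := M) f R₀ k S β h u lam g z)
      (ovK (spinX cfg (k * R₀))) (rX f R₀ k S β h u lam g z)) :=
  Dom.of_bdd (continuous_adevX hf lam) fun g z => by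
    rw [abs_of_nonneg (adevX_bounds lam g z).1]; exact (adevX_bounds lam g z).2

lemma meanX_tail (hf : Continuous f) (lam : Fin R₀ → ℝ) (J : ℕ) :
    meanX (fun g z => tailAvg (k * R₀) J (rX (N := N) (n := n) (M := M) f R₀ k S β h u lam g z)) =
      tailAvg (k * R₀) J fun l => meanX fun g z => rX (N := N) (n := n) (M := M) f R₀ k S β h u lam g z l := by
  simp only [tailAvg, div_eq_inv_mul, meanX_const_mul]
  rw [meanX_sum _ fun l _ => dom_rX hf lam l]

/-- the mean field energy is the self term times the amplitude -/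
lemma meanX_HX (hR₀ : 1 ≤ R₀) (hk : 1 ≤ k) (lam : Fin R₀ → ℝ) (j : Fin R₀) :
    meanX (fun g z => HX (N := N) (n := n) (M := M) f R₀ k S β h u lam g z j) =
      lam j * meanX (fun g z => QX (N := N) (n := n) (M := M) f R₀ k S β h u lam g z j) := by
  rw [← meanX_const_mul]
  unfold meanX
  refine integral_congr_ae (Eventually.of_forall fun g => ?_)
  have h1 := ibp_test (f := f) (n := n) (S := S) (β := β) (h := h) (u := u) hR₀ hk lam g j (φ := fun _ => (1 : ℝ))
    (φ' := fun _ _ => (0 : ℝ)) continuous_const (fun _ => continuous_const) (C := 1) (C' := 0)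
    (fun _ => by simp) (fun _ _ => by simp) (fun x z t => hasDerivAt_const t (1 : ℝ))
  simpa using h1

/-- **Derivative of the mean free energy in an amplitude** -/
theorem meanX_deriv (hS : Sm f f1 f2 f3 B D) (hB : ∀ x, f x ≤ B) (hR₀ : 1 ≤ R₀) (hk : 1 ≤ k)
    (lam : Fin R₀ → ℝ) (j : Fin R₀) :
    HasDerivAt (fun t => meanX (N := N) (M := M) (FX (N := N) (n := n) f R₀ k S β h u (Function.update lam j t)))
      (meanX (N := N) (M := M) fun g z => HX (N := N) (n := n) f R₀ k S β h u lam g z j) (lam j) ∧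
    |meanX (N := N) (M := M) (fun g z => HX (N := N) (n := n) f R₀ k S β h u lam g z j)| ≤ 3 * |lam j| * N := by
  have hf : Continuous f := hS.sd.cont0
  have hb := abs_f_le hS hB
  refine ⟨?_, ?_⟩
  · set μz := gauss (Fin N × Ix (k * R₀) n)
    have hdF : ∀ t, Dom (fun g z => FX (N := N) (n := n) (M := M) f R₀ k S β h u (Function.update lam j t) g z) :=
      fun t => dom_FX hf hb hR₀ hk _
    have hdH : ∀ t, Dom (fun g z => HX (N := N) (n := n) (M := M) f R₀ k S β h u (Function.update lam j t) g z j) :=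
      fun t => dom_HX hf _ j
    have he : Integrable (fun z : Fin N × Ix (k * R₀) n → ℝ => Real.exp (1 * l1 z)) μz :=
      Vale.Agent.P150.integrable_exp_l1 1
    have hHb : ∀ t (g : Fin M → Fin N → ℝ) z,
        ‖HX (N := N) (n := n) f R₀ k S β h u (Function.update lam j t) g z j‖ ≤ Real.exp (1 * l1 z) :=
      fun t g z => by
        rw [Real.norm_eq_abs, one_mul]
        exact (abs_HX_le _ g z j).trans (by linarith [Real.add_one_le_exp (l1 z)])
    have hd : ∀ t (g : Fin M → Fin N → ℝ) z,
        HasDerivAt (fun s => FX (N := N) (n := n) f R₀ k S β h u (Function.update lam j s) g z)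
          (HX f R₀ k S β h u (Function.update lam j t) g z j) t := fun t g z => by
      simpa [Function.update_idem] using
        (FX_convex (f := f) (S := S) (β := β) (h := h) (u := u) hR₀ hk (Function.update lam j t) g z j).2
    have hin : ∀ t (g : Fin M → Fin N → ℝ),
        HasDerivAt (fun s => ∫ z, FX (N := N) (n := n) f R₀ k S β h u (Function.update lam j s) g z ∂μz)
          (∫ z, HX f R₀ k S β h u (Function.update lam j t) g z j ∂μz) t := fun t g =>
      (hasDerivAt_integral_of_dominated_loc_of_deriv_le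
        (F := fun s z => FX (N := N) (n := n) f R₀ k S β h u (Function.update lam j s) g z)
        (F' := fun s z => HX f R₀ k S β h u (Function.update lam j s) g z j)
        (bound := fun z => Real.exp (1 * l1 z)) (Metric.ball_mem_nhds t one_pos)
        (Eventually.of_forall fun s => ((hdF s).right g).aestronglyMeasurable) ((hdF t).int g)
        ((hdH t).right g).aestronglyMeasurable (Eventually.of_forall fun z s _ => hHb s g z) he
        (Eventually.of_forall fun z s _ => hd s g z)).2
    have hout := (hasDerivAt_integral_of_dominated_loc_of_deriv_le (μ := pats N M)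
      (F := fun s g => ∫ z, FX (N := N) (n := n) f R₀ k S β h u (Function.update lam j s) g z ∂μz)
      (F' := fun s g => ∫ z, HX f R₀ k S β h u (Function.update lam j s) g z j ∂μz)
      (bound := fun _ => ∫ z, Real.exp (1 * l1 z) ∂μz) (Metric.ball_mem_nhds (lam j) one_pos)
      (Eventually.of_forall fun s => (hdF s).inner.1.aestronglyMeasurable) (hdF (lam j)).inner.2
      (hdH (lam j)).inner.1.aestronglyMeasurable
      (Eventually.of_forall fun g s _ => (norm_integral_le_integral_norm _).trans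
        (integral_mono_of_nonneg (Eventually.of_forall fun z => norm_nonneg _) he
          (Eventually.of_forall fun z => hHb s g z)))
      (integrable_const _) (Eventually.of_forall fun g s _ => hin s g)).2
    simpa [meanX, μz, Function.update_eq_self] using hout
  · rw [meanX_HX hR₀ hk lam j, abs_mul]
    refine (mul_le_mul_of_nonneg_left
      (abs_meanX_le_const (dom_QX hf lam j) fun g z => abs_QX_le lam g z j) (abs_nonneg _)).trans ?_
    nlinarith [abs_nonneg (lam j), Nat.cast_nonneg (α := ℝ) N]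

/-- collisions vanish as the number of labels grows -/
lemma meanX_CX_le (hf : Continuous f) (hb : ∀ x, |f x| ≤ B) (hR₀ : 1 ≤ R₀) (hk : 1 ≤ k) {Λ : ℝ}
    (lam : Fin R₀ → ℝ) (hlam : ∀ i, lam i ^ 2 ≤ Λ ^ 2) :
    meanX (fun g z => CX (N := N) (n := n) (M := M) f R₀ k S β h u lam g z) ≤
      N * (Par.collK N (k * R₀) (N * (R₀ * Λ ^ 2)) (M * B + gB S β h u) / √((n + 1 : ℕ) : ℝ)) := by
  classical
  set Kc := Par.collK N (k * R₀) (N * (R₀ * Λ ^ 2)) (M * B + gB S β h u) / √((n + 1 : ℕ) : ℝ) with hKc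
  have hK : 0 ≤ Kc := by rw [hKc]; unfold Par.collK; positivity
  have hR : 1 ≤ k * R₀ := one_le_kR hR₀ hk
  refine (integral_mono (dom_CX hf lam).inner.2 (integrable_const ((N : ℝ) * Kc)) fun g => ?_).trans_eq (by simp)
  have hi : ∀ (l : ℕ) (i : Fin N), Integrable (fun z => ET (k * R₀) (lin (k * R₀))
      (wX (N := N) (n := n) f R₀ k S β h u lam g z) [(0, l), (0, 0)]
      fun ps => coll i l [(ps.getD 0 []).map Prod.fst, (ps.getD 1 []).map Prod.fst])
      (gauss (Fin N × Ix (k * R₀) n)) := fun l i =>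
    Integrable.of_bound (continuous_ET_right lam g _ _).aestronglyMeasurable 1
      (Eventually.of_forall fun z => Vale.Agent.P168.MP.ET_bound (wX_pos lam g z) fun ps => by
        rw [abs_of_nonneg (Par.coll_nonneg _ _ _)]; unfold Par.coll; split_ifs <;> norm_num)
  simp only [CX]
  rw [integral_div, integral_finsetSum _ fun l _ => integrable_finsetSum _ fun i _ => hi l i]
  simp only [fun l => integral_finsetSum (μ := gauss (Fin N × Ix (k * R₀) n)) univ fun i (_ : i ∈ univ) => hi l i]
  refine div_le_of_le_mul₀ (Nat.cast_nonneg _) (mul_nonneg (Nat.cast_nonneg _) hK)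
    ((sum_le_card_nsmul _ _ ((N : ℝ) * Kc) fun l hl => ?_).trans_eq (by rw [card_range, nsmul_eq_mul, mul_comm]))
  refine (sum_le_card_nsmul _ _ Kc fun i _ => ?_).trans_eq (by simp)
  have hY : ∀ p, Real.exp (-(M * B + gB S β h u)) ≤ bX (n := n) f (k * R₀) S β h u g p ∧
      bX (n := n) f (k * R₀) S β h u g p ≤ Real.exp (M * B + gB S β h u) := fun p => by
    have := abs_le.1 (abs_log_bX (S := S) (β := β) (h := h) (u := u) hb (k * R₀) g p)
    have hp := bX_pos (f := f) (S := S) (β := β) (h := h) (u := u) (k * R₀) g p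
    exact ⟨(Real.le_log_iff_exp_le hp).1 this.1, (Real.log_le_iff_le_exp hp).1 this.2⟩
  have ha : ∀ p : List (Site N (n + 1)),
      dot (lamVec R₀ k lam p) (lamVec R₀ k lam p) ≤ (N : ℝ) * (R₀ * Λ ^ 2) := fun p =>
    (dot_lamVec_self_le hk lam p).trans (mul_le_mul_of_nonneg_left
      ((sum_le_card_nsmul _ _ _ fun i _ => hlam i).trans_eq (by simp)) (Nat.cast_nonneg _))
  have ha0 : ∀ p : List (Site N (n + 1)), p.length ≠ k * R₀ → ∀ x, lamVec R₀ k lam p x = 0 := fun p hp x =>
    sum_eq_zero fun i _ => by rw [blockVec_eq, bv_ne hp, mul_zero]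
  simp only [funext (wX_apply (f := f) (S := S) (β := β) (h := h) (u := u) lam g _)]
  exact ET_collX hR _ ha ha0 hY i (mem_range.1 hl)

/-- **Integration by parts; the collision error vanishes as the number of labels grows, at fixed `N`** -/
theorem HX_ibp (hS : Sm f f1 f2 f3 B D) (hB : ∀ x, f x ≤ B) (R₀ k S N M : ℕ) [NeZero N]
    (hR₀ : 1 ≤ R₀) (hk : 1 ≤ k) (Λ : ℝ) {ε : ℝ} (hε : 0 < ε) :
    ∀ᶠ n : ℕ in atTop, ∀ (lam : Fin R₀ → ℝ), (∀ i, 0 ≤ lam i ∧ lam i ≤ Λ) → ∀ (j : Fin R₀),
      |meanX (N := N) (M := M) (fun g z => HX (N := N) (n := n) f R₀ k S β h u lam g z j) -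
        lam j * N * (1 - tailAvg (k * R₀) (j * k) fun l =>
          meanX (N := N) (M := M) fun g z => rX (N := N) (n := n) f R₀ k S β h u lam g z l)| ≤ N * ε ∧
      |meanX (N := N) (M := M) (fun g z => HX (N := N) (n := n) f R₀ k S β h u lam g z j *
          tailAvg (k * R₀) (j * k) (rX (N := N) (n := n) f R₀ k S β h u lam g z)) -
        lam j * N * meanX (N := N) (M := M) (fun g z =>
          (1 - tailAvg (k * R₀) (j * k) (rX (N := N) (n := n) f R₀ k S β h u lam g z)) *
            tailAvg (k * R₀) (j * k) (rX (N := N) (n := n) f R₀ k S β h u lam g z))| ≤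
        N * (12 * |lam j| * meanX (N := N) (M := M) (fun g z =>
          adev (k * R₀) (wX (N := N) (n := n) f R₀ k S β h u lam g z) (ovK (spinX cfg (k * R₀)))
            (rX (N := N) (n := n) f R₀ k S β h u lam g z)) + ε) := by
  have hf : Continuous f := hS.sd.cont0
  have hb := abs_f_le hS hB
  set K := Par.collK N (k * R₀) (N * (R₀ * Λ ^ 2)) (M * B + gB S β h u)
  have hlim : Tendsto (fun n : ℕ => |Λ| * (K / √((n + 1 : ℕ) : ℝ))) atTop (𝓝 0) := by
    have h1 : Tendsto (fun n : ℕ => √((n + 1 : ℕ) : ℝ)) atTop atTop :=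
      Real.tendsto_sqrt_atTop.comp (tendsto_natCast_atTop_atTop.comp (tendsto_add_atTop_nat 1))
    simpa using (h1.const_div_atTop K).const_mul |Λ|
  filter_upwards [hlim.eventually (eventually_le_nhds hε)] with n hn lam hlam j
  have hlamj : |lam j| ≤ |Λ| := abs_le_abs_of_nonneg (hlam j).1 (hlam j).2
  set T := fun (g : Fin M → Fin N → ℝ) (z : Fin N × Ix (k * R₀) n → ℝ) =>
    tailAvg (k * R₀) (j * k) (rX (N := N) (n := n) f R₀ k S β h u lam g z) with hT
  set Q := fun (g : Fin M → Fin N → ℝ) (z : Fin N × Ix (k * R₀) n → ℝ) =>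
    QX (N := N) (n := n) f R₀ k S β h u lam g z j with hQ
  set C := fun (g : Fin M → Fin N → ℝ) (z : Fin N × Ix (k * R₀) n → ℝ) =>
    CX (N := N) (n := n) f R₀ k S β h u lam g z with hC
  set A := fun (g : Fin M → Fin N → ℝ) (z : Fin N × Ix (k * R₀) n → ℝ) =>
    adev (k * R₀) (wX (N := N) (n := n) f R₀ k S β h u lam g z) (ovK (spinX cfg (k * R₀)))
      (rX (N := N) (n := n) f R₀ k S β h u lam g z) with hA
  have hTb : ∀ g z, |T g z| ≤ 1 := fun g z => abs_tailX_le lam g z _
  have hTc : Continuous fun y : (Fin M → Fin N → ℝ) × (Fin N × Ix (k * R₀) n → ℝ) => T y.1 y.2 :=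
    continuous_tailX hf lam ((j : ℕ) * k)
  have dT : Dom T := dom_tailX hf lam _
  have dC : Dom C := dom_CX hf lam
  have dA : Dom A := dom_adevX hf lam
  have dQ : Dom Q := dom_QX hf lam j
  have d1 : Dom fun g z => (N : ℝ) * (1 - T g z) :=
    ((Dom.of_bdd (C := 1) continuous_const (fun _ _ => by simp)).sub dT).const_mul _
  have hnear : ∀ g z, |Q g z - N * (1 - T g z)| ≤ C g z := fun g z => QX_near hR₀ hk lam g z j
  have hmC : |lam j| * meanX C ≤ N * ε := by
    have h1 := meanX_CX_le (N := N) (n := n) (M := M) (S := S) (β := β) (h := h) (u := u) hf hb hR₀ hk (Λ := Λ) lam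
      fun i => pow_le_pow_left₀ (hlam i).1 (hlam i).2 2
    have h0 : 0 ≤ meanX C := (meanX_const 0).symm.le.trans
      (meanX_mono (Dom.of_bdd (C := 0) continuous_const fun _ _ => by simp) dC fun g z => (CX_bounds lam g z).1)
    refine (mul_le_mul hlamj h1 h0 (abs_nonneg _)).trans ?_
    rw [mul_left_comm]
    exact mul_le_mul_of_nonneg_left hn (Nat.cast_nonneg _)
  refine ⟨?_, ?_⟩
  · have e : meanX (fun g z => (N : ℝ) * (1 - T g z)) = N * (1 - tailAvg (k * R₀) (j * k) fun l =>
        meanX (N := N) (M := M) fun g z => rX (N := N) (n := n) f R₀ k S β h u lam g z l) := by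
      rw [meanX_const_mul, meanX_sub (Dom.of_bdd (C := 1) continuous_const fun _ _ => by simp) dT, meanX_const,
        meanX_tail hf]
    rw [meanX_HX hR₀ hk, mul_assoc, ← e, ← mul_sub, abs_mul, ← meanX_sub dQ d1]
    exact (mul_le_mul_of_nonneg_left (abs_meanX_le (dQ.sub d1) dC hnear) (abs_nonneg _)).trans hmC
  · set G := fun (g : Fin M → Fin N → ℝ) (z : Fin N × Ix (k * R₀) n → ℝ) =>
      ∑ x, FxX (N := N) (n := n) f R₀ k S β h u lam g z j x *
        DTX (N := N) (n := n) f R₀ k S β h u lam g z (j * k) x with hG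
    have hibp : ∀ g, ∫ z, HX (N := N) (n := n) f R₀ k S β h u lam g z j * T g z ∂gauss (Fin N × Ix (k * R₀) n) =
        ∫ z, (lam j * Q g z * T g z + G g z) ∂gauss (Fin N × Ix (k * R₀) n) := fun g => by
      have c1 : Continuous (T g) := dT.right g
      exact ibp_test (f := f) (S := S) (β := β) (h := h) (u := u) hR₀ hk lam g j (φ := T g)
        (φ' := fun x z => DTX (N := N) (n := n) f R₀ k S β h u lam g z (j * k) x) c1
        (fun x => continuous_DTX hf lam g (j * k) x) (hTb g) (fun x z => abs_DTX_le lam g z (j * k) x)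
        (fun x z t => hasDerivAt_tailX hR₀ hk lam g z (j * k) x t)
    have e1 : meanX (fun g z => HX (N := N) (n := n) (M := M) f R₀ k S β h u lam g z j * T g z) =
        meanX (fun g z => lam j * Q g z * T g z + G g z) :=
      integral_congr_ae (Eventually.of_forall hibp)
    have hcD : ∀ x, Continuous fun y : (Fin M → Fin N → ℝ) × (Fin N × Ix (k * R₀) n → ℝ) =>
        DTX (N := N) (n := n) f R₀ k S β h u lam y.1 y.2 (j * k) x := fun x =>
      (continuous_finsetSum _ fun l _ => continuous_list_sum _ fun _ _ => continuous_const.mul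
        (Par.continuous_ET (fun p => continuous_wX hf lam p) (fun y p => wX_pos lam y.1 y.2 p) _ _
          fun _ => (continuous_const.sub (continuous_rX hf lam l)).mul continuous_const)).div_const _
    have hcF : ∀ x, Continuous fun y : (Fin M → Fin N → ℝ) × (Fin N × Ix (k * R₀) n → ℝ) =>
        FxX (N := N) (n := n) f R₀ k S β h u lam y.1 y.2 j x := fun x => continuous_ET_both hf lam _ _
    have dG : Dom G := Dom.sum univ fun x _ =>
      Dom.of_bdd (C := 6 * (2 * ∑ i, |lam i|)) ((hcF x).mul (hcD x)) fun g z => by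
        rw [abs_mul]
        exact (mul_le_of_le_one_left (abs_nonneg _) (abs_FxX_le lam g z j x)).trans (abs_DTX_le lam g z _ x)
    have dQT : Dom fun g z => lam j * Q g z * T g z := (dQ.const_mul _).mul_bdd hTc hTb
    have hmul : lam j * (N : ℝ) * meanX (fun g z => (1 - T g z) * T g z) =
        meanX fun g z => lam j * ((N : ℝ) * (1 - T g z)) * T g z := by
      rw [← meanX_const_mul]; congr 1; funext g z; ring
    rw [e1, meanX_add dQT dG, hmul, add_sub_right_comm, ← meanX_sub dQT ((d1.const_mul _).mul_bdd hTc hTb),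
      mul_add, add_comm ((N : ℝ) * _)]
    refine (abs_add_le _ _).trans (add_le_add ?_ ?_)
    · refine le_trans ?_ hmC
      rw [← meanX_const_mul]
      refine abs_meanX_le (dQT.sub ((d1.const_mul _).mul_bdd hTc hTb)) (dC.const_mul _) fun g z => ?_
      rw [← sub_mul, ← mul_sub, abs_mul, abs_mul]
      exact (mul_le_of_le_one_right (mul_nonneg (abs_nonneg _) (abs_nonneg _)) (hTb g z)).trans
        (mul_le_mul_of_nonneg_left (hnear g z) (abs_nonneg _))
    · have hAn : 0 ≤ meanX A := (meanX_const 0).symm.le.trans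
        (meanX_mono (Dom.of_bdd (C := 0) continuous_const fun _ _ => by simp) dA fun g z => (adevX_bounds lam g z).1)
      refine (abs_meanX_le dG (dA.const_mul (6 * (|lam j| * N))) fun g z => sum_Fx_DTX hk lam g z j _).trans ?_
      rw [meanX_const_mul]
      have h6 := mul_nonneg (mul_nonneg (abs_nonneg (lam j)) (Nat.cast_nonneg (α := ℝ) N)) hAn
      linarith [show (N : ℝ) * (12 * |lam j| * meanX A) = 12 * (|lam j| * N * meanX A) by ring,
        show 6 * (|lam j| * (N : ℝ)) * meanX A = 6 * (|lam j| * N * meanX A) by ring]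

end field

end Vale.Agent.P157.Full.Fld
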