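import Vale.Agent.P157.Full.UDefs
import Vale.Agent.P157.Par.Rep
import Vale.Agent.P168.MP.NestC

/-! The identities of the perturbation and the pair representation on the grid of strengths, for an
arbitrary finite set of configuration marks read by a map `cf`. The proofs follow `P168/MP`
(Site, Exchange, Ident, GridConc) and `P157/Par/GridRep`; the marks of the perturbation still flip
freely, and the weight only reads the configuration marks. -/

namespace Vale.Agent.P157.Full

open Finset Real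
open Vale.Agent.P168 (sg)
open Vale.Agent.P168.MP hiding spinAt_modify

set_option linter.unusedSectionVars false

variable {C : Type} [Fintype C] [Nonempty C] {N S : ℕ} [NeZero N] {ι : Type} [Fintype ι]
  [DecidableEq ι] {β : ι → Batch} {R : ℕ} {m : ℕ → ℝ} {cf : C → Fin N → Bool}

/-- the site marks of a path -/
def siteX (cf : C → Fin N → Bool) (p : List (MarkX C N S β)) (i : ι × Fin S) (l : ℕ) :
    Site N (β i.1).k := siteAt (p.map (plain cf)) i l

/-- act on the marks of one site -/
def onSiteX (x : ι × Fin S) (f : Site N (β x.1).k ≃ Site N (β x.1).k) :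
    MarkX C N S β ≃ MarkX C N S β where
  toFun o := (o.1, Function.update o.2 x (f (o.2 x)))
  invFun o := (o.1, Function.update o.2 x (f.symm (o.2 x)))
  left_inv o := by simp
  right_inv o := by simp

/-- exchange two sites of the same batch -/
def swapX (j : ι) (a c : Fin S) : MarkX C N S β ≃ MarkX C N S β :=
  Function.Involutive.toPerm
    (fun o => (o.1, Function.update (Function.update o.2 (j, a) (o.2 (j, c))) (j, c) (o.2 (j, a))))
    fun o => by
      refine Prod.ext rfl (funext fun y => ?_)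
      simp only
      by_cases hc : y = (j, c)
      · subst hc
        by_cases hac : a = c
        · subst hac; simp
        · simp [Function.update_of_ne, Prod.ext_iff, hac]
      · by_cases ha : y = (j, a)
        · subst ha; simp [Function.update_of_ne, hc]
        · simp [Function.update_of_ne, hc, ha]

/-- the weight ignores the marks of site `x` -/
def FreeX (w : List (MarkX C N S β) → ℝ) (x : ι × Fin S) : Prop :=
  ∀ (f : Site N (β x.1).k ≃ Site N (β x.1).k) (p : List (MarkX C N S β)) (l : ℕ),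
    w (p.modify l (onSiteX x f)) = w p

/-- the weight with site `x` removed -/
noncomputable def pwFreeX (cf : C → Fin N → Bool) (R : ℕ) (W : List C → ℝ) (h u : ι → ℝ)
    (x : ι × Fin S) (p : List (MarkX C N S β)) : ℝ :=
  W (p.map Prod.fst) * Real.exp (∑ i ∈ univ.erase x, gain1 R h u (p.map (plain cf)) i)

/-- field of site `x` along a path -/
def fieldX (cf : C → Fin N → Bool) (R : ℕ) (x : ι × Fin S) (p : List (MarkX C N S β)) : ℝ :=
  Vale.Agent.P168.MP.psiH (β x.1) (spinX cf R p) (siteX cf p x)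

/-- observable of site `x` along a path -/
def obsX (cf : C → Fin N → Bool) (R : ℕ) (x : ι × Fin S) (p : List (MarkX C N S β)) : ℝ :=
  psi0 (β x.1) (spinX cf R p) (siteX cf p x)

/-- the observable at the first replica times a function of the configurations -/
def obsFX (cf : C → Fin N → Bool) (R : ℕ) (x : ι × Fin S) (F : List (Fin N → Bool) → ℝ)
    (ps : List (List (MarkX C N S β))) : ℝ :=
  F (ps.map (spinX cf R)) * obsX cf R x (ps.getD 0 [])

/-- the sum of the observables of batch `j` along a path -/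
def batchSumX (cf : C → Fin N → Bool) (R : ℕ) (j : ι) (p : List (MarkX C N S β)) : ℝ :=
  batchSum R j (p.map (plain cf))

lemma batchSumX_eq (R : ℕ) (j : ι) (p : List (MarkX C N S β)) :
    batchSumX cf R j p = ∑ i : Fin S, psi0 (β j) (spinX cf R p) (siteX cf p (j, i)) := rfl

lemma abs_batchSumX_le (cf : C → Fin N → Bool) (R : ℕ) (j : ι) (p : List (MarkX C N S β)) :
    |batchSumX cf R j p| ≤ S := abs_batchSum_le R j _

lemma gain1_X (h u : ι → ℝ) (p : List (MarkX C N S β)) (i : ι × Fin S) :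
    gain1 R h u (p.map (plain cf)) i = h i.1 * Vale.Agent.P168.MP.psiH (β i.1) (spinX cf R p) (siteX cf p i) +
      u i.1 * psi0 (β i.1) (spinX cf R p) (siteX cf p i) := rfl

lemma map_modify_fst (x : ι × Fin S) (f : Site N (β x.1).k ≃ Site N (β x.1).k)
    (p : List (MarkX C N S β)) (l : ℕ) : (p.modify l (onSiteX x f)).map Prod.fst = p.map Prod.fst := by
  refine List.ext_getElem (by simp) fun i h1 h2 => ?_
  simp only [List.getElem_map, List.getElem_modify]
  split <;> rfl

lemma map_modify_plain (x : ι × Fin S) (f : Site N (β x.1).k ≃ Site N (β x.1).k)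
    (p : List (MarkX C N S β)) (l : ℕ) :
    (p.modify l (onSiteX x f)).map (plain cf) = (p.map (plain cf)).modify l (onSite x f) := by
  refine List.ext_getElem (by simp) fun i h1 h2 => ?_
  simp only [List.getElem_map, List.getElem_modify]
  split <;> rfl

lemma spinX_modify (x : ι × Fin S) (f : Site N (β x.1).k ≃ Site N (β x.1).k)
    (p : List (MarkX C N S β)) (l : ℕ) : spinX cf R (p.modify l (onSiteX x f)) = spinX cf R p := by
  rw [spinX, spinX, map_modify_plain, Vale.Agent.P168.MP.spinAt_modify]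

lemma siteX_modify_ne {x y : ι × Fin S} (h : y ≠ x) (f : Site N (β x.1).k ≃ Site N (β x.1).k)
    (p : List (MarkX C N S β)) (l : ℕ) :
    siteX cf (p.modify l (onSiteX x f)) y = siteX cf p y := by
  funext i
  rw [siteX, siteX, map_modify_plain, siteAt_modify_ne h]

lemma pwFreeX_free (R : ℕ) (W : List C → ℝ) (h u : ι → ℝ) (x : ι × Fin S) :
    FreeX (pwFreeX (β := β) cf R W h u x) x := fun f p l => by
  unfold pwFreeX
  rw [map_modify_fst]
  congr 2
  refine sum_congr rfl fun i hi => ?_
  rw [gain1_X, gain1_X, spinX_modify, siteX_modify_ne (ne_of_mem_erase hi)]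

lemma map_plain_getD (ps : List (List (MarkX C N S β))) (a : ℕ) :
    (ps.map (List.map (plain cf))).getD a [] = (ps.getD a []).map (plain cf) := by
  conv_lhs => rw [show ([] : List (Mark N S β)) = List.map (plain cf) ([] : List (MarkX C N S β))
    from rfl]
  rw [List.getD_map]

lemma supp_map {T : List (ℕ × ℕ)} {ps : List (List (MarkX C N S β))} (hs : Supp R T ps) :
    Supp R T (ps.map (List.map (plain cf))) := by
  refine ⟨by simp [hs.1], fun a ha => ?_, fun a b ha hb => ?_⟩
  · rw [map_plain_getD, List.length_map, hs.2.1 a ha]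
  · rw [map_plain_getD, map_plain_getD, ← List.map_take, ← List.map_take, hs.2.2 a b ha hb]

lemma map_plain_node (T : List (ℕ × ℕ)) (x : ι × Fin S) (r l : ℕ)
    (f : Site N (β x.1).k ≃ Site N (β x.1).k) (ps : List (List (MarkX C N S β))) :
    (nodeMap R T r l (onSiteX x f) ps).map (List.map (plain cf)) =
      nodeMap R T r l (onSite x f) (ps.map (List.map (plain cf))) := by
  refine List.ext_getElem (by simp [nodeMap]) fun a h1 h2 => ?_
  simp only [List.getElem_map, nodeMap, List.getElem_mapIdx]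
  split
  · rw [map_modify_plain]
  · rfl

lemma map_spinX (ps : List (List (MarkX C N S β))) :
    ps.map (spinX cf R) = (ps.map (List.map (plain cf))).map (spinAt R) := by
  simp [List.map_map, Function.comp_def, spinX]

lemma map_spinX_node {x : ι × Fin S} {T : List (ℕ × ℕ)} {ps : List (List (MarkX C N S β))}
    (r l : ℕ) (f : Site N (β x.1).k ≃ Site N (β x.1).k) :
    (nodeMap R T r l (onSiteX x f) ps).map (spinX cf R) = ps.map (spinX cf R) := by
  rw [map_spinX, map_spinX, map_plain_node, map_spinAt_node]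

lemma site_nodeX {x : ι × Fin S} {T : List (ℕ × ℕ)} {ps : List (List (MarkX C N S β))}
    (hs : Supp R T ps) {r L : ℕ} (hL : 1 ≤ L)
    (f : Site N (β x.1).k ≃ Site N (β x.1).k) {a i : ℕ} (ha : a < T.length) (hi : 1 ≤ i)
    (hiR : i ≤ R) :
    siteX cf ((nodeMap R T r (L - 1) (onSiteX x f) ps).getD a []) x i =
      if i = L ∧ L ≤ sp R T a r then f (siteX cf (ps.getD a []) x i)
      else siteX cf (ps.getD a []) x i := by
  simp only [siteX, ← map_plain_getD, map_plain_node]
  exact site_node (supp_map hs) hL f ha hi hiR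

lemma siteX_agree {x : ι × Fin S} {T : List (ℕ × ℕ)} {ps : List (List (MarkX C N S β))}
    (hs : Supp R T ps) {a c : ℕ} (ha : a < T.length) (hc : c < T.length) {L : ℕ}
    (h1 : 1 ≤ L) (h : L ≤ sp R T a c) :
    siteX cf (ps.getD a []) x L = siteX cf (ps.getD c []) x L := by
  simp only [siteX, ← map_plain_getD]
  exact siteAt_agree (supp_map hs) ha hc h1 h

lemma getD_spinX (a : ℕ) (ps : List (List (MarkX C N S β))) :
    (ps.map (spinX cf R)).getD a default = spinX cf R (ps.getD a []) := by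
  rw [map_spinX, getD_spin, map_plain_getD]
  rfl

lemma map_swap_fst (j : ι) (a c : Fin S) (p : List (MarkX C N S β)) :
    (p.map (swapX j a c)).map Prod.fst = p.map Prod.fst := by
  rw [List.map_map]
  exact List.map_congr_left fun o _ => rfl

lemma map_swap_plain (j : ι) (a c : Fin S) (p : List (MarkX C N S β)) :
    (p.map (swapX j a c)).map (plain cf) = (p.map (plain cf)).map (swapMark j a c) := by
  rw [List.map_map, List.map_map]
  exact List.map_congr_left fun o _ => rfl

lemma spinX_swap (R : ℕ) (j : ι) (a c : Fin S) (p : List (MarkX C N S β)) :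
    spinX cf R (p.map (swapX j a c)) = spinX cf R p := by
  rw [spinX, spinX, map_swap_plain, spinAt_swap]

lemma siteX_swap_right (j : ι) (a c : Fin S) (p : List (MarkX C N S β)) :
    siteX cf (p.map (swapX j a c)) (j, c) = siteX cf p (j, a) := by
  funext l
  rw [siteX, siteX, map_swap_plain, siteAt_swap_right]

lemma pwX_swap {W : List C → ℝ} {h u : ι → ℝ} (j : ι) (a c : Fin S)
    (p : List (MarkX C N S β)) : pwX cf R W h u (p.map (swapX j a c)) = pwX cf R W h u p := by
  have e := pw_swap (R := R) (W := fun _ => (1:ℝ)) (h := h) (u := u) j a c (p.map (plain cf))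
  simp only [pw, one_mul] at e
  rw [pwX, pwX, map_swap_fst, map_swap_plain, e]

variable {w : List (MarkX C N S β) → ℝ} {x : ι × Fin S} {T : List (ℕ × ℕ)}
  {W : List C → ℝ} {h u : ι → ℝ}

section maps

omit [NeZero N] in
lemma ET_oddX (hw : FreeX w x) (hT : Valid R T) {r L : ℕ} (hr : r < T.length) (h1 : 1 ≤ L) (hL : L ≤ R)
    (f : Site N (β x.1).k ≃ Site N (β x.1).k) {H : List (List (MarkX C N S β)) → ℝ}
    (hH : ∀ ps, Supp R T ps → H (nodeMap R T r (L - 1) (onSiteX x f) ps) = -H ps) :
    ET R m w T H = 0 := by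
  have h := ET_nodeMap (m := m) (fun p => hw f p (L - 1)) (show L - 1 < R by omega) hT hr H
  rw [ET_congr hT hH, ET_neg] at h
  linarith

/-- the observable times features at given positions vanishes if a feature is missing -/
theorem ET_site_zeroX (hw : FreeX w x) (hT : Valid R T) (hR : 1 ≤ R) {r₀ : ℕ} (hr₀ : r₀ < T.length)
    (hlev : ∀ q : Pair (β x.1).k, 1 ≤ (β x.1).lev q.1.1 q.1.2 ∧
      (β x.1).lev q.1.1 q.1.2 < R)
    {J : Type} [Fintype J] (pos : J → ℕ) (hpos : ∀ t, pos t < T.length) (f : J → Fin (β x.1).k)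
    {a₀ : Fin (β x.1).k} (ha₀ : ∀ t, f t ≠ a₀) (F : List (Fin N → Bool) → ℝ) :
    ET R m w T (fun ps => F (ps.map (spinX cf R)) *
      (psi0 (β x.1) (spinX cf R (ps.getD r₀ [])) (siteX cf (ps.getD r₀ []) x) *
        ∏ t, phi (β x.1) (spinX cf R (ps.getD (pos t) [])) (siteX cf (ps.getD (pos t) []) x) (f t).succ))
      = 0 := by
  refine ET_oddX hw hT hr₀ le_rfl hR (epsFlip a₀) fun ps hs => ?_
  set ps' := nodeMap R T r₀ (1 - 1) (onSiteX x (epsFlip a₀)) ps with hps'
  have hmap : ps'.map (spinX cf R) = ps.map (spinX cf R) := map_spinX_node _ _ _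
  have hσ : ∀ a, spinX cf R (ps'.getD a []) = spinX cf R (ps.getD a []) := fun a => by
    rw [← getD_spinX, ← getD_spinX, hmap]
  have hx : ∀ a, a < T.length → ∀ q,
      xiv (β x.1) (siteX cf (ps'.getD a []) x) q = xiv (β x.1) (siteX cf (ps.getD a []) x) q := by
    intro a ha q
    refine xiv_congr _ ?_ ?_
    · rw [hps', site_nodeX hs le_rfl _ ha le_rfl hR]; split_ifs <;> rfl
    · rw [hps', site_nodeX hs le_rfl _ ha (by have := hlev q; omega)
        (by have := hlev q; split <;> omega)]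
      split_ifs <;> rfl
  have hv : ∀ a, a < T.length →
      (siteX cf (ps'.getD a []) x 1).1 = (siteX cf (ps.getD a []) x 1).1 ∧
      (siteX cf (ps'.getD a []) x 1).2.1 = (siteX cf (ps.getD a []) x 1).2.1 ∧
      ∀ c, c ≠ a₀ → (siteX cf (ps'.getD a []) x 1).2.2.1 c = (siteX cf (ps.getD a []) x 1).2.2.1 c := by
    intro a ha
    rw [hps', site_nodeX hs le_rfl _ ha le_rfl hR]
    split
    · exact ⟨rfl, rfl, fun c hc => Function.update_of_ne hc ..⟩
    · exact ⟨rfl, rfl, fun _ _ => rfl⟩
  have h0 : (siteX cf (ps'.getD r₀ []) x 1) = epsFlip a₀ (siteX cf (ps.getD r₀ []) x 1) := by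
    rw [hps', site_nodeX hs le_rfl _ hr₀ le_rfl hR, if_pos ⟨rfl, by rw [sp_self]; exact hR⟩]
  have hp : ∀ t, phi (β x.1) (spinX cf R (ps'.getD (pos t) [])) (siteX cf (ps'.getD (pos t) []) x) (f t).succ
      = phi (β x.1) (spinX cf R (ps.getD (pos t) [])) (siteX cf (ps.getD (pos t) []) x) (f t).succ := by
    intro t
    rw [hσ]
    exact phi_congr _ (hv _ (hpos t)).1 (fun c hc => (hv _ (hpos t)).2.2 c
      (Fin.succ_injective _ hc ▸ ha₀ t)) (hx _ (hpos t))
  have hprod : ∏ c, sg ((siteX cf (ps'.getD r₀ []) x 1).2.2.1 c) =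
      -∏ c, sg ((siteX cf (ps.getD r₀ []) x 1).2.2.1 c) := by
    rw [← Finset.mul_prod_erase _ _ (mem_univ a₀), ← Finset.mul_prod_erase _ _ (mem_univ a₀),
      Finset.prod_congr rfl fun c hc => by rw [(hv _ hr₀).2.2 c (ne_of_mem_erase hc)]]
    rw [h0]
    simp [epsFlip_apply, sg_not]
  simp only [hp]
  simp only [hmap, psi0, hσ, hprod, (hv _ hr₀).2.1]
  rw [phi_congr (σ := spinX cf R (ps.getD r₀ [])) _ (hv _ hr₀).1
    (fun c hc => absurd hc (Fin.succ_ne_zero c)) (hx _ hr₀)]
  ring

/-- the observable times one copy of every feature gives the kernel -/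
theorem ET_siteX (hw : FreeX w x) (hT : Valid R T) (hR : 1 ≤ R)
    (hlev : ∀ q : Pair (β x.1).k, 1 ≤ (β x.1).lev q.1.1 q.1.2 ∧
      (β x.1).lev q.1.1 q.1.2 < R)
    (pos : Fin ((β x.1).k + 1) → ℕ) (hpos : ∀ a, pos a < T.length)
    (F : List (Fin N → Bool) → ℝ) :
    ET R m w T (fun ps => F (ps.map (spinX cf R)) *
      (psi0 (β x.1) (spinX cf R (ps.getD (pos 0) [])) (siteX cf (ps.getD (pos 0) []) x) *
        ∏ a : Fin (β x.1).k, phi (β x.1) (spinX cf R (ps.getD (pos a.succ) []))
          (siteX cf (ps.getD (pos a.succ) []) x) a.succ)) =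
    (1 / 2) ^ Fintype.card (Pair (β x.1).k) * ET R m w T (fun ps =>
      F (ps.map (spinX cf R)) * kappa (β x.1) R T pos (ps.map (spinX cf R))) := by
  classical
  by_cases hsh : ∀ a : Fin (β x.1).k, 1 ≤ sp R T (pos a.succ) (pos 0)
  swap
  · push Not at hsh
    obtain ⟨a, ha⟩ := hsh
    have hk : ∀ σs : List (Fin N → Bool), kappa (β x.1) R T pos σs = 0 := fun σs => by
      unfold kappa
      rw [Finset.prod_eq_zero (mem_univ (⟨(0, a.succ), Fin.succ_pos a⟩ : Pair (β x.1).k)), mul_zero]
      have := hlev ⟨(0, a.succ), Fin.succ_pos a⟩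
      rw [if_neg]
      rw [sp_symmetric]
      show ¬ sp R T (pos a.succ) (pos 0) = _
      omega
    have hz : ∀ (c : ℝ), ET R m w T (fun _ => c * 0) = 0 := fun c => by
      rw [ET_mul_const, mul_zero]
    simp only [hk]
    rw [show ET R m w T (fun ps => F (ps.map (spinX cf R)) * 0) = 0 by rw [ET_mul_const, mul_zero],
      mul_zero]
    refine ET_oddX hw hT (hpos 0) le_rfl hR (epsFlip a) fun ps hs => ?_
    set ps' := nodeMap R T (pos 0) (1 - 1) (onSiteX x (epsFlip a)) ps with hps'
    have hmap : ps'.map (spinX cf R) = ps.map (spinX cf R) := map_spinX_node _ _ _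
    have hσ : ∀ c, spinX cf R (ps'.getD c []) = spinX cf R (ps.getD c []) := fun c => by
      rw [← getD_spinX, ← getD_spinX, hmap]
    have hv : ∀ c, c < T.length →
        (siteX cf (ps'.getD c []) x 1).1 = (siteX cf (ps.getD c []) x 1).1 ∧
        (siteX cf (ps'.getD c []) x 1).2.1 = (siteX cf (ps.getD c []) x 1).2.1 ∧
        ∀ e, (e ≠ a ∨ sp R T c (pos 0) < 1) →
          (siteX cf (ps'.getD c []) x 1).2.2.1 e = (siteX cf (ps.getD c []) x 1).2.2.1 e := by
      intro c hc
      rw [hps', site_nodeX hs le_rfl _ hc le_rfl hR]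
      split
      next h => exact ⟨rfl, rfl, fun e he => Function.update_of_ne (he.resolve_right (by omega)) ..⟩
      next => exact ⟨rfl, rfl, fun _ _ => rfl⟩
    have hx : ∀ c, c < T.length → ∀ q,
        xiv (β x.1) (siteX cf (ps'.getD c []) x) q = xiv (β x.1) (siteX cf (ps.getD c []) x) q := by
      intro c hc q
      refine xiv_congr _ (hv c hc).2.1 ?_
      rw [hps', site_nodeX hs le_rfl _ hc (by have := hlev q; omega)
        (by have := hlev q; split <;> omega)]
      split_ifs <;> rfl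
    have hp : ∀ e : Fin (β x.1).k,
        phi (β x.1) (spinX cf R (ps'.getD (pos e.succ) [])) (siteX cf (ps'.getD (pos e.succ) []) x) e.succ
        = phi (β x.1) (spinX cf R (ps.getD (pos e.succ) [])) (siteX cf (ps.getD (pos e.succ) []) x) e.succ := by
      intro e
      rw [hσ]
      refine phi_congr _ (hv _ (hpos _)).1 (fun c hc => (hv _ (hpos _)).2.2 c ?_) (hx _ (hpos _))
      rw [Fin.succ_injective _ hc]
      rcases eq_or_ne e a with rfl | hne
      · exact Or.inr ha
      · exact Or.inl hne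
    have h0 : (siteX cf (ps'.getD (pos 0) []) x 1) = epsFlip a (siteX cf (ps.getD (pos 0) []) x 1) := by
      rw [hps', site_nodeX hs le_rfl _ (hpos 0) le_rfl hR, if_pos ⟨rfl, by rw [sp_self]; exact hR⟩]
    have hprod : ∏ c, sg ((siteX cf (ps'.getD (pos 0) []) x 1).2.2.1 c) =
        -∏ c, sg ((siteX cf (ps.getD (pos 0) []) x 1).2.2.1 c) := by
      rw [← Finset.mul_prod_erase _ _ (mem_univ a), ← Finset.mul_prod_erase _ _ (mem_univ a),
        Finset.prod_congr rfl fun c hc => by
          rw [(hv _ (hpos 0)).2.2 c (Or.inl (ne_of_mem_erase hc))]]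
      rw [h0]
      simp [epsFlip_apply, sg_not]
    simp only [hp]
    simp only [hmap, psi0, hσ, hprod, (hv _ (hpos 0)).2.1]
    rw [phi_congr (σ := spinX cf R (ps.getD (pos 0) [])) _ (hv _ (hpos 0)).1
      (fun c hc => absurd hc (Fin.succ_ne_zero c)) (hx _ (hpos 0))]
    ring
  -- all features share their first mark
  set G : Fin N → List (Fin N → Bool) → ℝ := fun v σs => ∏ a, spinF (β x.1) (σs.getD (pos a) default) v a
  set sgn : (Pair (β x.1).k → Bool) → ℝ := fun d => ∏ q, if d q then -1 else 1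
  set s0 : List (List (MarkX C N S β)) → Site N (β x.1).k := fun ps => siteX cf (ps.getD (pos 0) []) x 1
  set good : (Pair (β x.1).k → Bool) → ℝ := fun d => ∏ q : Pair (β x.1).k,
    if (β x.1).lev q.1.1 q.1.2 + (if d q then 1 else 0) ≤ sp R T (pos q.1.1) (pos q.1.2) then 1 else 0
  set X : (Pair (β x.1).k → Bool) → List (List (MarkX C N S β)) → ℝ := fun d ps => ∏ q : Pair (β x.1).k,
    sg ((siteX cf (ps.getD (pos q.1.1) []) x ((β x.1).lev q.1.1 q.1.2 + if d q then 1 else 0)).2.2.2 q) *
    sg ((siteX cf (ps.getD (pos q.1.2) []) x ((β x.1).lev q.1.1 q.1.2 + if d q then 1 else 0)).2.2.2 q)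
  have step1 : ∀ ps, Supp R T ps →
      F (ps.map (spinX cf R)) * (psi0 (β x.1) (spinX cf R (ps.getD (pos 0) [])) (siteX cf (ps.getD (pos 0) []) x) *
        ∏ a : Fin (β x.1).k, phi (β x.1) (spinX cf R (ps.getD (pos a.succ) []))
          (siteX cf (ps.getD (pos a.succ) []) x) a.succ) =
      ∑ d, sgn d * ((if (s0 ps).2.1 = d then (1:ℝ) else 0) *
        (F (ps.map (spinX cf R)) * G (s0 ps).1 (ps.map (spinX cf R))) * X d ps) := by
    intro ps hs
    have h1 : ∀ a, siteX cf (ps.getD (pos a) []) x 1 = siteX cf (ps.getD (pos 0) []) x 1 := by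
      intro a
      induction a using Fin.cases with
      | zero => rfl
      | succ c => exact siteX_agree hs (hpos _) (hpos 0) le_rfl (hsh c)
    rw [feature_prod (β x.1) (fun a => spinX cf R (ps.getD (pos a) []))
      (fun a => siteX cf (ps.getD (pos a) []) x) h1,
      Finset.sum_eq_single (s0 ps).2.1 (fun d _ hd => by rw [if_neg (Ne.symm hd)]; ring) (by simp)]
    simp only [if_true, s0, G, sgn, X, getD_spinX, xiv, h1]
    ring
  rw [ET_congr hT step1, ET_sum]
  simp only [ET_const_mul]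
  have step2 : ∀ d, ET R m w T (fun ps => (if (s0 ps).2.1 = d then (1:ℝ) else 0) *
      (F (ps.map (spinX cf R)) * G (s0 ps).1 (ps.map (spinX cf R))) * X d ps) =
      good d * ET R m w T (fun ps => (if (s0 ps).2.1 = d then (1:ℝ) else 0) *
        (F (ps.map (spinX cf R)) * G (s0 ps).1 (ps.map (spinX cf R)))) := by
    intro d
    by_cases hg : ∀ q : Pair (β x.1).k,
        (β x.1).lev q.1.1 q.1.2 + (if d q then 1 else 0) ≤ sp R T (pos q.1.1) (pos q.1.2)
    · have : good d = 1 := Finset.prod_eq_one fun q _ => if_pos (hg q)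
      rw [this, one_mul]
      refine ET_congr hT fun ps hs => ?_
      have : X d ps = 1 := Finset.prod_eq_one fun q _ => by
        rw [siteX_agree hs (hpos q.1.1) (hpos q.1.2) (by have := hlev q; omega) (hg q), sg_mul_self]
      rw [this, mul_one]
    · push Not at hg
      obtain ⟨q₀, hq₀⟩ := hg
      rw [show good d = 0 from Finset.prod_eq_zero (mem_univ q₀) (if_neg (by omega)), zero_mul]
      set L := (β x.1).lev q₀.1.1 q₀.1.2 + (if d q₀ then 1 else 0)
      have hL : 1 ≤ L ∧ L ≤ R := by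
        have := hlev q₀
        constructor <;> simp only [L] <;> split <;> omega
      refine ET_oddX hw hT (hpos q₀.1.1) hL.1 hL.2 (xiFlip q₀) fun ps hs => ?_
      set ps' := nodeMap R T (pos q₀.1.1) (L - 1) (onSiteX x (xiFlip q₀)) ps with hps'
      have hmap : ps'.map (spinX cf R) = ps.map (spinX cf R) := map_spinX_node _ _ _
      have hs0 : (s0 ps').1 = (s0 ps).1 ∧ (s0 ps').2.1 = (s0 ps).2.1 := by
        simp only [s0, hps']
        rw [site_nodeX hs hL.1 _ (hpos 0) le_rfl hR]
        split <;> exact ⟨rfl, rfl⟩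
      have hX : X d ps' = -X d ps := by
        simp only [X, hps']
        rw [← Finset.mul_prod_erase _ _ (mem_univ q₀), ← Finset.mul_prod_erase _ _ (mem_univ q₀)]
        rw [site_nodeX hs hL.1 _ (hpos _) hL.1 hL.2, site_nodeX hs hL.1 _ (hpos _) hL.1 hL.2,
          if_pos ⟨rfl, by rw [sp_self]; exact hL.2⟩,
          if_neg (fun h => by rw [sp_symmetric] at h; exact absurd h.2 (by omega))]
        have hrest : ∀ q ∈ univ.erase q₀, ∀ c,
            (siteX cf ((nodeMap R T (pos q₀.1.1) (L - 1) (onSiteX x (xiFlip q₀)) ps).getD (pos c) [])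
              x ((β x.1).lev q.1.1 q.1.2 + if d q then 1 else 0)).2.2.2 q =
            (siteX cf (ps.getD (pos c) []) x ((β x.1).lev q.1.1 q.1.2 + if d q then 1 else 0)).2.2.2 q := by
          intro q hq c
          rw [site_nodeX hs hL.1 _ (hpos c) (by have := hlev q; omega)
            (by have := hlev q; split <;> omega)]
          split_ifs <;> first | rfl | exact Function.update_of_ne (ne_of_mem_erase hq) ..
        rw [Finset.prod_congr rfl fun q hq => by rw [hrest q hq, hrest q hq]]
        simp [xiFlip_apply, sg_not, L]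
      rw [hmap, hs0.1, hs0.2, hX, mul_neg]
  simp only [step2]
  -- translation of the position and of `J`
  have step3 : ∀ d, ET R m w T (fun ps => (if (s0 ps).2.1 = d then (1:ℝ) else 0) *
      (F (ps.map (spinX cf R)) * G (s0 ps).1 (ps.map (spinX cf R)))) =
      (1 / 2) ^ Fintype.card (Pair (β x.1).k) *
        ET R m w T (fun ps => F (ps.map (spinX cf R)) * avg fun v => G v (ps.map (spinX cf R))) := by
    intro d
    set H : List (List (MarkX C N S β)) → ℝ := fun ps => (if (s0 ps).2.1 = d then (1:ℝ) else 0) *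
      (F (ps.map (spinX cf R)) * G (s0 ps).1 (ps.map (spinX cf R)))
    have hc : ∀ c : Fin N × (Pair (β x.1).k → Bool), ET R m w T H =
        ET R m w T fun ps => (if (fun q => xor ((s0 ps).2.1 q) (c.2 q)) = d then (1:ℝ) else 0) *
          (F (ps.map (spinX cf R)) * G ((s0 ps).1 + c.1) (ps.map (spinX cf R))) := fun c => by
      rw [ET_nodeMap (fun p => hw (shift c) p (1 - 1)) (show 1 - 1 < R by omega) hT (hpos 0) H]
      refine ET_congr hT fun ps hs => ?_
      simp only [H, map_spinX_node, s0, site_nodeX hs le_rfl _ (hpos 0) le_rfl hR, sp_self,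
        show (1 = 1 ∧ 1 ≤ R) from ⟨rfl, hR⟩, and_self, if_true]
      rfl
    have hN : (0:ℝ) < N := by exact_mod_cast NeZero.pos N
    have key : (N : ℝ) * 2 ^ Fintype.card (Pair (β x.1).k) * ET R m w T H =
        N * ET R m w T (fun ps => F (ps.map (spinX cf R)) * avg fun v => G v (ps.map (spinX cf R))) := by
      have e : ∑ c : Fin N × (Pair (β x.1).k → Bool), ET R m w T H =
          (N : ℝ) * 2 ^ Fintype.card (Pair (β x.1).k) * ET R m w T H := by
        simp
      rw [← e, Finset.sum_congr rfl fun c _ => hc c, ← ET_sum, ← ET_const_mul]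
      congr 1; funext ps
      rw [Fintype.sum_prod_type, avg, Fintype.card_fin]
      have hd : ∀ q', ((fun q => xor ((s0 ps).2.1 q) (q' q)) = d) ↔
          q' = fun q => xor ((s0 ps).2.1 q) (d q) := fun q' => by
        simp only [funext_iff]
        refine forall_congr' fun q => ?_
        cases (s0 ps).2.1 q <;> cases q' q <;> cases d q <;> simp
      simp only [hd, ite_mul, one_mul, zero_mul, Finset.sum_ite_eq', mem_univ, if_true]
      rw [← Equiv.sum_comp (Equiv.addLeft (s0 ps).1) (fun v => G v (ps.map (spinX cf R))), ← Finset.mul_sum]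
      simp only [Equiv.coe_addLeft]
      rw [mul_left_comm, mul_div_cancel₀ _ hN.ne']
    rw [div_pow, one_pow, div_mul_eq_mul_div, one_mul, eq_div_iff (by positivity)]
    nlinarith [mul_left_cancel₀ hN.ne' (show (N:ℝ) * (2 ^ Fintype.card (Pair (β x.1).k) * ET R m w T H) = _ by
      rw [← mul_assoc, key])]
  simp only [step3]
  have hsum : ∑ d, sgn d * good d = ∏ q : Pair (β x.1).k,
      if sp R T (pos q.1.1) (pos q.1.2) = (β x.1).lev q.1.1 q.1.2 then (1:ℝ) else 0 := by
    simp only [sgn, good, ← Finset.prod_mul_distrib]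
    refine (Fintype.prod_sum (fun (q : Pair (β x.1).k) (e : Bool) => (if e then (-1:ℝ) else 1) *
      if (β x.1).lev q.1.1 q.1.2 + (if e then 1 else 0) ≤ sp R T (pos q.1.1) (pos q.1.2) then (1:ℝ) else 0)).symm.trans ?_
    refine prod_congr rfl fun q _ => ?_
    simp only [Fintype.sum_bool, if_true, Bool.false_eq_true, if_false, add_zero]
    split_ifs <;> first | (norm_num; done) | (exfalso; omega)
  simp only [← mul_assoc]
  rw [← Finset.sum_mul, ← Finset.sum_mul, hsum]
  simp only [kappa, G, spinF]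
  rw [mul_comm _ ((1 / 2 : ℝ) ^ _), mul_assoc, ← ET_const_mul]
  congr 2; funext ps; ring

end maps

omit [Fintype ι] [DecidableEq ι] in
lemma abs_obsFX_le {F : List (Fin N → Bool) → ℝ} (hF : ∀ σs, |F σs| ≤ 1)
    (ps : List (List (MarkX C N S β))) : |obsFX cf R x F ps| ≤ 1 := by
  rw [obsFX, abs_mul]
  exact mul_le_one₀ (hF _) (abs_nonneg _) (abs_psi0_le _ _ _)

omit [Fintype ι] [DecidableEq ι] in
lemma obsFX_take {n : ℕ} (hn : 0 < n) (F : List (Fin N → Bool) → ℝ)
    (ps : List (List (MarkX C N S β))) :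
    obsFX cf R x F (ps.take n) = F ((ps.map (spinX cf R)).take n) * obsX cf R x (ps.getD 0 []) := by
  rw [obsFX, List.map_take]
  congr 2
  simp [List.getD_eq_getElem?_getD, hn]

lemma chain_vanishX (hw : FreeX w x) (hT : Valid R T) (hne : T ≠ []) (hR : 1 ≤ R)
    (hlev : ∀ q : Pair (β x.1).k, 1 ≤ (β x.1).lev q.1.1 q.1.2 ∧ (β x.1).lev q.1.1 q.1.2 < R)
    (F : List (Fin N → Bool) → ℝ) {j : ℕ} (hj : j < (β x.1).k) :
    chain R m w (fieldX cf R x) T (obsFX cf R x F) j 0 = 0 := by
  classical
  have hn : 0 < T.length := List.length_pos_iff.2 hne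
  refine List.sum_eq_zero fun z hz => ?_
  obtain ⟨d, hd, rfl⟩ := List.mem_map.1 hz
  obtain ⟨hd1, hd2⟩ := attSeq_mem j hT d hd
  rw [tilt_zero]
  simp only [obsFX_take hn, ← Fin.prod_univ_eq_prod_range, fieldX, Vale.Agent.P168.MP.psiH, Fintype.prod_sum, mul_sum,
    ET_sum]
  refine Finset.sum_eq_zero fun f _ => mul_eq_zero_of_right _ ?_
  obtain ⟨a₀, ha₀⟩ : ∃ a₀, ∀ t, f t ≠ a₀ := by
    by_contra hc
    push Not at hc
    have := Fintype.card_le_of_surjective f hc
    simp at this
    omega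
  refine (congrArg _ (funext fun ps => ?_)).trans (ET_site_zeroX (cf := cf) (m := m) hw hd1 hR
    (show (0:ℕ) < d.1.length by omega) hlev (fun t : Fin j => T.length + t)
    (fun t => by have := t.2; omega) f ha₀ (fun σs => F (σs.take T.length)))
  simp only [obsX]
  ring

lemma chain_topX (hw : FreeX w x) (hT : Valid R T) (hne : T ≠ []) (hR : 1 ≤ R)
    (hlev : ∀ q : Pair (β x.1).k, 1 ≤ (β x.1).lev q.1.1 q.1.2 ∧ (β x.1).lev q.1.1 q.1.2 < R)
    (F : List (Fin N → Bool) → ℝ) :
    chain R m w (fieldX cf R x) T (obsFX cf R x F) (β x.1).k 0 =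
      (1 / 2) ^ Fintype.card (Pair (β x.1).k) * Dk (β x.1) R m w (spinX cf R) T F := by
  classical
  have hn : 0 < T.length := List.length_pos_iff.2 hne
  rw [chain, Dk, ← List.sum_map_mul_left]
  refine congrArg List.sum (List.map_congr_left fun d hd => ?_)
  obtain ⟨hd1, hd2⟩ := attSeq_mem _ hT d hd
  rw [tilt_zero, mul_left_comm]
  congr 1
  simp only [obsFX_take hn, ← Fin.prod_univ_eq_prod_range, fieldX, Vale.Agent.P168.MP.psiH, Fintype.prod_sum, mul_sum,
    ET_sum]
  refine (Fintype.sum_of_injective (fun e : Equiv.Perm (Fin (β x.1).k) => ⇑e.symm)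
    (fun e e' h => Equiv.symm_bijective.injective (Equiv.ext (congrFun h))) _ _ ?_ ?_).symm
  · intro f hf
    obtain ⟨a₀, ha₀⟩ : ∃ a₀, ∀ t, f t ≠ a₀ := by
      by_contra hc
      push Not at hc
      have hb : Function.Bijective f := Finite.surjective_iff_bijective.1 hc
      exact hf ⟨(Equiv.ofBijective f hb).symm, by simp⟩
    refine (congrArg _ (funext fun ps => ?_)).trans (ET_site_zeroX (cf := cf) (m := m) hw hd1 hR
      (show (0:ℕ) < d.1.length by omega) hlev (fun t : Fin (β x.1).k => T.length + (t : ℕ))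
      (fun t => by have := t.2; omega) f ha₀ (fun σs => F (σs.take T.length)))
    simp only [obsX]
    ring
  · intro e
    have h := ET_siteX (cf := cf) (m := m) hw hd1 hR hlev (posOf T.length e) (fun a => by
        induction a using Fin.cases with
        | zero => simp [posOf]; omega
        | succ c => simp [posOf]; have := (e c).2; omega) (fun σs => F (σs.take T.length))
    simp only [posOf, Fin.cons_zero, Fin.cons_succ] at h
    simp only [List.map_take, posOf]
    rw [← h]
    congr 1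
    funext ps
    rw [← Equiv.prod_comp e (fun t => phi (β x.1) (spinX cf R (ps.getD (T.length + (t : ℕ)) []))
      (siteX cf (ps.getD (T.length + (t : ℕ)) []) x) (e.symm t).succ)]
    simp only [Equiv.symm_apply_apply, obsX]
    ring

/-- B2: exchangeX -/
theorem exchangeX (hok : Ok R m (pwX (S := S) (β := β) cf R W h u)) (j : ι) (a : Fin S)
    {T : List (ℕ × ℕ)} (hT : Valid R T) (hne : T ≠ [])
    {F : List (Fin N → Bool) → ℝ} (hF : ∀ σs, |F σs| ≤ 1) :
    |ET R m (pwX (S := S) (β := β) cf R W h u) T (fun ps => F (ps.map (spinX cf R)) *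
        psi0 (β j) (spinX cf R (ps.getD 0 [])) (siteX cf (ps.getD 0 []) (j, a))) -
      ET R m (pwX (S := S) (β := β) cf R W h u) T (fun ps => F (ps.map (spinX cf R))) *
        (mean1 R m (pwX (S := S) (β := β) cf R W h u) (batchSumX cf R j) / S)| ≤
      mad R m (pwX (S := S) (β := β) cf R W h u) (batchSumX cf R j) / S := by
  set w := pwX (S := S) (β := β) cf R W h u
  set D := batchSumX (N := N) (S := S) (β := β) cf R j with hD
  have hS : (0:ℝ) < S := by exact_mod_cast a.pos
  set X : Fin S → ℝ := fun c => ET R m w T fun ps => F (ps.map (spinX cf R)) *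
    psi0 (β j) (spinX cf R (ps.getD 0 [])) (siteX cf (ps.getD 0 []) (j, c))
  have hX : ∀ c, X c = X a := fun c => by
    simp only [X]
    rw [ET_map (e := swapX j a c) (fun p => pwX_swap j a c p)]
    refine congrArg _ (funext fun ps => ?_)
    have e1 : (ps.map (List.map (swapX j a c))).map (spinX cf R) = ps.map (spinX cf R) := by
      simp [List.map_map, Function.comp_def, spinX_swap]
    have e2 : (ps.map (List.map (swapX j a c))).getD 0 [] = (ps.getD 0 []).map (swapX j a c) := by
      conv_lhs => rw [show ([] : List (MarkX C N S β)) = List.map (swapX j a c) [] from rfl]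
      rw [List.getD_map]
    rw [e1, e2, spinX_swap, siteX_swap_right]
  have hsum : ET R m w T (fun ps => F (ps.map (spinX cf R)) * D (ps.getD 0 [])) = S * X a := by
    simp only [hD, batchSumX_eq, mul_sum, ET_sum]
    rw [Finset.sum_congr rfl fun c _ => hX c]
    simp
  have hmain : |S * X a - ET R m w T (fun ps => F (ps.map (spinX cf R))) * mean1 R m w D| ≤
      mad R m w D := by
    rw [← hsum, ← ET_mul_const, ← ET_sub]
    refine (ET_abs_le hok.wpos _ _).trans ?_
    rw [mad, ← ET_first hok.wpos hT hne fun p => |D p - mean1 R m w D|]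
    refine ET_mono hok.wpos fun ps => ?_
    rw [← mul_sub, abs_mul]
    exact mul_le_of_le_one_left (abs_nonneg _) (hF _)
  rw [show X a - _ * (mean1 R m w D / S) =
    (S * X a - ET R m w T (fun ps => F (ps.map (spinX cf R))) * mean1 R m w D) / S by field_simp,
    abs_div, abs_of_pos hS]
  exact div_le_div_of_nonneg_right hmain hS.le

lemma pwX_isolate (x : ι × Fin S) :
    pwX (β := β) cf R W h u =
      tilt (tilt (pwFreeX cf R W h u x) (fieldX cf R x) (h x.1)) (obsX cf R x) (u x.1) := by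
  funext p
  rw [pwX, tilt, tilt, pwFreeX, ← Finset.add_sum_erase _ _ (mem_univ x), gain1_X, Real.exp_add,
    Real.exp_add, fieldX, obsX]
  ring

/-- linking with B1: the tilt by the sum over a batch -/
lemma pwX_tilt (j : ι) :
    pwX (S := S) (β := β) cf R W h u =
      tilt (pwX cf R W h (Function.update u j 0)) (batchSumX cf R j) (u j) := by
  funext p
  have e : ∑ i : ι × Fin S, gain1 R h u (p.map (plain cf)) i =
      ∑ i : ι × Fin S, gain1 R h (Function.update u j 0) (p.map (plain cf)) i + u j * batchSumX cf R j p := by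
    rw [Fintype.sum_prod_type, Fintype.sum_prod_type, ← Finset.add_sum_erase _ _ (mem_univ j),
      ← Finset.add_sum_erase _ _ (mem_univ j), Finset.sum_congr rfl fun c hc =>
        Finset.sum_congr rfl fun i _ => show gain1 R h u (p.map (plain cf)) (c, i) =
          gain1 R h (Function.update u j 0) (p.map (plain cf)) (c, i) by
            rw [gain1, gain1, Function.update_of_ne (ne_of_mem_erase hc)]]
    simp only [batchSumX_eq, gain1_X, Function.update_self, mul_sum, zero_mul, add_zero,
      Finset.sum_add_distrib]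
    ring
  rw [pwX, tilt, pwX, e, Real.exp_add]
  ring

/-- IDENTITY -/
theorem identityX (hok : Ok R m (pwX (S := S) (β := β) cf R W h u)) (hS : 0 < S) (j : ι)
    (hlev : ∀ q : Pair (β j).k, 1 ≤ (β j).lev q.1.1 q.1.2 ∧ (β j).lev q.1.1 q.1.2 < R)
    (hR : 1 ≤ R) (hh0 : 0 < h j) (hh1 : h j ≤ 1) {T : List (ℕ × ℕ)} (hT : Valid R T) (hne : T ≠ [])
    {n : ℕ} (hn : T.length ≤ n) {F : List (Fin N → Bool) → ℝ} (hF : ∀ σs, |F σs| ≤ 1) :
    |Dk (β j) R m (pwX (S := S) (β := β) cf R W h u) (spinX cf R) T F -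
        ET R m (pwX (S := S) (β := β) cf R W h u) T (fun ps => F (ps.map (spinX cf R))) *
          Dk (β j) R m (pwX (S := S) (β := β) cf R W h u) (spinX cf R) [(0, 0)] (fun _ => 1)| ≤
      identConst R (β j).k n * (mad R m (pwX (S := S) (β := β) cf R W h u) (batchSumX cf R j) /
        (S * h j ^ (β j).k) + |u j| / h j ^ (β j).k + h j) := by
  set x : ι × Fin S := (j, ⟨0, hS⟩) with hx
  set w := pwX (S := S) (β := β) cf R W h u with hw
  set w0 := pwFreeX cf (β := β) R W h u x with hw0
  have hok0 : Ok R m w0 := ⟨hok.pos, hok.mono, hok.top, hok.last, fun p => by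
    have := hok.wpos p
    rw [hw, pwX] at this
    exact mul_pos ((mul_pos_iff_of_pos_right (Real.exp_pos _)).1 this) (Real.exp_pos _)⟩
  set k := (β j).k with hk
  set H := h j
  set U := u j
  have hiso : w = tilt (tilt w0 (fieldX cf R x) H) (obsX cf R x) U := pwX_isolate x
  have hok1 : Ok R m (tilt w0 (fieldX cf R x) H) := hok0.tilt _ _
  have hg : ∀ p : List (MarkX C N S β), |fieldX cf R x p| ≤ (k : ℝ) := fun p => abs_psiH_le _ _ _
  have hp0 : ∀ p : List (MarkX C N S β), |obsX cf R x p| ≤ 1 := fun p => abs_psi0_le _ _ _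
  have hn1 : 1 ≤ n := le_trans (List.length_pos_iff.2 hne) hn
  -- changing from the free weight to the full one
  have hchange : ∀ T' : List (ℕ × ℕ), Valid R T' → ∀ H' : List (List (MarkX C N S β)) → ℝ,
      (∀ ps, |H' ps| ≤ 1) →
      |ET R m w T' H' - ET R m w0 T' H'| ≤ seqBound R 1 T'.length * ((k + 1) * (H + |U|)) := by
    intro T' hT' H' hH'
    have a := abs_ET_tilt_sub hok1 hT' hH' hp0 U
    have b := abs_ET_tilt_sub hok0 hT' hH' hg H
    rw [← hiso] at a
    rw [abs_of_pos hh0] at b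
    have hs := seqBound_nonneg R 1 T'.length
    refine (abs_sub_le _ (ET R m (tilt w0 (fieldX cf R x) H) T' H') _).trans ((add_le_add a b).trans ?_)
    have h1 : 0 ≤ seqBound R 1 T'.length * |U| * k := by positivity
    have h2 : 0 ≤ seqBound R 1 T'.length * H := mul_nonneg hs hh0.le
    nlinarith
  -- Taylor expansion of the exchanged quantity
  set c : ℝ := H ^ k / k.factorial * (1 / 2) ^ Fintype.card (Pair k) with hc
  have hcpos : 0 < c := by positivity
  set e : ℝ := seqBound R 1 n * |U| + seqBound R (k + 1) n * (k : ℝ) ^ (k + 1) * H ^ (k + 1) with he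
  have hexp : ∀ (T' : List (ℕ × ℕ)), Valid R T' → T' ≠ [] → T'.length ≤ n →
      ∀ F' : List (Fin N → Bool) → ℝ, (∀ σs, |F' σs| ≤ 1) →
      |ET R m w T' (obsFX cf R x F') - c * Dk (β j) R m w0 (spinX cf R) T' F'| ≤ e := by
    intro T' hT' hne' hn' F' hF'
    have a := abs_ET_tilt_sub hok1 hT' (abs_obsFX_le (cf := cf) (x := x) (R := R) hF') hp0 U
    rw [← hiso] at a
    have b := taylor_bound k (chain R m w0 (fieldX cf R x) T' (obsFX cf R x F')) hh0.le
      (fun i _ s _ => hasDerivAt_chain hok0 hT' _ i s)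
      (fun s _ => abs_chain_le hok0 hT' (abs_obsFX_le (cf := cf) hF') hg (k + 1) s)
      (fun i hi => chain_vanishX (pwFreeX_free R W h u x) hT' hne' hR hlev F' hi)
    rw [chain_zero hT', chain_topX (pwFreeX_free R W h u x) hT' hne' hR hlev F'] at b
    have e1 := seqBound_mono R 1 hn'
    have e2 := seqBound_mono R (k + 1) hn'
    refine (abs_sub_le _ (ET R m (tilt w0 (fieldX cf R x) H) T' (obsFX cf R x F')) _).trans ?_
    refine add_le_add (a.trans ?_) ((le_of_eq ?_).trans (b.trans ?_))
    · rw [one_mul, mul_one]; gcongr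
    · rw [hc, mul_assoc]
    · rw [one_mul]; gcongr
  -- exchangeX
  have hex := exchangeX hok j (⟨0, hS⟩ : Fin S) hT hne hF
  have hone : ET R m w [(0, 0)] (obsFX cf R x fun _ => 1) = mean1 R m w (batchSumX cf R j) / S := by
    have h1 := exchangeX hok j (⟨0, hS⟩ : Fin S) (T := [(0, 0)]) valid_single (by simp)
      (F := fun _ => 1) (by simp)
    have h2 : ∀ i : Fin S, ET R m w [(0, 0)] (fun ps => psi0 (β j) (spinX cf R (ps.getD 0 []))
        (siteX cf (ps.getD 0 []) (j, i))) = ET R m w [(0, 0)] (fun ps => psi0 (β j)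
          (spinX cf R (ps.getD 0 [])) (siteX cf (ps.getD 0 []) (j, (⟨0, hS⟩ : Fin S)))) := by
      intro i
      rw [ET_map (e := swapX j (⟨0, hS⟩ : Fin S) i) (fun p => pwX_swap j _ i p)]
      refine ET_congr valid_single fun ps hs => ?_
      obtain ⟨q, rfl⟩ : ∃ q, ps = [q] := List.length_eq_one_iff.1 hs.1
      simp [spinX_swap, siteX_swap_right]
    have hS' : (S : ℝ) ≠ 0 := by positivity
    rw [eq_div_iff hS', mean1]
    simp only [batchSumX_eq, ET_sum, Finset.sum_congr rfl fun i _ => h2 i]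
    have e : (obsFX cf R x (fun _ => 1) : List (List (MarkX C N S β)) → ℝ) = fun ps =>
        psi0 (β j) (spinX cf R (ps.getD 0 [])) (siteX cf (ps.getD 0 []) (j, (⟨0, hS⟩ : Fin S))) := by
      funext ps; simp [obsFX, obsX]; rfl
    rw [e]; simp [mul_comm]
  set A := Dk (β j) R m w0 (spinX cf R) T F
  set B := Dk (β j) R m w0 (spinX cf R) [(0, 0)] (fun _ => 1)
  set E := ET R m w T (fun ps => F (ps.map (spinX cf R)))
  have hE : |E| ≤ 1 := ET_bound hok.wpos fun _ => hF _
  have hM := mad_nonneg hok (batchSumX cf R j)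
  set M := mad R m w (batchSumX cf R j)
  have hA : |A - E * B| ≤ (M / S + 2 * e) / c := by
    have a := hexp T hT hne hn F hF
    have b := hexp [(0, 0)] valid_single (by simp) (by simpa using hn1) (fun _ => 1) (by simp)
    rw [hone] at b
    have a' : |ET R m w T (obsFX cf R x F) - E * (mean1 R m w (batchSumX cf R j) / S)| ≤ M / S := hex
    rw [le_div_iff₀ hcpos]
    have := abs_le.1 a; have := abs_le.1 a'
    have hb' : |E * (mean1 R m w (batchSumX cf R j) / S) - E * (c * B)| ≤ e := by
      rw [← mul_sub, abs_mul]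
      exact (mul_le_of_le_one_left (abs_nonneg _) hE).trans b
    have := abs_le.1 hb'
    rw [show |A - E * B| * c = |c * A - E * (c * B)| by
      rw [← abs_of_pos hcpos, ← abs_mul, abs_of_pos hcpos]; ring_nf]
    rw [abs_le]; constructor <;> linarith
  have hdA : ∀ T' : List (ℕ × ℕ), Valid R T' → T'.length ≤ n → ∀ F' : List (Fin N → Bool) → ℝ,
      (∀ σs, |F' σs| ≤ 1) → |Dk (β j) R m w (spinX cf R) T' F' - Dk (β j) R m w0 (spinX cf R) T' F'| ≤
        dkConst R k n * (H + |U|) := by
    intro T' hT' hn' F' hF'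
    refine (abs_Dk_sub hok0 (β j) hT' hF' (δ := seqBound R 1 (n + k) * ((k + 1) * (H + |U|)))
      (mul_nonneg (seqBound_nonneg _ _ _) (by positivity))
      fun T'' hT'' hlen H' hH' => (hchange T'' hT'' H' hH').trans ?_).trans ?_
    · have := seqBound_mono R 1 (show T''.length ≤ n + k by omega)
      have : (0:ℝ) ≤ (k + 1) * (H + |U|) := by positivity
      gcongr
    · unfold dkConst
      have hmk := seqBound_mono R k hn'
      have := seqBound_nonneg R 1 (n + k)
      have hp : 0 ≤ (k.factorial : ℝ) * (seqBound R 1 (n + k) * ((k + 1) * (H + |U|))) := by positivity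
      calc seqBound R (β j).k T'.length * (β j).k.factorial *
            (seqBound R 1 (n + k) * ((k + 1) * (H + |U|)))
          = seqBound R k T'.length * (k.factorial * (seqBound R 1 (n + k) * ((k + 1) * (H + |U|)))) := by
            ring
        _ ≤ seqBound R k n * (k.factorial * (seqBound R 1 (n + k) * ((k + 1) * (H + |U|)))) :=
            mul_le_mul_of_nonneg_right hmk hp
        _ = _ := by ring
  have dA := abs_le.1 (hdA T hT hn F hF)
  have dB : |E * Dk (β j) R m w (spinX cf R) [(0, 0)] (fun _ => 1) - E * B| ≤ dkConst R k n * (H + |U|) := by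
    rw [← mul_sub, abs_mul]
    exact (mul_le_of_le_one_left (abs_nonneg _) hE).trans
      (hdA _ valid_single (by simpa using hn1) _ (by simp))
  have dB := abs_le.1 dB
  have hA' := abs_le.1 hA
  set err := M / (S * H ^ k) + |U| / H ^ k + H with herr
  have hHk : 0 < H ^ k := pow_pos hh0 k
  have hHk1 : H ^ k ≤ 1 := pow_le_one₀ hh0.le hh1
  have t1 : 0 ≤ M / (S * H ^ k) := by positivity
  have t2 : |U| ≤ |U| / H ^ k := le_div_self (abs_nonneg _) hHk hHk1
  have hHU : H + |U| ≤ err := by rw [herr]; linarith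
  have hK : 0 ≤ dkConst R k n := by unfold dkConst seqBound; positivity
  have hmain : (M / S + 2 * e) / c ≤ 2 ^ Fintype.card (Pair k) * k.factorial *
      (1 + 2 * seqBound R 1 n + 2 * (seqBound R (k + 1) n * (k : ℝ) ^ (k + 1))) * err := by
    have key : (M / S + 2 * e) / c = 2 ^ Fintype.card (Pair k) * k.factorial *
        (M / (S * H ^ k) + 2 * seqBound R 1 n * (|U| / H ^ k) +
          2 * (seqBound R (k + 1) n * (k : ℝ) ^ (k + 1)) * H) := by
      rw [he, hc, div_pow, one_pow]; field_simp; ring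
    rw [key, mul_assoc _ (1 + 2 * seqBound R 1 n + _)]
    refine mul_le_mul_of_nonneg_left ?_ (by positivity)
    have q1 := seqBound_nonneg R 1 n
    have q2 : 0 ≤ seqBound R (k + 1) n * (k : ℝ) ^ (k + 1) :=
      mul_nonneg (seqBound_nonneg _ _ _) (by positivity)
    have t3 : 0 ≤ |U| / H ^ k := by positivity
    rw [herr]
    nlinarith [mul_nonneg q1 t1, mul_nonneg q1 hh0.le, mul_nonneg q2 t1, mul_nonneg q2 t3]
  have hkk : dkConst R k n * (H + |U|) ≤ dkConst R k n * err := mul_le_mul_of_nonneg_left hHU hK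
  have herr0 : 0 ≤ dkConst R k n * err := le_trans (by positivity) hkk
  rw [show identConst R k n * err = 2 ^ Fintype.card (Pair k) * k.factorial *
      (1 + 2 * seqBound R 1 n + 2 * (seqBound R (k + 1) n * (k : ℝ) ^ (k + 1))) * err +
      4 * (dkConst R k n * err) by unfold identConst; ring, abs_le]
  constructor <;> linarith [dA.1, dA.2, dB.1, dB.2, hA'.1, hA'.2]

/-- the identities for the full family imply the hypothesis of section C -/
theorem ident_of_errX {kmax : ℕ} {h u : BIdx R kmax → ℝ}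
    (hok : Ok R m (pwX (S := S) (β := allBatch R kmax) cf R W h u)) (hS : 0 < S) (hR : 1 ≤ R)
    (hh : ∀ i, 0 < h i ∧ h i ≤ 1) {E : ℝ}
    (hE : ∀ i : BIdx R kmax, identConst R (i.1 : ℕ) (kmax + 1) *
      (mad R m (pwX (S := S) (β := allBatch R kmax) cf R W h u) (batchSumX cf R i) /
        (S * h i ^ (i.1 : ℕ)) + |u i| / h i ^ (i.1 : ℕ) + h i) ≤ E) :
    Ident R m (pwX (S := S) (β := allBatch R kmax) cf R W h u) (spinX cf R) kmax E := by
  classical
  rintro ⟨k, lev, spin⟩ hk hlev T hT hne hn F hF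
  set i : BIdx R kmax := ⟨⟨k, Nat.lt_succ_of_le hk⟩,
    (fun q => ⟨lev q.1.1 q.1.2, (hlev q).2⟩, spin)⟩
  have hl : ∀ q : Pair k, lev q.1.1 q.1.2 = (allBatch R kmax i).lev q.1.1 q.1.2 := fun q => by
    simp [allBatch, i, q.2]
  have hid := identityX hok hS i (fun q => by rw [← hl q]; exact hlev q) hR (hh i).1 (hh i).2 hT hne hn hF
  rw [Dk_congr hl, Dk_congr hl]
  exact hid.trans (hE i)

/-- concentration on the grid -/
theorem grid_madX (hm : ∀ (w : List (MarkX C N S β) → ℝ), (∀ p, 0 < w p) → Ok R m w) (hR : 1 ≤ R)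
    (hS : 0 < S) {W : List C → ℝ} (hW : ∀ p, 0 < W p) (h : ι → ℝ) (j : ι) {ub : ℝ}
    (hub : 0 < ub) {M : ℕ} (hM : 0 < M) :
    avg (fun g : ι → Fin M =>
        mad R m (pwX (S := S) (β := β) cf R W h (gu ub M g)) (batchSumX cf R j)) ≤
      √(2 * S * ub / m 1) / ub + 3 * seqBound R 1 1 * (S:ℝ) ^ 2 * ub / M := by
  have : NeZero M := ⟨hM.ne'⟩
  rw [← avg_equiv (Equiv.piSplitAt j fun _ : ι => Fin M).symm, avg_prod_eq]
  have hcomm : ∀ (F : Fin M → ({c // c ≠ j} → Fin M) → ℝ),
      (avg fun a => avg fun r => F a r) = avg fun r => avg fun a => F a r := fun F => by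
    simp only [avg, ← sum_div]
    rw [Finset.sum_comm, div_div, div_div, mul_comm]
  rw [hcomm]
  refine (avg_le_avg fun r => ?_).trans_eq (avg_const _)
  set u0 : ι → ℝ := Function.update
    (gu ub M ((Equiv.piSplitAt j fun _ : ι => Fin M).symm (⟨0, hM⟩, r))) j 0
  have hw : ∀ a : Fin M, pwX (S := S) (β := β) cf R W h
      (gu ub M ((Equiv.piSplitAt j fun _ : ι => Fin M).symm (a, r))) =
      tilt (pwX cf R W h u0) (batchSumX cf R j) (ub * ((a : ℕ) + 1 : ℝ) / M) := fun a => by
    rw [pwX_tilt j]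
    congr 1
    · congr 1
      funext c
      by_cases hc : c = j
      · subst hc; simp [u0]
      · simp [u0, gu, Equiv.piSplitAt, hc]
    · simp [gu, Equiv.piSplitAt]
  simp only [hw]
  have hok : Ok R m (pwX (S := S) (β := β) cf R W h u0) := hm _ fun p => mul_pos (hW _) (exp_pos _)
  have hcont : Continuous fun x => mad R m (tilt (pwX (S := S) (β := β) cf R W h u0) (batchSumX cf R j) x)
      (batchSumX cf R j) :=
    (LipschitzWith.of_dist_le' fun x y => by
      simpa [Real.dist_eq] using abs_mad_sub hok (abs_batchSumX_le cf R j) x y).continuous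
  refine (riemann_le (fun x y => abs_mad_sub hok (abs_batchSumX_le cf R j) x y) hcont hub hM).trans ?_
  refine add_le_add (div_le_div_of_nonneg_right ?_ hub.le) le_rfl
  exact concentration hok hR (abs_batchSumX_le cf R j) (by exact_mod_cast hS) hub

/-- sum of the identityX errors of all batches -/
noncomputable def errSumX {kmax : ℕ} (cf : C → Fin N → Bool) (R S : ℕ) (m : ℕ → ℝ) (W : List C → ℝ)
    (h u : BIdx R kmax → ℝ) : ℝ :=
  ∑ i : BIdx R kmax, identConst R (i.1 : ℕ) (kmax + 1) *
    (mad R m (pwX (S := S) (β := allBatch R kmax) cf R W h u) (batchSumX cf R i) /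
      (S * h i ^ (i.1 : ℕ)) + |u i| / h i ^ (i.1 : ℕ) + h i)

omit [DecidableEq ι] [Fintype ι] in
theorem ident_errSumX {kmax : ℕ} {W : List C → ℝ} {h u : BIdx R kmax → ℝ}
    (hok : Ok R m (pwX (S := S) (β := allBatch R kmax) cf R W h u)) (hS : 0 < S) (hR : 1 ≤ R)
    (hh : ∀ i, 0 < h i ∧ h i ≤ 1) :
    0 ≤ errSumX cf R S m W h u ∧ Ident R m (pwX (S := S) (β := allBatch R kmax) cf R W h u) (spinX cf R) kmax
      (errSumX cf R S m W h u) := by
  have h0 : ∀ i : BIdx R kmax, 0 ≤ identConst R (i.1 : ℕ) (kmax + 1) *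
      (mad R m (pwX (S := S) (β := allBatch R kmax) cf R W h u) (batchSumX cf R i) /
        (S * h i ^ (i.1 : ℕ)) + |u i| / h i ^ (i.1 : ℕ) + h i) := fun i => by
    have := mad_nonneg hok (batchSumX cf R i)
    have := (hh i).1
    exact mul_nonneg (identConst_nonneg _ _ _) (by positivity)
  exact ⟨sum_nonneg fun i _ => h0 i, ident_of_errX hok hS hR hh fun i =>
    single_le_sum (f := fun i => _) (fun i _ => h0 i) (mem_univ i)⟩

omit [DecidableEq ι] [Fintype ι] in
lemma grid_termX {kmax : ℕ} (hR : 1 ≤ R) {W : List C → ℝ} (hW : ∀ p, 0 < W p) {M : ℕ}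
    (i : BIdx R kmax) {h ub q : ℝ} (hh : 0 < h) (hh1 : h ≤ 1) (hub : 0 < ub) (hq : 0 ≤ q)
    (hS : 0 < S) (hM : 0 < M) (hubq : ub ≤ q * h ^ kmax) (hhq : h ≤ q)
    (hmad : avg (fun g : BIdx R kmax → Fin M =>
      mad R (lin R) (pwX (S := S) (β := allBatch R kmax) cf R W (fun _ => h) (gu ub M g)) (batchSumX cf R i)) ≤
        2 * (q * h ^ kmax) * S) :
    avg (fun g : BIdx R kmax → Fin M => identConst R (i.1 : ℕ) (kmax + 1) *
      (mad R (lin R) (pwX (S := S) (β := allBatch R kmax) cf R W (fun _ => h) (gu ub M g)) (batchSumX cf R i) /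
        (S * h ^ (i.1 : ℕ)) + |gu ub M g i| / h ^ (i.1 : ℕ) + h)) ≤
      identConst R (i.1 : ℕ) (kmax + 1) * (4 * q) := by
  have : NeZero M := ⟨hM.ne'⟩
  have hC := identConst_nonneg R (i.1 : ℕ) (kmax + 1)
  obtain ⟨k, hk⟩ : ∃ k, k = (i.1 : ℕ) := ⟨_, rfl⟩
  have hkm : k ≤ kmax := hk ▸ Nat.le_of_lt_succ i.1.isLt
  simp only [← hk] at hC ⊢
  have hHk : h ^ kmax ≤ h ^ k := pow_le_pow_of_le_one hh.le hh1 hkm
  have hH : 0 < h ^ kmax := pow_pos hh _
  have hS' : (0:ℝ) < S := Nat.cast_pos.2 hS
  refine (avg_le_avg (g := fun g : BIdx R kmax → Fin M => identConst R k (kmax + 1) *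
    (mad R (lin R) (pwX (S := S) (β := allBatch R kmax) cf R W (fun _ => h) (gu ub M g)) (batchSumX cf R i) *
      (1 / (S * h ^ kmax)) + (q + q))) fun g => ?_).trans ?_
  · refine mul_le_mul_of_nonneg_left ?_ hC
    have hmad0 := mad_nonneg (ok_lin hR (w := pwX (S := S) (β := allBatch R kmax) cf R W (fun _ => h)
      (gu ub M g)) fun p => mul_pos (hW _) (exp_pos _)) (batchSumX cf R i)
    rw [add_assoc, mul_one_div]
    refine add_le_add (div_le_div_of_nonneg_left hmad0 (by positivity)
      (mul_le_mul_of_nonneg_left hHk hS'.le)) (add_le_add ?_ hhq)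
    rw [abs_of_pos (gu_mem hub g i).1, div_le_iff₀ (pow_pos hh _)]
    exact ((gu_mem hub g i).2.trans hubq).trans (mul_le_mul_of_nonneg_left hHk hq)
  · rw [avg_affine]
    refine mul_le_mul_of_nonneg_left ?_ hC
    have := mul_le_mul_of_nonneg_right hmad (show (0:ℝ) ≤ 1 / (S * h ^ kmax) by positivity)
    have e : 2 * (q * h ^ kmax) * S * (1 / (S * h ^ kmax)) = 2 * q := by field_simp
    linarith

omit [DecidableEq ι] [Fintype ι] in
/-- the parameters: the mean error over the grid is small, uniformly in `N` and `W` -/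
theorem grid_paramsX (R kmax : ℕ) (hR : 1 ≤ R) {ε : ℝ} (hε : 0 < ε) :
    ∃ (S M : ℕ) (h ub : ℝ), 0 < S ∧ 0 < M ∧ 0 < h ∧ h ≤ 1 ∧ 0 < ub ∧ ub ≤ 1 ∧
      ∀ (N : ℕ) [NeZero N] (C : Type) [Fintype C] [Nonempty C] (cf : C → Fin N → Bool) (W : List C → ℝ),
        (∀ p, 0 < W p) →
        avg (fun g : BIdx R kmax → Fin M =>
          errSumX cf R S (lin R) W (fun _ => h) (gu ub M g)) ≤ ε := by
  set Ct : ℝ := ∑ i : BIdx R kmax, identConst R (i.1 : ℕ) (kmax + 1) + 1
  have hCt : 0 < Ct := add_pos_of_nonneg_of_pos (sum_nonneg fun i _ => identConst_nonneg _ _ _) one_pos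
  set q := ε / (4 * Ct)
  have hq : 0 < q := by positivity
  set h := min 1 q
  have hh : 0 < h := lt_min one_pos hq
  have hh1 : h ≤ 1 := min_le_left _ _
  set H := h ^ kmax
  have hH : 0 < H := pow_pos hh _
  set ub := min 1 (q * H)
  have hub : 0 < ub := lt_min one_pos (mul_pos hq hH)
  set δ := q * H
  have hδ : 0 < δ := mul_pos hq hH
  have hm1 : (0:ℝ) < lin R 1 := (ok_lin (Ω := ℕ) hR (w := fun _ => 1) fun _ => one_pos).pos 1 le_rfl hR
  obtain ⟨S, hS⟩ := exists_nat_gt (max 1 (2 / (δ ^ 2 * ub * lin R 1)))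
  have hS0 : (0:ℝ) < S := lt_of_le_of_lt (le_trans zero_le_one (le_max_left _ _)) hS
  obtain ⟨M, hM⟩ := exists_nat_gt (max 1 (3 * seqBound R 1 1 * (S:ℝ) * ub / δ))
  have hM0 : (0:ℝ) < M := lt_of_le_of_lt (le_trans zero_le_one (le_max_left _ _)) hM
  refine ⟨S, M, h, ub, Nat.cast_pos.1 hS0, Nat.cast_pos.1 hM0, hh, hh1, hub, min_le_left _ _,
    fun N _ C _ _ cf W hW => ?_⟩
  have : NeZero M := ⟨(Nat.cast_pos.1 hM0).ne'⟩
  have hmad : ∀ i : BIdx R kmax, avg (fun g : BIdx R kmax → Fin M =>
      mad R (lin R) (pwX (S := S) (β := allBatch R kmax) cf R W (fun _ => h) (gu ub M g)) (batchSumX cf R i)) ≤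
        2 * δ * S := by
    intro i
    refine (grid_madX (cf := cf) (fun w hw => ok_lin hR hw) hR (Nat.cast_pos.1 hS0) hW _ i hub
      (Nat.cast_pos.1 hM0)).trans ?_
    have h1 : √(2 * S * ub / lin R 1) / ub ≤ δ * S := by
      rw [div_le_iff₀ hub, sqrt_le_left (by positivity), div_le_iff₀ hm1]
      have := (le_max_right _ _).trans hS.le
      rw [div_le_iff₀ (by positivity)] at this
      calc 2 * S * ub ≤ (S * (δ ^ 2 * ub * lin R 1)) * S * ub := by gcongr
        _ = _ := by ring
    have h2 : 3 * seqBound R 1 1 * (S:ℝ) ^ 2 * ub / M ≤ δ * S := by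
      have := (le_max_right _ _).trans hM.le
      rw [div_le_iff₀ hδ] at this
      rw [div_le_iff₀ hM0]
      calc 3 * seqBound R 1 1 * (S:ℝ) ^ 2 * ub = 3 * seqBound R 1 1 * S * ub * S := by ring
        _ ≤ M * δ * S := by gcongr
        _ = _ := by ring
    linarith
  have hterm := fun i => grid_termX (cf := cf) (N := N) (S := S) (kmax := kmax) hR hW (M := M) i hh hh1 hub
    hq.le (Nat.cast_pos.1 hS0) (Nat.cast_pos.1 hM0) (min_le_right _ _) (min_le_right _ _) (hmad i)
  calc avg (fun g : BIdx R kmax → Fin M => errSumX cf R S (lin R) W (fun _ => h) (gu ub M g))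
      = ∑ i : BIdx R kmax, avg (fun g : BIdx R kmax → Fin M => identConst R (i.1 : ℕ) (kmax + 1) *
        (mad R (lin R) (pwX (S := S) (β := allBatch R kmax) cf R W (fun _ => h) (gu ub M g)) (batchSumX cf R i) /
          (S * h ^ (i.1 : ℕ)) + |gu ub M g i| / h ^ (i.1 : ℕ) + h)) := by
        simp only [avg, errSumX]; rw [Finset.sum_comm, sum_div]
    _ ≤ ∑ i : BIdx R kmax, identConst R (i.1 : ℕ) (kmax + 1) * (4 * q) := sum_le_sum fun i _ => hterm i
    _ = (Ct - 1) * (4 * q) := by rw [← sum_mul]; simp [Ct]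
    _ ≤ Ct * (4 * q) := by nlinarith
    _ = ε := by simp only [q]; field_simp

/-- uniformly in the marks and the weight, the mean deviation over the grid is small -/
theorem grid_repX {ε : ℝ} (hε : 0 < ε) : ∃ R₀ : ℕ, ∀ R, R₀ ≤ R → ∃ (S K : ℕ) (h ub : ℝ),
    0 < S ∧ 0 < K ∧ 0 < h ∧ h ≤ 1 ∧ 0 < ub ∧ ub ≤ 1 ∧
    ∀ (N : ℕ) [NeZero N] (Cm : Type) [Fintype Cm] [Nonempty Cm] (cf : Cm → Fin N → Bool)
      (W : List Cm → ℝ), (∀ p, 0 < W p) →
      avg (fun g : BIdx R 2 → Fin K =>
        Par.adev R (pwX (S := S) (β := allBatch R 2) cf R W (fun _ => h) (gu ub K g))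
          (Par.ovK (spinX cf R))
          (Par.qlev R (pwX (S := S) (β := allBatch R 2) cf R W (fun _ => h) (gu ub K g))
            (spinX cf R))) ≤ ε := by
  obtain ⟨R₁, hR₁⟩ := Par.rep_small (show 0 < ε / 2 by positivity)
  refine ⟨max R₁ 1, fun R hR => ?_⟩
  have hR1 : 1 ≤ R := le_of_max_le_right hR
  obtain ⟨K₀, hK₀⟩ := hR₁ R (le_of_max_le_left hR)
  obtain ⟨S, M, h, ub, hS, hM, h0, h1, hub, hub1, hgrid⟩ :=
    grid_paramsX R 2 hR1 (ε := ε / 2 / (|K₀| + 1)) (by positivity)
  refine ⟨S, M, h, ub, hS, hM, h0, h1, hub, hub1, fun N _ Cm _ _ cf W hW => ?_⟩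
  have : NeZero M := ⟨hM.ne'⟩
  set G := BIdx R 2 → Fin M
  have hb : ∀ g : G, Par.adev R (pwX (S := S) (β := allBatch R 2) cf R W (fun _ => h) (gu ub M g))
      (Par.ovK (spinX cf R))
      (Par.qlev R (pwX (S := S) (β := allBatch R 2) cf R W (fun _ => h) (gu ub M g)) (spinX cf R)) ≤
      ε / 2 + (|K₀| + 1) * errSumX cf R S (lin R) W (fun _ => h) (gu ub M g) := fun g => by
    have hok : Ok R (lin R) (pwX (S := S) (β := allBatch R 2) cf R W (fun _ => h) (gu ub M g)) :=
      ok_lin hR1 fun p => mul_pos (hW _) (Real.exp_pos _)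
    obtain ⟨hE, hI⟩ := ident_errSumX hok hS hR1 fun _ => ⟨h0, h1⟩
    have := hK₀ _ hok.wpos _ _ hE hI
    have := mul_le_mul_of_nonneg_right ((le_abs_self K₀).trans (le_add_of_nonneg_right zero_le_one)) hE
    linarith
  refine (avg_le_avg hb).trans ?_
  have he : (avg fun g : G => ε / 2 + (|K₀| + 1) *
      errSumX cf R S (lin R) W (fun _ => h) (gu ub M g)) =
      ε / 2 + (|K₀| + 1) * avg fun g : G => errSumX cf R S (lin R) W (fun _ => h) (gu ub M g) := by
    have hc := card_pos_real (Ω := G)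
    simp only [avg, sum_add_distrib, sum_const, card_univ, nsmul_eq_mul, ← mul_sum]
    field_simp
  rw [he]
  have := mul_le_mul_of_nonneg_left (hgrid N Cm cf W hW) (show 0 ≤ |K₀| + 1 by positivity)
  rw [mul_div_cancel₀ _ (show |K₀| + 1 ≠ 0 by positivity)] at this
  linarith

end Vale.Agent.P157.Full
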