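import Vale.Agent.P157.Full.Envelope
import Vale.Agent.P157.Full.Field
import Vale.Agent.P157.Full.PertX
import Vale.Agent.P157.Full.Ends
import Vale.Agent.P157.Full.EndZero

/-! The modules of the upper bound in the form the envelope takes them. -/

open MeasureTheory ProbabilityTheory Real Finset Filter

namespace Vale.Agent.P157.Full

open Par (Sm)

variable {f f1 f2 f3 : ℝ → ℝ} {B D : ℝ}

lemma glue_grid : GridX := fun hε => grid_repX hε

lemma glue_zero : ZeroX f := fun hR₀ hk _ _ _ β S h u hh hu Λ _ hε => meanX_zero hR₀ hk β S h u hh hu Λ hε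

lemma glue_ibp (hS : Sm f f1 f2 f3 B D) (hB : ∀ x, f x ≤ B) : IbpX f :=
  fun R₀ k S N M _ _ _ _ _ _ _ hR₀ hk _ _ Λ _ hε => Fld.HX_ibp hS hB R₀ k S N M hR₀ hk Λ hε

lemma glue_field (hS : Sm f f1 f2 f3 B D) (hB : ∀ x, f x ≤ B) : FieldX f D := by
  intro R₀ k S N n M _ ι _ _ β h u hR₀ hk _ _ lam
  exact ⟨fun g g' z z' => Fld.FX_lip hS hR₀ hk lam g g' z z',
    fun j => ⟨fun g z => Fld.FX_convex hR₀ hk lam g z j, (Fld.meanX_deriv hS hB hR₀ hk lam j).1⟩⟩

end Vale.Agent.P157.Full
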