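import Vale.Agent.P157.Full.EnvLam
import Vale.Agent.P157.Full.Conc

/-! The objective of the envelope over a grid of strengths: its maximiser, the first order condition,
and the concentration of the field energy that the second order bound gives there. -/

open MeasureTheory ProbabilityTheory Real Finset
open Vale.Agent.P150 (gauss dot l1)
open Vale.Agent.P168.MP (lin Batch gainCap avg avg_le_avg avg_const)

namespace Vale.Agent.P157.Full

/-! ### numbers -/

/-- coercivity confines a near maximiser -/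
lemma confine {R₀ : ℕ} {c C L η : ℝ} (hc : 0 < c) (hη : 0 < η) (hη1 : η ≤ 1) (lam : Fin R₀ → ℝ)
    (hl : ∀ i, 0 < lam i) (h : -L ≤ C - c * ∑ i, lam i ^ 2 + η * ∑ i, log (lam i)) (j : Fin R₀) :
    lam j ≤ √(2 * (C + L + R₀ / (2 * c)) / c) ∧ exp (-(C + L + R₀ / (2 * c)) / η) ≤ lam j := by
  have key : ∀ i, η * log (lam i) ≤ c / 2 * lam i ^ 2 + 1 / (2 * c) := fun i => by
    have h1 : log (lam i) ≤ lam i := (log_le_sub_one_of_pos (hl i)).trans (by linarith)
    have h2 := mul_le_mul_of_nonneg_left h1 hη.le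
    have h3 : η * lam i ≤ c / 2 * lam i ^ 2 + η ^ 2 / (2 * c) := by
      rw [← sub_nonneg, show c / 2 * lam i ^ 2 + η ^ 2 / (2 * c) - η * lam i =
        (c * lam i - η) ^ 2 / (2 * c) by field_simp; ring]
      positivity
    have h4 : η ^ 2 / (2 * c) ≤ 1 / (2 * c) :=
      div_le_div_of_nonneg_right (pow_le_one₀ hη.le hη1) (by positivity)
    linarith
  have hk : η * ∑ i, log (lam i) ≤ c / 2 * ∑ i, lam i ^ 2 + R₀ / (2 * c) := by
    rw [mul_sum, mul_sum]
    refine (sum_le_sum fun i _ => key i).trans_eq ?_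
    rw [sum_add_distrib, sum_const, card_univ, Fintype.card_fin, nsmul_eq_mul]
    ring
  have hj : lam j ^ 2 ≤ ∑ i, lam i ^ 2 :=
    single_le_sum (f := fun i => lam i ^ 2) (fun i _ => sq_nonneg _) (mem_univ j)
  refine ⟨?_, ?_⟩
  · rw [← abs_of_pos (hl j), ← sqrt_sq_eq_abs]
    refine sqrt_le_sqrt ?_
    rw [le_div_iff₀ hc]
    nlinarith
  · rw [← le_log_iff_exp_le (hl j), div_le_iff₀ hη]
    have hs : ∑ i, log (lam i) = log (lam j) + ∑ i ∈ univ.erase j, log (lam i) :=
      (add_sum_erase _ _ (mem_univ j)).symm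
    have hs2 : η * ∑ i ∈ univ.erase j, log (lam i) ≤ c * ∑ i, lam i ^ 2 + R₀ / (2 * c) := by
      rw [mul_sum, mul_sum]
      refine (sum_le_sum fun i _ => (key i).trans (add_le_add
        (mul_le_mul_of_nonneg_right (show c / 2 ≤ c by linarith) (sq_nonneg _)) le_rfl)).trans
        ((sum_le_sum_of_subset_of_nonneg (erase_subset _ _) fun i _ _ => by positivity).trans_eq ?_)
      rw [sum_add_distrib, sum_const, card_univ, Fintype.card_fin, nsmul_eq_mul]
      ring
    rw [hs, mul_add] at h
    linarith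

lemma affX_update {R₀ : ℕ} (q : ℕ → ℝ) (η : ℝ) (lam : Fin R₀ → ℝ) (j : Fin R₀) (t : ℝ) :
    affX q η (Function.update lam j t) = affX q η lam +
      ((aCoef R₀ q j * t ^ 2 + η * log t) - (aCoef R₀ q j * lam j ^ 2 + η * log (lam j))) := by
  simp only [affX]
  rw [← add_sum_erase _ _ (mem_univ j), ← add_sum_erase _ _ (mem_univ j), Function.update_self,
    sum_congr rfl fun i hi => by rw [Function.update_of_ne (ne_of_mem_erase hi)]]
  ring

/-! ### the objective -/

variable {A : Type} [Fintype A] {f : ℝ → ℝ} {B : ℝ} {N n M R₀ k S : ℕ} [NeZero N] {ι : Type} [Fintype ι]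
  [DecidableEq ι] {β : ι → Batch} {h : ι → ℝ} {U : A → ι → ℝ} {q : ℕ → ℝ} {η : ℝ}

/-- the objective -/
noncomputable def GX (f : ℝ → ℝ) (N n M R₀ k S : ℕ) [NeZero N] (β : ι → Batch) (h : ι → ℝ) (U : A → ι → ℝ)
    (q : ℕ → ℝ) (η : ℝ) (lam : Fin R₀ → ℝ) : ℝ :=
  EX (fun a => FX (N := N) (n := n) (M := M) f R₀ k S β h (U a) lam) / N + affX q η lam

variable (hf : Continuous f) (hb : ∀ x, |f x| ≤ B) (hR : 1 ≤ k * R₀) (hh : ∀ j, |h j| ≤ 1)
  (hU : ∀ a j, |U a j| ≤ 1)

section base
include hf hb hR hh hU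

lemma continuous_EX_FX :
    Continuous fun lam => EX (fun a => FX (N := N) (n := n) (M := M) f R₀ k S β h (U a) lam) := by
  unfold EX avg
  refine (continuous_finsetSum _ fun a _ => continuous_iff_continuousAt.2 fun lam₀ =>
    tendsto_iff_norm_sub_tendsto_zero.2 (squeeze_zero (fun _ => norm_nonneg _)
      (fun lam => abs_meanX_lam_le hf hb hR hh (hU a) lam lam₀) ?_)).div_const _
  have hc : Continuous fun lam : Fin R₀ → ℝ => lamSum (lam - lam₀) * meanL1 N (k * R₀) n := by
    unfold lamSum; fun_prop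
  simpa [lamSum] using hc.tendsto lam₀

lemma exists_max {lo hi : ℝ} (hlo : 0 < lo) (hlh : lo ≤ hi) : ∃ lam : Fin R₀ → ℝ,
    (∀ i, lo ≤ lam i ∧ lam i ≤ hi) ∧ ∀ lam', (∀ i, lo ≤ lam' i ∧ lam' i ≤ hi) →
      GX f N n M R₀ k S β h U q η lam' ≤ GX f N n M R₀ k S β h U q η lam := by
  set T : Set (Fin R₀ → ℝ) := Set.univ.pi fun _ => Set.Icc lo hi
  have hT : IsCompact T := isCompact_univ_pi fun _ => isCompact_Icc
  have hne : T.Nonempty := ⟨fun _ => lo, fun i _ => ⟨le_rfl, hlh⟩⟩
  have ha : ContinuousOn (affX q η) T := by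
    unfold affX
    refine continuousOn_finsetSum _ fun i _ => (continuousOn_const.mul
      ((continuous_apply i).pow 2).continuousOn).add (continuousOn_const.mul ?_)
    exact (continuous_apply i).continuousOn.log fun x hx =>
      (hlo.trans_le (hx i (Set.mem_univ i)).1).ne'
  obtain ⟨lam, hm, hmax⟩ := hT.exists_isMaxOn hne
    ((((continuous_EX_FX (A := A) (U := U) (N := N) (n := n) (M := M) (S := S) (β := β) hf hb hR hh hU).div_const
      (N : ℝ)).continuousOn (s := T)).add ha)
  exact ⟨lam, fun i => hm i (Set.mem_univ i), fun lam' h' => hmax fun i _ => h' i⟩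

lemma EX_le_zero [Nonempty A] (lam : Fin R₀ → ℝ) :
    EX (fun a => FX (N := N) (n := n) (M := M) f R₀ k S β h (U a) lam) ≤
      EX (fun a => FX (N := N) (n := n) (M := 0) f R₀ k S β h (U a) lam) + M * B := by
  refine (avg_le_avg fun a => meanX_le_zero hf hb hR hh (hU a) lam).trans_eq ?_
  simp only [EX, avg, sum_add_distrib, add_div, sum_const, card_univ, nsmul_eq_mul]
  rw [mul_div_cancel_left₀ _ (Nat.cast_ne_zero.2 Fintype.card_ne_zero)]

/-- deviation from the grid mean at one amplitude vector -/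
lemma EX_dev_le [Nonempty A] (lam : Fin R₀ → ℝ) {L : ℝ}
    (hdev : ∀ a, meanX (fun g z => |FX (N := N) (n := n) (M := M) f R₀ k S β h (U a) lam g z -
      meanX (FX (N := N) (n := n) (M := M) f R₀ k S β h (U a) lam)|) ≤ L) :
    EX (fun a g z => |FX (N := N) (n := n) (M := M) f R₀ k S β h (U a) lam g z / N -
      EX (fun a => FX (N := N) (n := n) (M := M) f R₀ k S β h (U a) lam) / N|) ≤
      (L + 2 * gainCap S β) / N := by
  set F := fun a => FX (N := N) (n := n) (M := M) f R₀ k S β h (U a) lam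
  have hi : ∀ a, IntX (F a) := fun a => intX_FX hf hb hR hh (hU a)
  have hm : ∀ a, |meanX (F a) - EX F| ≤ 2 * gainCap S β := fun a => by
    have e : meanX (F a) - EX F = avg fun b => meanX (F a) - meanX (F b) := by
      simp only [EX, avg, sum_sub_distrib, sub_div, sum_const, card_univ, nsmul_eq_mul]
      rw [mul_div_cancel_left₀ _ (Nat.cast_ne_zero.2 Fintype.card_ne_zero)]
    rw [e]
    have hb' := fun b => abs_le.1 (abs_meanX_str_le (N := N) (n := n) (M := M) (S := S) (β := β) hf hb hR hh (hU a) (hU b) lam)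
    exact abs_le.2 ⟨(avg_const _).symm.trans_le (avg_le_avg fun b => (hb' b).1),
      (avg_le_avg fun b => (hb' b).2).trans_eq (avg_const _)⟩
  have e : (fun a g z => |F a g z / N - EX F / N|) = fun a g z => |F a g z - EX F| / (N : ℝ) := by
    funext a g z; rw [← sub_div, abs_div, Nat.abs_cast]
  show EX (fun a g z => |F a g z / N - EX F / N|) ≤ _
  rw [e, EX_div_const]
  refine div_le_div_of_nonneg_right ((avg_le_avg fun a => ?_).trans_eq (avg_const _)) (Nat.cast_nonneg _)
  refine (meanX_mono ((hi a).sub (intX_const _)).abs ((((hi a).sub (intX_const _)).abs).add (intX_const _))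
    fun g z => (abs_sub_le _ (meanX (F a)) _).trans (add_le_add le_rfl (hm a))).trans ?_
  rw [meanX_add (((hi a).sub (intX_const _)).abs) (intX_const _), meanX_const]
  exact add_le_add (hdev a) le_rfl

end base

variable {lam : Fin R₀ → ℝ} {j : Fin R₀}

/-- first order condition at a maximiser inside the box -/
lemma first_order {lo hi : ℝ} (hlo : 0 < lo) (hbox : ∀ i, lo ≤ lam i ∧ lam i ≤ hi)
    (hmax : ∀ lam', (∀ i, lo ≤ lam' i ∧ lam' i ≤ hi) →
      GX f N n M R₀ k S β h U q η lam' ≤ GX f N n M R₀ k S β h U q η lam)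
    (hin : lo < lam j ∧ lam j < hi)
    (hd : ∀ a, HasDerivAt (fun t => meanX (N := N) (M := M)
        (FX (N := N) (n := n) f R₀ k S β h (U a) (Function.update lam j t)))
      (meanX (N := N) (M := M) fun g z => HX (N := N) (n := n) f R₀ k S β h (U a) lam g z j) (lam j)) :
    EX (fun a g z => HX (N := N) (n := n) (M := M) f R₀ k S β h (U a) lam g z j) / N =
      -(2 * aCoef R₀ q j * lam j + η / lam j) := by
  have hx : 0 < lam j := hlo.trans hin.1
  have hloc : IsLocalMax (fun t => GX f N n M R₀ k S β h U q η (Function.update lam j t)) (lam j) := by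
    filter_upwards [Ioo_mem_nhds hin.1 hin.2] with t ht
    rw [Function.update_eq_self]
    refine hmax _ fun i => ?_
    rcases eq_or_ne i j with rfl | hij
    · rw [Function.update_self]; exact ⟨ht.1.le, ht.2.le⟩
    · rw [Function.update_of_ne hij]; exact hbox i
  have h1 : HasDerivAt (fun t => EX (fun a => FX (N := N) (n := n) (M := M) f R₀ k S β h (U a) (Function.update lam j t)) / N)
      (EX (fun a g z => HX (N := N) (n := n) (M := M) f R₀ k S β h (U a) lam g z j) / N) (lam j) :=
    ((HasDerivAt.fun_sum fun a _ => hd a).div_const _).div_const _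
  have h2 : HasDerivAt (fun t => affX q η (Function.update lam j t))
      (2 * aCoef R₀ q j * lam j + η / lam j) (lam j) := by
    simp only [affX_update]
    refine ((((hasDerivAt_pow 2 (lam j)).const_mul _).add ((hasDerivAt_log hx.ne').const_mul η)).sub_const _).const_add _
      |>.congr_deriv ?_
    simp [div_eq_mul_inv]; ring
  have := hloc.hasDerivAt_eq_zero (h1.add h2)
  linarith

/-- the second difference of the mean at a maximiser -/
lemma second_order {lo hi d : ℝ} (hlo : 0 < lo) (hη : 0 ≤ η) (hbox : ∀ i, lo ≤ lam i ∧ lam i ≤ hi)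
    (hmax : ∀ lam', (∀ i, lo ≤ lam' i ∧ lam' i ≤ hi) →
      GX f N n M R₀ k S β h U q η lam' ≤ GX f N n M R₀ k S β h U q η lam)
    (hd : lo ≤ lam j + d ∧ lam j + d ≤ hi) (hd2 : |d| ≤ lam j / 2) :
    EX (fun a => FX (N := N) (n := n) (M := M) f R₀ k S β h (U a) (Function.update lam j (lam j + d))) / N ≤
      EX (fun a => FX (N := N) (n := n) (M := M) f R₀ k S β h (U a) lam) / N +
        -(2 * aCoef R₀ q j * lam j + η / lam j) * d + (|aCoef R₀ q j| + 2 * η / lo ^ 2) * d ^ 2 := by
  have hx : 0 < lam j := hlo.trans_le (hbox j).1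
  have h := hmax (Function.update lam j (lam j + d)) fun i => by
    rcases eq_or_ne i j with rfl | hij
    · rw [Function.update_self]; exact hd
    · rw [Function.update_of_ne hij]; exact hbox i
  rw [GX, GX, affX_update] at h
  have h2 := aff_one (aCoef R₀ q j) η hη hx hd2
  have h3 : 2 * η / lam j ^ 2 * d ^ 2 ≤ 2 * η / lo ^ 2 * d ^ 2 :=
    mul_le_mul_of_nonneg_right (div_le_div_of_nonneg_left (by positivity) (by positivity)
      (pow_le_pow_left₀ hlo.le (hbox j).1 2)) (sq_nonneg d)
  nlinarith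

include hf hb hR hh hU in
/-- at a maximiser the field energy is concentrated over strengths, patterns and fields together -/
theorem energy_conc [Nonempty A] {lo hi δ L : ℝ} (hlo : 0 < lo) (hη : 0 ≤ η)
    (hbox : ∀ i, lo ≤ lam i ∧ lam i ≤ hi)
    (hmax : ∀ lam', (∀ i, lo ≤ lam' i ∧ lam' i ≤ hi) →
      GX f N n M R₀ k S β h U q η lam' ≤ GX f N n M R₀ k S β h U q η lam)
    (hδ : 0 < δ) (hδl : lo ≤ lam j - δ) (hδh : lam j + δ ≤ hi) (hδ2 : δ ≤ lam j / 2)
    (hcv : ∀ a g z, ConvexOn ℝ Set.univ (fun t => FX (N := N) (n := n) (M := M) f R₀ k S β h (U a) (Function.update lam j t) g z) ∧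
      HasDerivAt (fun t => FX (N := N) (n := n) (M := M) f R₀ k S β h (U a) (Function.update lam j t) g z)
        (HX (N := N) (n := n) (M := M) f R₀ k S β h (U a) lam g z j) (lam j))
    (hd : ∀ a, HasDerivAt (fun t => meanX (N := N) (M := M)
        (FX (N := N) (n := n) f R₀ k S β h (U a) (Function.update lam j t)))
      (meanX (N := N) (M := M) fun g z => HX (N := N) (n := n) f R₀ k S β h (U a) lam g z j) (lam j))
    (hdev : ∀ (a : A) (lam' : Fin R₀ → ℝ), (∀ i, lo ≤ lam' i ∧ lam' i ≤ hi) →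
      meanX (fun g z => |FX (N := N) (n := n) (M := M) f R₀ k S β h (U a) lam' g z -
        meanX (FX (N := N) (n := n) (M := M) f R₀ k S β h (U a) lam')|) ≤ L) :
    EX (fun a g z => |HX (N := N) (n := n) (M := M) f R₀ k S β h (U a) lam g z j / N -
      EX (fun a g z => HX (N := N) (n := n) (M := M) f R₀ k S β h (U a) lam g z j) / N|) ≤
      (|aCoef R₀ q j| + 2 * η / lo ^ 2) * δ + 3 * ((L + 2 * gainCap S β) / N) / δ := by
  set C := |aCoef R₀ q j| + 2 * η / lo ^ 2
  have hin : lo < lam j ∧ lam j < hi := ⟨by linarith, by linarith⟩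
  rw [first_order hlo hbox hmax hin hd]
  set G' := -(2 * aCoef R₀ q j * lam j + η / lam j)
  set F := fun (t : ℝ) (a : A) => FX (N := N) (n := n) (M := M) f R₀ k S β h (U a) (Function.update lam j t)
  set φ := fun (t : ℝ) (a : A) g z => |F t a g z / N - EX (F t) / N|
  have hi' : ∀ t a, IntX (φ t a) := fun t a =>
    ((intX_FX hf hb hR hh (hU a)).div_const _).sub (intX_const _) |>.abs
  have hp := second_order (A := A) (U := U) (j := j) (d := δ) hlo hη hbox hmax ⟨by linarith, hδh⟩ (by rwa [abs_of_pos hδ])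
  have hm := second_order (A := A) (U := U) (j := j) (d := -δ) hlo hη hbox hmax
    ⟨by linarith, by linarith⟩ (by rwa [abs_neg, abs_of_pos hδ])
  have e0 : Function.update lam j (lam j) = lam := Function.update_eq_self _ _
  have hpt : ∀ a g z, |HX (N := N) (n := n) (M := M) f R₀ k S β h (U a) lam g z j / N - G'| ≤
      C * δ + (φ (lam j + δ) a g z + φ (lam j - δ) a g z + φ (lam j) a g z) / δ := by
    intro a g z
    refine convex_sandwich (φ := fun t => F t a g z / N) (G := fun t => EX (F t) / N) hδ ?_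
      ((hcv a g z).2.div_const _) ?_ ?_
    · simpa [div_eq_inv_mul] using (hcv a g z).1.smul (show (0:ℝ) ≤ (N:ℝ)⁻¹ by positivity)
    · simp only [F, e0, G', C]
      linarith [hp]
    · rw [← sub_eq_add_neg] at hm
      simp only [F, e0, G', C]
      linarith [hm]
  have hF : ∀ t, lo ≤ t → t ≤ hi → EX (φ t) ≤ (L + 2 * gainCap S β) / N := fun t h1 h2 =>
    EX_dev_le hf hb hR hh hU _ fun a => hdev a _ fun i => by
      rcases eq_or_ne i j with rfl | hij
      · rw [Function.update_self]; exact ⟨h1, h2⟩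
      · rw [Function.update_of_ne hij]; exact hbox i
  have hs : ∀ a, IntX fun g z => φ (lam j + δ) a g z + φ (lam j - δ) a g z + φ (lam j) a g z :=
    fun a => ((hi' _ a).add (hi' _ a)).add (hi' _ a)
  refine (EX_mono (fun a => (((intX_HX hf j).div_const _).sub (intX_const _)).abs)
    (fun a => (intX_const (C * δ)).add ((hs a).div_const δ)) hpt).trans ?_
  rw [EX_add (fun a => intX_const (C * δ)) fun a => (hs a).div_const δ, EX_const, EX_div_const,
    EX_add (fun a => (hi' _ a).add (hi' _ a)) (hi' _), EX_add (hi' _) (hi' _)]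
  refine add_le_add le_rfl (div_le_div_of_nonneg_right ?_ hδ.le)
  linarith [hF _ (show lo ≤ lam j + δ by linarith) hδh, hF _ hδl (show lam j - δ ≤ hi by linarith),
    hF _ (hbox j).1 (hbox j).2]

end Vale.Agent.P157.Full
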