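import Vale.Agent.P157.Full.EnvMax
import Vale.Agent.P157.Full.EnvOverlap
import Vale.Agent.P157.Full.Reps
import Vale.Agent.P157.Full.Tangent
import Vale.Agent.P157.Par.Incr

/-! What the envelope takes from the modules on the perturbation, the field and the ends, and the
bound of one step in the number of patterns at a maximiser. -/

open MeasureTheory ProbabilityTheory Real Finset Filter
open Vale.Agent.P150 (gauss dot)
open Vale.Agent.P168.MP (lin Batch gainCap avg avg_le_avg avg_const allBatch BIdx gu)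

namespace Vale.Agent.P157.Full

open Par (Sm Prof dist1 adev ovK qlev)

/-- what `grid_repX` provides -/
def GridX : Prop := ∀ {ε : ℝ}, 0 < ε → ∃ R₀ : ℕ, ∀ R, R₀ ≤ R → ∃ (S K : ℕ) (h ub : ℝ),
    0 < S ∧ 0 < K ∧ 0 < h ∧ h ≤ 1 ∧ 0 < ub ∧ ub ≤ 1 ∧
    ∀ (N : ℕ) [NeZero N] (Cm : Type) [Fintype Cm] [Nonempty Cm] (cf : Cm → Fin N → Bool) (W : List Cm → ℝ),
      (∀ p, 0 < W p) →
      avg (fun g : BIdx R 2 → Fin K =>
        adev R (pwX (S := S) (β := allBatch R 2) cf R W (fun _ => h) (gu ub K g)) (ovK (spinX cf R))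
          (qlev R (pwX (S := S) (β := allBatch R 2) cf R W (fun _ => h) (gu ub K g)) (spinX cf R))) ≤ ε

/-- what `FX_convex`, `meanX_deriv`, `FX_lip` provide at one amplitude vector -/
def FieldX (f : ℝ → ℝ) (D : ℝ) : Prop :=
  ∀ {R₀ k S N n M : ℕ} [NeZero N] {ι : Type} [Fintype ι] [DecidableEq ι] {β : ι → Batch} {h u : ι → ℝ},
    1 ≤ R₀ → 1 ≤ k → (∀ j, |h j| ≤ 1) → (∀ j, |u j| ≤ 1) → ∀ (lam : Fin R₀ → ℝ),
    (∀ (g g' : Fin M → Fin N → ℝ) (z z' : Fin N × Par.Ix (k * R₀) n → ℝ),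
      |FX f R₀ k S β h u lam g z - FX f R₀ k S β h u lam g' z'| ≤
        √((M : ℝ) * D ^ 2 + N * ∑ j, lam j ^ 2) *
          √((∑ a, ∑ i, (g a i - g' a i) ^ 2) + ∑ x, (z x - z' x) ^ 2)) ∧
    ∀ j : Fin R₀,
      (∀ (g : Fin M → Fin N → ℝ) (z : Fin N × Par.Ix (k * R₀) n → ℝ),
        ConvexOn ℝ Set.univ (fun t => FX f R₀ k S β h u (Function.update lam j t) g z) ∧
          HasDerivAt (fun t => FX f R₀ k S β h u (Function.update lam j t) g z)
            (HX f R₀ k S β h u lam g z j) (lam j)) ∧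
      HasDerivAt (fun t => meanX (N := N) (M := M) (FX (N := N) (n := n) f R₀ k S β h u (Function.update lam j t)))
        (meanX (N := N) (M := M) fun g z => HX (N := N) (n := n) f R₀ k S β h u lam g z j) (lam j)

/-- what `HX_ibp` provides -/
def IbpX (f : ℝ → ℝ) : Prop :=
  ∀ (R₀ k S N M : ℕ) [NeZero N] {ι : Type} [Fintype ι] [DecidableEq ι] {β : ι → Batch} {h u : ι → ℝ},
    1 ≤ R₀ → 1 ≤ k → (∀ j, |h j| ≤ 1) → (∀ j, |u j| ≤ 1) → ∀ (Λ : ℝ) {ε : ℝ}, 0 < ε →
    ∀ᶠ n : ℕ in atTop, ∀ (lam : Fin R₀ → ℝ), (∀ i, 0 ≤ lam i ∧ lam i ≤ Λ) → ∀ (j : Fin R₀),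
      |meanX (N := N) (M := M) (fun g z => HX (N := N) (n := n) f R₀ k S β h u lam g z j) -
        lam j * N * (1 - tailAvg (k * R₀) (j * k) fun l =>
          meanX (N := N) (M := M) fun g z => rX (N := N) (n := n) f R₀ k S β h u lam g z l)| ≤ N * ε ∧
      |meanX (N := N) (M := M) (fun g z => HX (N := N) (n := n) f R₀ k S β h u lam g z j *
          tailAvg (k * R₀) (j * k) (rX (N := N) (n := n) f R₀ k S β h u lam g z)) -
        lam j * N * meanX (N := N) (M := M) (fun g z =>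
          (1 - tailAvg (k * R₀) (j * k) (rX (N := N) (n := n) f R₀ k S β h u lam g z)) *
            tailAvg (k * R₀) (j * k) (rX (N := N) (n := n) f R₀ k S β h u lam g z))| ≤
        N * (12 * |lam j| * meanX (N := N) (M := M) (fun g z =>
          adev (k * R₀) (wX (N := N) (n := n) f R₀ k S β h u lam g z) (ovK (spinX cfg (k * R₀)))
            (rX (N := N) (n := n) f R₀ k S β h u lam g z)) + ε)

/-- what `meanX_zero` provides -/
def ZeroX (f : ℝ → ℝ) : Prop :=
  ∀ {R₀ k : ℕ}, 1 ≤ R₀ → 1 ≤ k → ∀ {ι : Type} [Fintype ι] [DecidableEq ι] (β : ι → Batch) (S : ℕ) (h u : ι → ℝ),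
    (∀ j, |h j| ≤ 1) → (∀ j, |u j| ≤ 1) → ∀ (Λ : ℝ) {ε : ℝ}, 0 < ε →
    ∀ᶠ n : ℕ in atTop, ∀ (N : ℕ) [NeZero N] (lam : Fin R₀ → ℝ), (∀ i, 0 ≤ lam i ∧ lam i ≤ Λ) →
      |meanX (N := N) (M := 0) (FX (N := N) (n := n) f R₀ k S β h u lam) -
        N * (psiH R₀ (lamPath lam) + lamPath lam R₀ / 2)| ≤ gainCap S β + N * ε

/-- what `meanX_ge` provides -/
def GeX (f : ℝ → ℝ) : Prop :=
  ∀ {R₀ k S N n M : ℕ} [NeZero N], 1 ≤ R₀ → 1 ≤ k →
    ∀ {ι : Type} [Fintype ι] [DecidableEq ι] (β : ι → Batch) (h u : ι → ℝ),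
    (∀ j, |h j| ≤ 1) → (∀ j, |u j| ≤ 1) → ∀ (lam : Fin R₀ → ℝ),
    N * pressure (isingUniform N) f M - gainCap S β ≤
      meanX (N := N) (M := M) (FX (N := N) (n := n) f R₀ k S β h u lam)

/-- what `pattern_stepX` provides -/
def StepX (f : ℝ → ℝ) (K : ℝ) : Prop :=
  ∀ {R₀ k S N n M : ℕ} [NeZero N] {ι : Type} [Fintype ι] [DecidableEq ι] (β : ι → Batch) (h u : ι → ℝ)
    (lam : Fin R₀ → ℝ), 1 ≤ R₀ → 1 ≤ k → (∀ j, |h j| ≤ 1) → (∀ j, |u j| ≤ 1) →
    |meanX (N := N) (M := M + 1) (FX (N := N) (n := n) f R₀ k S β h u lam) - meanX (N := N) (M := M) (FX (N := N) (n := n) f R₀ k S β h u lam) -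
      meanX (N := N) (M := M + 1) (fun g z => Par.Phi (fun y => exp (f y)) (k * R₀) (lin (k * R₀))
        (rX (N := N) (n := n) f R₀ k S β h u lam g z))| ≤
      K * meanX (N := N) (M := M) (fun g z => adev (k * R₀) (wX (N := N) (n := n) f R₀ k S β h u lam g z)
        (ovK (spinX cfg (k * R₀))) (rX (N := N) (n := n) f R₀ k S β h u lam g z))

variable {A : Type} [Fintype A] [Nonempty A] {f f1 f2 f3 : ℝ → ℝ} {B D : ℝ} {N n M R₀ k S : ℕ} [NeZero N]
  {ι : Type} [Fintype ι] [DecidableEq ι] {β : ι → Batch} {h : ι → ℝ} {U : A → ι → ℝ} {lam : Fin R₀ → ℝ}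

/-- a bound at each sample for the average over the strengths bounds the joint mean -/
lemma EX_le_of_avg {R : ℕ} {F : A → (Fin M → Fin N → ℝ) → (Fin N × Par.Ix R n → ℝ) → ℝ} {c : ℝ}
    (hF : ∀ a, IntX (F a)) (h : ∀ g z, avg (fun a => F a g z) ≤ c) : EX F ≤ c := by
  have e : EX F = meanX fun g z => avg fun a => F a g z := by
    simp only [EX, avg]
    rw [meanX_div_const, meanX_sum _ fun a _ => hF a]
  rw [e]
  exact (meanX_mono ((IntX.sum _ fun a _ => hF a).div_const _) (intX_const c) h).trans_eq (meanX_const c)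

/-- an integration by parts averaged over the strengths -/
lemma ibp_avg {j : Fin R₀} {e : ℝ} (hI : ∀ a, (|meanX (N := N) (M := M) (fun g z => HX (N := N) (n := n) f R₀ k S β h (U a) lam g z j) -
        lam j * N * (1 - tailAvg (k * R₀) (j * k) fun l =>
          meanX (N := N) (M := M) fun g z => rX (N := N) (n := n) f R₀ k S β h (U a) lam g z l)| ≤ N * e ∧
      |meanX (N := N) (M := M) (fun g z => HX (N := N) (n := n) f R₀ k S β h (U a) lam g z j *
          tailAvg (k * R₀) (j * k) (rX (N := N) (n := n) f R₀ k S β h (U a) lam g z)) -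
        lam j * N * meanX (N := N) (M := M) (fun g z =>
          (1 - tailAvg (k * R₀) (j * k) (rX (N := N) (n := n) f R₀ k S β h (U a) lam g z)) *
            tailAvg (k * R₀) (j * k) (rX (N := N) (n := n) f R₀ k S β h (U a) lam g z))| ≤
        N * (12 * |lam j| * meanX (N := N) (M := M) (fun g z =>
          adev (k * R₀) (wX (N := N) (n := n) f R₀ k S β h (U a) lam g z) (ovK (spinX cfg (k * R₀)))
            (rX (N := N) (n := n) f R₀ k S β h (U a) lam g z)) + e)))
    (hf : Continuous f) {t : ℝ}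
    (ht : EX (fun a => adX (N := N) (n := n) (M := M) f R₀ k S β h (U a) lam) ≤ t) :
    |EX (fun a g z => HX (N := N) (n := n) (M := M) f R₀ k S β h (U a) lam g z j) / N -
      lam j * (1 - tailAvg (k * R₀) (j * k) (rbar f N n M R₀ k S β h U lam))| ≤ e ∧
    |EX (fun a g z => HX (N := N) (n := n) (M := M) f R₀ k S β h (U a) lam g z j *
        TX f R₀ k S β h (U a) lam g z j) / N -
      lam j * EX (fun a g z => (1 - TX (N := N) (n := n) (M := M) f R₀ k S β h (U a) lam g z j) *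
        TX f R₀ k S β h (U a) lam g z j)| ≤ 12 * |lam j| * t + e := by
  have hN : (0:ℝ) < N := by exact_mod_cast Nat.pos_of_ne_zero (NeZero.ne N)
  have key : ∀ (X Y : A → ℝ) (c : A → ℝ), (∀ a, |X a - lam j * N * Y a| ≤ N * c a) →
      |avg X / N - lam j * avg Y| ≤ avg c := fun X Y c hxy => by
    have h1 := avg_le_avg (f := fun a => X a - lam j * N * Y a) (g := fun a => N * c a) fun a => (abs_le.1 (hxy a)).2
    have h2 := avg_le_avg (f := fun a => -(N * c a)) (g := fun a => X a - lam j * N * Y a) fun a => (abs_le.1 (hxy a)).1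
    have e : avg X / N - lam j * avg Y = (avg X - lam j * N * avg Y) / N := by field_simp
    rw [e, abs_div, abs_of_pos hN, div_le_iff₀ hN, mul_comm (avg c), abs_le]
    simp only [avg, sum_sub_distrib, ← mul_sum, sub_div, mul_div_assoc, sum_neg_distrib, neg_div] at h1 h2 ⊢
    exact ⟨h2, h1⟩
  refine ⟨?_, ?_⟩
  · rw [tail_rbar hf]
    have h1 := key (fun a => meanX (N := N) (M := M) fun g z => HX (N := N) (n := n) f R₀ k S β h (U a) lam g z j)
      (fun a => 1 - meanX (N := N) (M := M) fun g z => TX (N := N) (n := n) f R₀ k S β h (U a) lam g z j)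
      (fun _ => e) fun a => by rw [← tail_meanX hf]; exact (hI a).1
    simpa only [EX, avg, sum_sub_distrib, sum_const, card_univ, nsmul_eq_mul, mul_one, sub_div,
      div_self (show (Fintype.card A : ℝ) ≠ 0 from Nat.cast_ne_zero.2 Fintype.card_ne_zero),
      mul_div_cancel_left₀ _ (show (Fintype.card A : ℝ) ≠ 0 from Nat.cast_ne_zero.2 Fintype.card_ne_zero)] using h1
  · refine (key _ _ (fun a => 12 * |lam j| * meanX (adX (N := N) (n := n) (M := M) f R₀ k S β h (U a) lam) + e)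
      fun a => (hI a).2).trans ?_
    simp only [avg, sum_add_distrib, ← mul_sum, sum_const, card_univ, nsmul_eq_mul, add_div, mul_div_assoc]
    rw [← mul_div_assoc (Fintype.card A : ℝ) e, mul_div_cancel_left₀ _ (Nat.cast_ne_zero.2 Fintype.card_ne_zero)]
    exact add_le_add (mul_le_mul_of_nonneg_left ht (by positivity)) le_rfl

/-- the value of one more pattern at a maximiser -/
lemma step_bound (hS : Sm f f1 f2 f3 B D) (hR₀ : 1 ≤ R₀) (hk : 1 ≤ k) {q₀ : ℕ → ℝ} (hq : Prof R₀ q₀ 1)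
    (hq1 : q₀ R₀ = 1) {KL : ℝ} (hKL : 0 ≤ KL) (hL : Par.PhiLip f KL) {e σ v : ℝ} (he : 0 ≤ e) (hσ : 0 < σ)
    (htail : ∀ j < R₀, tailAvg R₀ j q₀ - e ≤ tailAvg (k * R₀) (j * k) (rbar f N n M R₀ k S β h U lam))
    (hv : ∀ j : Fin R₀, EX (fun a g z => (TX (N := N) (n := n) (M := M) f R₀ k S β h (U a) lam g z j -
      tailAvg (k * R₀) (j * k) (rbar f N n M R₀ k S β h U lam)) ^ 2) ≤ v) :
    EX (fun a g z => Par.Phi (fun y => exp (f y)) (k * R₀) (lin (k * R₀))
        (rX (N := N) (n := n) (M := M) f R₀ k S β h (U a) lam g z)) ≤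
      Par.Phi (fun y => exp (f y)) R₀ (lin R₀) q₀ + D ^ 2 * e + KL * (2 / R₀ + R₀ * (v / σ + σ)) := by
  have hR : 1 ≤ k * R₀ := Nat.one_le_iff_ne_zero.2 (Nat.mul_ne_zero (by omega) (by omega))
  have hf : Continuous f := continuous_iff_continuousAt.2 fun x => (hS.d0 x).continuousAt
  obtain ⟨hb1, hb2⟩ := rbar_prof (A := A) (U := U) (lam := lam) (k := k) (S := S) (β := β) (h := h) (N := N) (n := n) (M := M) hf
  set rb := rbar f N n M R₀ k S β h U lam
  set P := fun r => Par.Phi (fun y => exp (f y)) (k * R₀) (lin (k * R₀)) r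
  have hr : Prof (k * R₀) (rep k q₀) 1 ∧ rep k q₀ (k * R₀) = 1 := by
    have e : rep k q₀ (k * R₀) = 1 := by rw [rep, Nat.mul_div_cancel_left _ (by omega)]; exact hq1
    refine ⟨⟨by simpa [rep] using hq.zero, fun l hl => ?_, e.le⟩, e⟩
    have hd : (l + 1) / k ≤ R₀ := Nat.div_le_of_le_mul (by omega)
    exact hq.le_of_le (Nat.div_le_div_right (Nat.le_succ l)) hd
  have hup : P rb ≤ Par.Phi (fun y => exp (f y)) R₀ (lin R₀) q₀ + D ^ 2 * e := by
    refine (phi_anti hS hR hr.1 hb1 hr.2 hb2 he fun J hJ => tail_block hk (fun l hl => hb1.mono l (by omega)) he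
      (fun j hj => ?_) hJ).trans_eq (by rw [Phi_rep (Par.adm_exp hS) hR₀ hk hq])
    rw [tailAvg_rep hk q₀ (R₀ - j) j (by omega)]
    exact htail j hj
  set rr := fun a g z => rX (N := N) (n := n) (M := M) f R₀ k S β h (U a) lam g z
  have iP : ∀ a, IntX fun g z => P (rr a g z) := fun a => by
    obtain ⟨hc, hb⟩ := Par.cont_functional hR hKL (fun q q' h h' => hL _ q q' hR h h')
      (q := fun x : (Fin M → Fin N → ℝ) × (Fin N × Par.Ix (k * R₀) n → ℝ) => rr a x.1 x.2)
      (fun x => (rX_prof x.1 x.2).1) fun l => continuous_rX hf l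
    exact intX_of_bound hc fun g z => hb (g, z)
  have iX : ∀ a, IntX fun g z => dist1 (k * R₀) (rr a g z) rb := fun a => by
    have hc : Continuous fun x : (Fin M → Fin N → ℝ) × (Fin N × Par.Ix (k * R₀) n → ℝ) =>
        dist1 (k * R₀) (rr a x.1 x.2) rb := by
      unfold dist1
      exact ((continuous_finsetSum _ fun l _ => ((continuous_rX hf l).sub continuous_const).abs).div_const _).add
        ((continuous_rX hf _).sub continuous_const).abs
    refine intX_of_bound hc (C := 2) fun g z => ?_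
    rw [abs_of_nonneg (Par.dist1_nonneg _ _ _)]
    exact Par.dist1_le_two hR (rX_prof g z).1 hb1
  refine (EX_mono iP (fun a => (intX_const (P rb)).add ((iX a).const_mul KL)) fun a g z => ?_).trans ?_
  · have := (abs_le.1 (hL _ _ _ hR (rX_prof g z).1 hb1 : |P (rr a g z) - P rb| ≤ _)).2
    linarith
  · rw [EX_add (fun a => intX_const _) (fun a => (iX a).const_mul KL), EX_const, EX_const_mul]
    have := mul_le_mul_of_nonneg_left (EX_dist_le (A := A) (U := U) hf hR₀ hk hσ hv) hKL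
    linarith

end Vale.Agent.P157.Full
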