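import Vale.Agent.P157.Full.EnvBlock

/-! The upper bound of the pressure by the value of every path. -/

open MeasureTheory ProbabilityTheory Real Finset Filter
open scoped Topology
open Vale.Agent.P150 (gauss dot)
open Vale.Agent.P168.MP (lin Batch gainCap avg avg_le_avg avg_const allBatch BIdx gu)

namespace Vale.Agent.P157.Full

open Par (Sm Prof)

variable {f f1 f2 f3 : ℝ → ℝ} {B D : ℝ}

lemma pressure_zero (N : ℕ) : pressure (isingUniform N) f 0 = 0 := by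
  have : IsProbabilityMeasure (isingUniform N) := by
    have : IsProbabilityMeasure ((2 : ENNReal)⁻¹ • (Measure.dirac (-1 : ℝ) + Measure.dirac 1)) :=
      ⟨by simp [ENNReal.inv_two_add_inv_two]⟩
    unfold isingUniform
    exact Measure.isProbabilityMeasure_map (by fun_prop)
  simp [pressure, partition]

lemma abs_pressure_le (hf : Continuous f) (hb : ∀ x, |f x| ≤ B) (N M : ℕ) [NeZero N] :
    |pressure (isingUniform N) f M| ≤ B * M / N := by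
  simpa [pressure_zero] using Par.abs_pressure_sub (N := N) hf hb M 0

lemma eventually_dim {gc c δ τ ε₁ ε₂ b : ℝ} (hτ : 0 < τ) (hε₁ : 0 < ε₁) (hε₂ : 0 < ε₂) :
    ∀ᶠ N : ℕ in atTop, 1 ≤ N ∧ gc / N ≤ ε₂ ∧
      3 * ((3 * (√N * c) + 2 * gc) / N) / δ ≤ τ ∧ b / N ≤ ε₁ := by
  have t1 : ∀ a : ℝ, Tendsto (fun N : ℕ => a / (N:ℝ)) atTop (𝓝 0) := tendsto_const_div_atTop_nhds_zero_nat
  have t2 : Tendsto (fun N : ℕ => 9 * c / δ / √N + 6 * gc / δ / N) atTop (𝓝 0) := by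
    simpa using (tendsto_const_nhds.div_atTop (tendsto_sqrt_atTop.comp tendsto_natCast_atTop_atTop)).add
      (t1 (6 * gc / δ))
  filter_upwards [eventually_ge_atTop 1, (t1 gc).eventually_le_const hε₂, t2.eventually_le_const hτ,
    (t1 b).eventually_le_const hε₁] with N h1 h2 h3 h4
  refine ⟨h1, h2, le_of_eq_of_le ?_ h3, h4⟩
  have hs : 0 < √(N:ℝ) := sqrt_pos.2 (by exact_mod_cast h1)
  have hN : (0:ℝ) < N := by exact_mod_cast h1
  field_simp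
  ring_nf
  rw [sq_sqrt hN.le]
  ring

lemma var_num {e τ Λ tol x lo v a : ℝ} (he : e ≤ τ) (htol : tol ≤ τ / (12 * Λ)) (hΛ : 0 < Λ)
    (hx : x ≤ 2 * e + 12 * Λ * tol + a) (ha : a ≤ 2 * τ) (hv : lo * v = 4 * τ) : x ≤ lo * (5 / 4 * v) := by
  rw [le_div_iff₀ (by positivity)] at htol
  nlinarith

lemma inc_num {D Kp tol e lo KL r σ ε₁ ε₂ Φ : ℝ} (hlo : 0 < lo) (hσ : 0 < σ) (hKp : 0 ≤ Kp) (hε₂ : 0 < ε₂)
    (hε : ε₂ ≤ ε₁) (htol : tol ≤ ε₂ / (Kp + 1)) (he : e ≤ lo * ε₂ / (D ^ 2 + 1))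
    (hKLσ : KL * r * σ ≤ ε₂) :
    Φ + D ^ 2 * (e / lo) + KL * (2 / r + r * (5 / 4 * (σ * σ) / σ + σ)) + Kp * tol ≤
      Φ + (KL * (2 / r) + 5 * ε₁) := by
  have e1 : Kp * tol ≤ ε₂ := by
    refine (mul_le_mul_of_nonneg_left htol hKp).trans ?_
    rw [← mul_div_assoc, div_le_iff₀ (by positivity)]
    nlinarith
  have e2 : D ^ 2 * (e / lo) ≤ ε₂ := by
    refine (mul_le_mul_of_nonneg_left (div_le_div_of_nonneg_right he hlo.le) (sq_nonneg D)).trans ?_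
    rw [mul_div_assoc, mul_div_cancel_left₀ _ hlo.ne', ← mul_div_assoc, div_le_iff₀ (by positivity)]
    nlinarith [sq_nonneg D]
  have e3 : KL * (r * (5 / 4 * (σ * σ) / σ + σ)) = 9 / 4 * (KL * r * σ) := by field_simp; ring
  linarith

lemma final_num {α KL r Φ N M J ε₁ ε₂ T : ℝ} (hα : 0 < α) (hKL : 0 ≤ KL) (hr : 1 ≤ r) (hN : 0 < N)
    (hM : M ≤ α * N) (hM' : α * N ≤ M + 1) (hε₁ : 0 < ε₁) (hε : ε₂ ≤ ε₁)
    (hb : (|Φ| + KL * 2 + 5 * ε₁) / N ≤ ε₁) (hT : T = α * Φ + J) :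
    J + M * ((Φ + (KL * (2 / r) + 5 * ε₁)) / N) + 6 * ε₂ ≤ T + α * (KL * (2 / r) + 5 * ε₁) + 7 * ε₁ := by
  set P := Φ + (KL * (2 / r) + 5 * ε₁)
  have hMP : M * (P / N) ≤ α * P + |P| / N := by
    rw [mul_div_assoc', div_le_iff₀ hN, add_mul, div_mul_cancel₀ _ hN.ne']
    rcases le_total 0 P with hp | hp
    · rw [abs_of_nonneg hp]; nlinarith
    · rw [abs_of_nonpos hp]; nlinarith
  have hPN : |P| / N ≤ ε₁ := le_trans (div_le_div_of_nonneg_right (by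
    have : KL * (2 / r) ≤ KL * 2 := mul_le_mul_of_nonneg_left (div_le_self zero_le_two hr) hKL
    have := abs_add_le Φ (KL * (2 / r) + 5 * ε₁)
    rw [abs_of_nonneg (show 0 ≤ KL * (2 / r) + 5 * ε₁ by positivity)] at this
    simp only [P]; linarith) hN.le) hb
  simp only [P] at *
  linarith

/-- induction over maximisers -/
lemma climb {X : Type} {s : Set X} {G : ℕ → X → ℝ} {J c : ℝ} {M₀ : ℕ} (h0 : ∀ x ∈ s, G 0 x ≤ J)
    (hmax : ∀ M, ∃ x ∈ s, ∀ y ∈ s, G M y ≤ G M x)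
    (hstep : ∀ M < M₀, ∀ x ∈ s, (∀ y ∈ s, G (M + 1) y ≤ G (M + 1) x) → G (M + 1) x ≤ G M x + c) :
    ∀ M ≤ M₀, ∀ x ∈ s, G M x ≤ J + M * c := by
  intro M
  induction M with
  | zero => intro _ x hx; simpa using h0 x hx
  | succ M ih =>
    intro hM y hy
    obtain ⟨x, hx, hm⟩ := hmax (M + 1)
    refine (hm y hy).trans ((hstep M hM x hx hm).trans ?_)
    have := ih (by omega) x hx
    push_cast
    linarith

section fixed
variable {A : Type} [Fintype A] [Nonempty A] {N n M R₀ k S : ℕ} [NeZero N]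
  {ι : Type} [Fintype ι] [DecidableEq ι] {β : ι → Batch} {h : ι → ℝ} {U : A → ι → ℝ} {q₀ : ℕ → ℝ} {η : ℝ}

/-- the start: the objective without patterns -/
lemma zero_value {e : ℝ} (lam : Fin R₀ → ℝ)
    (hn1 : ∀ a, |meanX (N := N) (M := 0) (FX (N := N) (n := n) f R₀ k S β h (U a) lam) -
        N * (psiH R₀ (lamPath lam) + lamPath lam R₀ / 2)| ≤ gainCap S β + N * e) :
    GX f N n 0 R₀ k S β h U q₀ η lam ≤
      psiH R₀ (lamPath lam) + dotH R₀ (lamPath lam) q₀ / 2 + η * ∑ i, log (lam i) + (gainCap S β / N + e) := by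
  have hN : (0:ℝ) < N := by exact_mod_cast Nat.pos_of_ne_zero (NeZero.ne N)
  have hE0 : EX (fun a => FX (N := N) (n := n) (M := 0) f R₀ k S β h (U a) lam) ≤
      N * (psiH R₀ (lamPath lam) + lamPath lam R₀ / 2) + (gainCap S β + N * e) :=
    (avg_le_avg fun a => by linarith [(abs_le.1 (hn1 a)).2]).trans_eq (avg_const _)
  have := div_le_div_of_nonneg_right hE0 hN.le
  rw [add_div, add_div, mul_div_cancel_left₀ _ hN.ne', mul_div_cancel_left₀ _ hN.ne'] at this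
  rw [GX, affX_eq]
  linarith

/-- the end: small amplitudes see the pressure -/
lemma low_value (hE : GeX f) (hR₀ : 1 ≤ R₀) (hk : 1 ≤ k) (hh : ∀ j, |h j| ≤ 1) (hU : ∀ a j, |U a j| ≤ 1)
    (hq : Prof R₀ q₀ 1) (hη : 0 ≤ η) (l1 : ℝ) :
    pressure (isingUniform N) f M ≤ GX f N n M R₀ k S β h U q₀ η (fun _ => l1) +
      (gainCap S β / N + R₀ * (l1 ^ 2 + η * |log l1|)) := by
  have hN : (0:ℝ) < N := by exact_mod_cast Nat.pos_of_ne_zero (NeZero.ne N)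
  have h1 : N * pressure (isingUniform N) f M - gainCap S β ≤
      EX (fun a => FX (N := N) (n := n) (M := M) f R₀ k S β h (U a) fun _ => l1) :=
    (avg_const _).symm.trans_le (avg_le_avg fun a => hE hR₀ hk β h (U a) hh (hU a) _)
  have h2 := div_le_div_of_nonneg_right h1 hN.le
  rw [sub_div, mul_div_cancel_left₀ _ hN.ne'] at h2
  have ha : ∀ i : Fin R₀, -(l1 ^ 2 + η * |log l1|) ≤ aCoef R₀ q₀ i * l1 ^ 2 + η * log l1 := fun i => by
    have : -1 ≤ aCoef R₀ q₀ i := by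
      have := (tail_mem (J := (i:ℕ)) hq).1
      unfold aCoef; linarith
    have := mul_le_mul_of_nonneg_right this (sq_nonneg l1)
    have := mul_le_mul_of_nonneg_left (neg_abs_le (log l1)) hη
    linarith
  have h3 : -(R₀ * (l1 ^ 2 + η * |log l1|)) ≤ affX q₀ η (fun _ : Fin R₀ => l1) := by
    refine le_trans ?_ (card_nsmul_le_sum _ _ _ fun i _ => ha i)
    rw [nsmul_eq_mul, card_univ, Fintype.card_fin, mul_neg]
  rw [GX]
  linarith

/-- a maximiser is inside the box -/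
lemma interior (hf : Continuous f) (hb : ∀ x, |f x| ≤ B) (hR : 1 ≤ k * R₀) (hh : ∀ j, |h j| ≤ 1)
    (hU : ∀ a j, |U a j| ≤ 1) {α c C e L : ℝ} (hMN : (M:ℝ) ≤ α * N) (hc : 0 < c) (hη : 0 < η) (hη1 : η ≤ 1)
    (hR₀ : 1 ≤ R₀) (hco : ∀ (h : ℕ → ℝ) (V : ℝ), Prof R₀ h V → psiH R₀ h + dotH R₀ h q₀ / 2 ≤ C - c * h (R₀ - 1))
    (lam : Fin R₀ → ℝ) (hl : ∀ i, 0 < lam i)
    (hz : GX f N n 0 R₀ k S β h U q₀ η lam ≤
      psiH R₀ (lamPath lam) + dotH R₀ (lamPath lam) q₀ / 2 + η * ∑ i, log (lam i) + e)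
    (hL : -L ≤ GX f N n M R₀ k S β h U q₀ η lam) (j : Fin R₀) :
    lam j ≤ √(2 * ((C + α * B + e) + L + R₀ / (2 * c)) / c) ∧
      exp (-((C + α * B + e) + L + R₀ / (2 * c)) / η) ≤ lam j := by
  have hN : (0:ℝ) < N := by exact_mod_cast Nat.pos_of_ne_zero (NeZero.ne N)
  have hup : EX (fun a => FX (N := N) (n := n) (M := M) f R₀ k S β h (U a) lam) / N ≤
      EX (fun a => FX (N := N) (n := n) (M := 0) f R₀ k S β h (U a) lam) / N + α * B := by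
    refine (div_le_div_of_nonneg_right (EX_le_zero hf hb hR hh hU lam) hN.le).trans ?_
    rw [add_div]
    refine add_le_add le_rfl ?_
    rw [mul_div_right_comm]
    exact mul_le_mul_of_nonneg_right ((div_le_iff₀ hN).2 hMN) ((abs_nonneg _).trans (hb 0))
  have hco' := hco (lamPath lam) _ (prof_lamPath lam)
  rw [lamPath_top lam (show R₀ ≤ R₀ - 1 + 1 by omega)] at hco'
  refine confine hc hη hη1 lam hl ?_ j
  simp only [GX] at hL hz
  linarith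

/-- one pattern at a maximiser with room around it -/
lemma step_at (hF : FieldX f D) {Kp : ℝ} (hKp : 0 ≤ Kp) (hP : StepX f Kp) (hS : Sm f f1 f2 f3 B D)
    (hb : ∀ x, |f x| ≤ B) (hR₀ : 1 ≤ R₀) (hk : 1 ≤ k) (hh : ∀ j, |h j| ≤ 1) (hU : ∀ a j, |U a j| ≤ 1)
    (hq : Prof R₀ q₀ 1) (hq1 : q₀ R₀ = 1) {KL : ℝ} (hKL : 0 ≤ KL) (hL : Par.PhiLip f KL)
    {α lo hi δ e t σ w : ℝ} (hMN : ((M + 1 : ℕ):ℝ) ≤ α * N) (hlo : 0 < lo) (hη : 0 ≤ η) {lam : Fin R₀ → ℝ}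
    (hbox : ∀ i, lo ≤ lam i ∧ lam i ≤ hi)
    (hmax : ∀ lam', (∀ i, lo ≤ lam' i ∧ lam' i ≤ hi) →
      GX f N n (M + 1) R₀ k S β h U q₀ η lam' ≤ GX f N n (M + 1) R₀ k S β h U q₀ η lam)
    (hδ : 0 < δ) (hroom : ∀ j, lo ≤ lam j - δ ∧ lam j + δ ≤ hi ∧ δ ≤ lam j / 2) (he : 0 ≤ e) (hσ : 0 < σ)
    (hI : ∀ a (j : Fin R₀), (|meanX (N := N) (M := M + 1) (fun g z => HX (N := N) (n := n) f R₀ k S β h (U a) lam g z j) -
        lam j * N * (1 - tailAvg (k * R₀) (j * k) fun l =>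
          meanX (N := N) (M := M + 1) fun g z => rX (N := N) (n := n) f R₀ k S β h (U a) lam g z l)| ≤ N * e ∧
      |meanX (N := N) (M := M + 1) (fun g z => HX (N := N) (n := n) f R₀ k S β h (U a) lam g z j *
          tailAvg (k * R₀) (j * k) (rX (N := N) (n := n) f R₀ k S β h (U a) lam g z)) -
        lam j * N * meanX (N := N) (M := M + 1) (fun g z =>
          (1 - tailAvg (k * R₀) (j * k) (rX (N := N) (n := n) f R₀ k S β h (U a) lam g z)) *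
            tailAvg (k * R₀) (j * k) (rX (N := N) (n := n) f R₀ k S β h (U a) lam g z))| ≤
        N * (12 * |lam j| * meanX (N := N) (M := M + 1) (fun g z =>
          Par.adev (k * R₀) (wX (N := N) (n := n) f R₀ k S β h (U a) lam g z) (Par.ovK (spinX cfg (k * R₀)))
            (rX (N := N) (n := n) f R₀ k S β h (U a) lam g z)) + e)))
    (had : ∀ M', EX (fun a => adX (N := N) (n := n) (M := M') f R₀ k S β h (U a) lam) ≤ t)
    (hnum : 2 * e + 12 * hi * t + ((1 / 2 + 2 * η / lo ^ 2) * δ +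
        3 * ((3 * (√N * √(α * D ^ 2 + R₀ * hi ^ 2)) + 2 * gainCap S β) / N) / δ) ≤ lo * w) :
    GX f N n (M + 1) R₀ k S β h U q₀ η lam ≤ GX f N n M R₀ k S β h U q₀ η lam +
      (Par.Phi (fun y => exp (f y)) R₀ (lin R₀) q₀ + D ^ 2 * (e / lo) + KL * (2 / R₀ + R₀ * (w / σ + σ)) + Kp * t) / N := by
  have hf : Continuous f := continuous_iff_continuousAt.2 fun x => (hS.d0 x).continuousAt
  have hblock := fun j => block_at_max (α := α) (δ := δ) hF hf hb hR₀ hk hh hU hq hMN hlo hη hbox hmax hδ j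
    (hroom j).1 (hroom j).2.1 (hroom j).2.2 he (fun a => hI a j) (had (M + 1))
  have hv : ∀ j : Fin R₀, EX (fun a g z => (TX (N := N) (n := n) (M := M + 1) f R₀ k S β h (U a) lam g z j -
      tailAvg (k * R₀) (j * k) (rbar f N n (M + 1) R₀ k S β h U lam)) ^ 2) ≤ w := fun j => by
    refine le_of_mul_le_mul_left ?_ hlo
    refine (mul_le_mul_of_nonneg_right (hbox j).1 ((EX_const 0).symm.trans_le (EX_mono (fun _ => intX_const 0)
      (fun a => intX_of_bound (((continuous_TX hf _).sub continuous_const).pow 2) (C := 1) fun g z => ?_)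
      fun a g z => sq_nonneg _))).trans ((hblock j).2.trans hnum)
    obtain ⟨x0, x1⟩ := TX_mem (f := f) (R₀ := R₀) (k := k) (S := S) (β := β) (h := h) (u := U a) (lam := lam) g z j
    obtain ⟨y0, y1⟩ := tail_mem (J := (j:ℕ) * k) (rbar_prof (A := A) (U := U) (lam := lam)
      (k := k) (S := S) (β := β) (h := h) (N := N) (n := n) (M := M + 1) hf).1
    rw [abs_of_nonneg (sq_nonneg _), sq_le_one_iff_abs_le_one, abs_le]
    constructor <;> linarith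
  exact one_pattern hKp hP hR₀ hk hh hU (step_bound hS hR₀ hk hq hq1 hKL hL (div_nonneg he hlo.le) hσ
    (fun j hj => (hblock ⟨j, hj⟩).1) hv) (had M)

/-- the bound at a fixed dimension -/
lemma upper_at (hF : FieldX f D) (hE : GeX f) {Kp : ℝ} (hKp : 0 ≤ Kp) (hP : StepX f Kp) (hS : Sm f f1 f2 f3 B D)
    (hb : ∀ x, |f x| ≤ B) (hR₀ : 1 ≤ R₀) (hk : 1 ≤ k) (hh : ∀ j, |h j| ≤ 1) (hU : ∀ a j, |U a j| ≤ 1)
    {KL : ℝ} (hKL : 0 ≤ KL) (hL : Par.PhiLip f KL) {h₀ : ℕ → ℝ} {V₀ : ℝ} (hh₀ : Prof R₀ h₀ V₀)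
    {α c C l1 lo hi δ e t σ w P ε : ℝ} {M₀ : ℕ} (hM₀ : (M₀:ℝ) ≤ α * N) (hη : 0 < η) (hη1 : η ≤ 1) (hc : 0 < c)
    (hco : ∀ (h : ℕ → ℝ) (V : ℝ), Prof R₀ h V →
      psiH R₀ h + dotH R₀ h (qh R₀ h₀) / 2 ≤ C - c * h (R₀ - 1))
    (hε : ε ≤ 1) (hlo : 0 < lo) (hlo1 : lo ≤ l1) (hl1 : l1 ≤ hi) (hlog : η * (R₀ * log hi) ≤ ε)
    (he1 : R₀ * (l1 ^ 2 + η * |log l1|) ≤ 2 * ε) (hgN : gainCap S β / N ≤ ε)
    (hδ : 0 < δ) (hhi : √(2 * ((C + α * B + 3) + (α * B + 3) + R₀ / (2 * c)) / c) + δ ≤ hi)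
    (hx1 : lo + δ ≤ exp (-((C + α * B + 3) + (α * B + 3) + R₀ / (2 * c)) / η))
    (hx2 : 2 * δ ≤ exp (-((C + α * B + 3) + (α * B + 3) + R₀ / (2 * c)) / η))
    (he : 0 ≤ e) (hσ : 0 < σ)
    (hnum : 2 * e + 12 * hi * t + ((1 / 2 + 2 * η / lo ^ 2) * δ +
        3 * ((3 * (√N * √(α * D ^ 2 + R₀ * hi ^ 2)) + 2 * gainCap S β) / N) / δ) ≤ lo * w)
    (hP' : Par.Phi (fun y => exp (f y)) R₀ (lin R₀) (qh R₀ h₀) + D ^ 2 * (e / lo) +
      KL * (2 / R₀ + R₀ * (w / σ + σ)) + Kp * t ≤ P)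
    (hn1 : ∀ (lam : Fin R₀ → ℝ), (∀ i, 0 ≤ lam i ∧ lam i ≤ hi) → ∀ a,
      |meanX (N := N) (M := 0) (FX (N := N) (n := n) f R₀ k S β h (U a) lam) -
        N * (psiH R₀ (lamPath lam) + lamPath lam R₀ / 2)| ≤ gainCap S β + N * ε)
    (hn2 : ∀ M ≤ M₀, ∀ a, ∀ (lam : Fin R₀ → ℝ), (∀ i, 0 ≤ lam i ∧ lam i ≤ hi) → ∀ (j : Fin R₀),
      |meanX (N := N) (M := M) (fun g z => HX (N := N) (n := n) f R₀ k S β h (U a) lam g z j) -
        lam j * N * (1 - tailAvg (k * R₀) (j * k) fun l =>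
          meanX (N := N) (M := M) fun g z => rX (N := N) (n := n) f R₀ k S β h (U a) lam g z l)| ≤ N * e ∧
      |meanX (N := N) (M := M) (fun g z => HX (N := N) (n := n) f R₀ k S β h (U a) lam g z j *
          tailAvg (k * R₀) (j * k) (rX (N := N) (n := n) f R₀ k S β h (U a) lam g z)) -
        lam j * N * meanX (N := N) (M := M) (fun g z =>
          (1 - tailAvg (k * R₀) (j * k) (rX (N := N) (n := n) f R₀ k S β h (U a) lam g z)) *
            tailAvg (k * R₀) (j * k) (rX (N := N) (n := n) f R₀ k S β h (U a) lam g z))| ≤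
        N * (12 * |lam j| * meanX (N := N) (M := M) (fun g z =>
          Par.adev (k * R₀) (wX (N := N) (n := n) f R₀ k S β h (U a) lam g z) (Par.ovK (spinX cfg (k * R₀)))
            (rX (N := N) (n := n) f R₀ k S β h (U a) lam g z)) + e))
    (had : ∀ M (lam : Fin R₀ → ℝ), EX (fun a => adX (N := N) (n := n) (M := M) f R₀ k S β h (U a) lam) ≤ t) :
    pressure (isingUniform N) f M₀ ≤
      psiH R₀ h₀ + dotH R₀ h₀ (qh R₀ h₀) / 2 + M₀ * (P / N) + 6 * ε := by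
  have hf : Continuous f := continuous_iff_continuousAt.2 fun x => (hS.d0 x).continuousAt
  have hN : (0:ℝ) < N := by exact_mod_cast Nat.pos_of_ne_zero (NeZero.ne N)
  have hR : 1 ≤ k * R₀ := Nat.one_le_iff_ne_zero.2 (Nat.mul_ne_zero (by omega) (by omega))
  obtain ⟨hq, hq1⟩ := qh_prof hR₀ hh₀
  have hzero : ∀ lam : Fin R₀ → ℝ, (∀ i, lo ≤ lam i ∧ lam i ≤ hi) → GX f N n 0 R₀ k S β h U (qh R₀ h₀) η lam ≤
      psiH R₀ (lamPath lam) + dotH R₀ (lamPath lam) (qh R₀ h₀) / 2 + η * ∑ i, log (lam i) + 2 * ε := fun lam hlam =>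
    (zero_value lam (hn1 lam fun i => ⟨hlo.le.trans (hlam i).1, (hlam i).2⟩)).trans (by linarith)
  have hlow : ∀ M, pressure (isingUniform N) f M ≤
      GX f N n M R₀ k S β h U (qh R₀ h₀) η (fun _ => l1) + 3 * ε := fun M =>
    (low_value (M := M) hE hR₀ hk hh hU hq hη.le l1).trans (by linarith)
  have h1box : ∀ i : Fin R₀, lo ≤ (fun _ => l1) i ∧ (fun _ : Fin R₀ => l1) i ≤ hi := fun _ => ⟨hlo1, hl1⟩
  have main := climb (s := {x : Fin R₀ → ℝ | ∀ i, lo ≤ x i ∧ x i ≤ hi})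
    (G := fun M => GX f N n M R₀ k S β h U (qh R₀ h₀) η)
    (J := psiH R₀ h₀ + dotH R₀ h₀ (qh R₀ h₀) / 2 + 3 * ε) (c := P / N) (M₀ := M₀)
    (fun lam hlam => by
      refine (hzero lam hlam).trans ?_
      have := psi_tangent hR₀ ((prof_lamPath lam).weaken (le_max_left _ V₀)) (hh₀.weaken (le_max_right _ _))
      have : η * ∑ i, log (lam i) ≤ ε := by
        refine le_trans ?_ hlog
        refine mul_le_mul_of_nonneg_left ((sum_le_card_nsmul _ _ (log hi) fun i _ =>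
          log_le_log (hlo.trans_le (hlam i).1) (hlam i).2).trans_eq ?_) hη.le
        rw [nsmul_eq_mul, card_univ, Fintype.card_fin]
      linarith)
    (fun M => exists_max (A := A) (U := U) (N := N) (n := n) (M := M) (S := S) (β := β) hf hb hR hh hU hlo
      (hlo1.trans hl1))
    (fun M hM lam hbox hmax => by
      have hMN : ((M + 1 : ℕ):ℝ) ≤ α * N := (show ((M + 1 : ℕ):ℝ) ≤ M₀ by exact_mod_cast hM).trans hM₀
      have hpos : ∀ i, 0 < lam i := fun i => hlo.trans_le (hbox i).1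
      have hp' : -(α * B) ≤ pressure (isingUniform N) f (M + 1) := by
        refine (neg_le_neg ?_).trans (neg_abs_le _)
        refine (abs_pressure_le hf hb N (M + 1)).trans ?_
        rw [mul_div_assoc, mul_comm α]
        exact mul_le_mul_of_nonneg_left ((div_le_iff₀ hN).2 hMN) ((abs_nonneg _).trans (hb 0))
      have hin := interior (α := α) (e := 3) (L := α * B + 3) hf hb hR hh hU hMN hc hη hη1 hR₀ hco lam hpos
        ((hzero lam hbox).trans (by linarith)) (by linarith [hlow (M + 1), hmax _ h1box])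
      refine (step_at (α := α) hF hKp hP hS hb hR₀ hk hh hU hq hq1 hKL hL hMN hlo hη.le hbox hmax hδ
        (fun j => ⟨by linarith [(hin j).2], by linarith [(hin j).1], by linarith [(hin j).2]⟩) he hσ
        (fun a => hn2 (M + 1) hM a lam fun i => ⟨(hpos i).le, (hbox i).2⟩) (fun M' => had M' lam) hnum).trans ?_
      exact add_le_add le_rfl (div_le_div_of_nonneg_right hP' hN.le))
    M₀ le_rfl (fun _ => l1) h1box
  linarith [hlow M₀]

end fixed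

/-- for a fixed path: the pressure is at most its value up to the accuracy of the block comparison -/
theorem upper_fine (hG : GridX) (hF : FieldX f D) (hI : IbpX f) (hZ : ZeroX f) (hE : GeX f)
    {Kp : ℝ} (hKp : 0 ≤ Kp) (hP : StepX f Kp) (hS : Sm f f1 f2 f3 B D) (hB : ∀ x, f x ≤ B)
    {α : ℝ} (hα : 0 < α) {KL : ℝ} (hKL : 0 ≤ KL) (hL : Par.PhiLip f KL)
    {R₀ : ℕ} {h₀ : ℕ → ℝ} {V₀ : ℝ} (hR₀ : 1 ≤ R₀) (hh₀ : Prof R₀ h₀ V₀) {ε₁ : ℝ} (hε₁ : 0 < ε₁) :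
    ∀ᶠ N : ℕ in atTop, pressure (isingUniform N) f ⌊α * N⌋₊ ≤
      Jval α f R₀ h₀ + α * (KL * (2 / R₀) + 5 * ε₁) + 7 * ε₁ := by
  have hf : Continuous f := continuous_iff_continuousAt.2 fun x => (hS.d0 x).continuousAt
  have hb : ∀ x, |f x| ≤ B := fun x => abs_le.2 ⟨hS.lb x, hB x⟩
  have hR0 : (1:ℝ) ≤ R₀ := by exact_mod_cast hR₀
  obtain ⟨c, C, hc, hco⟩ := psi_coercive hR₀ hh₀
  obtain ⟨ε₂, hε₂, hε₂1, hε₂ε⟩ : ∃ ε₂, 0 < ε₂ ∧ ε₂ ≤ 1 ∧ ε₂ ≤ ε₁ :=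
    ⟨min ε₁ 1, lt_min hε₁ one_pos, min_le_right _ _, min_le_left _ _⟩
  obtain ⟨l1, hl1, hl1', hl1sq⟩ : ∃ l1 : ℝ, 0 < l1 ∧ l1 ≤ 1 ∧ R₀ * l1 ^ 2 ≤ ε₂ := by
    refine ⟨ε₂ / R₀, by positivity, (div_le_one (by positivity)).2 (hε₂1.trans hR0), ?_⟩
    rw [show (R₀:ℝ) * (ε₂ / R₀) ^ 2 = ε₂ * (ε₂ / R₀) by field_simp]
    exact mul_le_of_le_one_right hε₂.le ((div_le_one (by positivity)).2 (hε₂1.trans hR0))
  obtain ⟨hi, hhi, hhi'⟩ : ∃ hi : ℝ, 1 ≤ hi ∧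
      √(2 * ((C + α * B + 3) + (α * B + 3) + R₀ / (2 * c)) / c) + 1 ≤ hi :=
    ⟨_, le_add_of_nonneg_left (sqrt_nonneg _), le_rfl⟩
  obtain ⟨η, hη, hη1, hηlog⟩ : ∃ η : ℝ, 0 < η ∧ η ≤ 1 ∧ η * (R₀ * (log hi + |log l1| + 1)) ≤ ε₂ := by
    have := log_nonneg hhi
    refine ⟨min 1 (ε₂ / (R₀ * (log hi + |log l1| + 1))), lt_min one_pos (by positivity), min_le_left _ _, ?_⟩
    rw [← le_div_iff₀ (by positivity)]
    exact min_le_right _ _
  obtain ⟨σ, hσ, hKLσ⟩ : ∃ σ : ℝ, 0 < σ ∧ KL * R₀ * σ ≤ ε₂ := by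
    refine ⟨ε₂ / (KL * R₀ + 1), by positivity, ?_⟩
    rw [mul_div_assoc', div_le_iff₀ (by positivity)]
    nlinarith
  have hlog0 := log_nonneg hhi
  set xm := exp (-((C + α * B + 3) + (α * B + 3) + R₀ / (2 * c)) / η) with hxm'
  have hxm : 0 < xm := exp_pos _
  set lo := min l1 (xm / 2)
  have hlo : 0 < lo := lt_min hl1 (by positivity)
  obtain ⟨τ, hτ, hτe⟩ : ∃ τ : ℝ, 0 < τ ∧ lo * (σ * σ) = 4 * τ := ⟨lo * (σ * σ) / 4, by positivity, by ring⟩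
  obtain ⟨δ, hδ, hδx, hδ1, hδC⟩ : ∃ δ : ℝ, 0 < δ ∧ δ ≤ xm / 2 ∧ δ ≤ 1 ∧ (1 / 2 + 2 * η / lo ^ 2) * δ ≤ τ := by
    refine ⟨min (xm / 2) (min 1 (τ / (1 / 2 + 2 * η / lo ^ 2))),
      lt_min (by positivity) (lt_min one_pos (by positivity)), min_le_left _ _,
      (min_le_right _ _).trans (min_le_left _ _), ?_⟩
    rw [← le_div_iff₀' (by positivity)]
    exact (min_le_right _ _).trans (min_le_right _ _)
  obtain ⟨e, he, heτ, heD⟩ : ∃ e : ℝ, 0 < e ∧ e ≤ τ ∧ e ≤ lo * ε₂ / (D ^ 2 + 1) :=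
    ⟨_, lt_min hτ (by positivity), min_le_left _ _, min_le_right _ _⟩
  obtain ⟨t, ht, htτ, htK⟩ : ∃ t : ℝ, 0 < t ∧ t ≤ τ / (12 * hi) ∧ t ≤ ε₂ / (Kp + 1) :=
    ⟨_, lt_min (by positivity) (by positivity), min_le_left _ _, min_le_right _ _⟩
  obtain ⟨Rg, hRg⟩ := hG ht
  obtain ⟨k, hk, hkR⟩ : ∃ k : ℕ, 1 ≤ k ∧ Rg ≤ k * R₀ :=
    ⟨max Rg 1, le_max_right _ _, (le_max_left _ _).trans (Nat.le_mul_of_pos_right _ hR₀)⟩
  obtain ⟨S, Kg, hp, ub, -, hKg, hp0, hp1, hub, hub1, hgrid⟩ := hRg (k * R₀) hkR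
  have : NeZero Kg := ⟨hKg.ne'⟩
  have hR : 1 ≤ k * R₀ := Nat.one_le_iff_ne_zero.2 (Nat.mul_ne_zero (by omega) (by omega))
  have hh : ∀ _j : BIdx (k * R₀) 2, |hp| ≤ 1 := fun _ => by rw [abs_of_pos hp0]; exact hp1
  have hU : ∀ (a : BIdx (k * R₀) 2 → Fin Kg) j, |gu ub Kg a j| ≤ 1 := fun a j => by
    obtain ⟨x, y⟩ := Vale.Agent.P168.MP.gu_mem hub a j
    rw [abs_of_pos x]; exact y.trans hub1
  filter_upwards [eventually_dim (gc := gainCap S (allBatch (k * R₀) 2))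
    (c := √(α * D ^ 2 + R₀ * hi ^ 2)) (δ := δ)
    (b := |Par.Phi (fun y => exp (f y)) R₀ (lin R₀) (qh R₀ h₀)| + KL * 2 + 5 * ε₁) hτ hε₁ hε₂]
    with N ⟨hN1, hgN, hdevN, hΦN⟩
  have : NeZero N := ⟨by omega⟩
  have hN : (0:ℝ) < N := by exact_mod_cast hN1
  obtain ⟨n, hn1, hn2⟩ := Eventually.exists (f := atTop) (Eventually.and
    (eventually_all.2 fun a : BIdx (k * R₀) 2 → Fin Kg =>
      hZ hR₀ hk (allBatch (k * R₀) 2) S (fun _ => hp) (gu ub Kg a) hh (hU a) hi hε₂)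
    ((eventually_all_finset (range (⌊α * N⌋₊ + 1))).2 fun M _ => eventually_all.2 fun a : BIdx (k * R₀) 2 → Fin Kg =>
      hI R₀ k S N M (β := allBatch (k * R₀) 2) (h := fun _ => hp) (u := gu ub Kg a) hR₀ hk hh (hU a) hi he))
  refine (upper_at (U := fun a : BIdx (k * R₀) 2 → Fin Kg => gu ub Kg a) (σ := σ) (w := 5 / 4 * (σ * σ))
    (P := Par.Phi (fun y => exp (f y)) R₀ (lin R₀) (qh R₀ h₀) + (KL * (2 / R₀) + 5 * ε₁)) (n := n)
    hF hE hKp hP hS hb hR₀ hk hh hU hKL hL hh₀ (Nat.floor_le (by positivity)) hη hη1 hc hco hε₂1 hlo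
    (min_le_left _ _) (hl1'.trans hhi) ?_ ?_ hgN hδ (by linarith)
    (by rw [← hxm']; linarith [min_le_right l1 (xm / 2)]) (by rw [← hxm']; linarith) he.le hσ ?_ ?_
    (fun lam hlam a => hn1 a N lam hlam) (fun M hM a => hn2 M (mem_range.2 (by omega)) a)
    (fun M lam => EX_le_of_avg (fun a => intX_adX hf hR) fun g z => hgrid N (Par.Site N (n + 1)) cfg
      (fieldW f R₀ k lam g z) (fieldW_pos g z))).trans ?_
  · refine le_trans ?_ hηlog
    exact mul_le_mul_of_nonneg_left (mul_le_mul_of_nonneg_left (by linarith [abs_nonneg (log l1)]) (by positivity)) hη.le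
  · have : η * (R₀ * |log l1|) ≤ ε₂ := le_trans
      (mul_le_mul_of_nonneg_left (mul_le_mul_of_nonneg_left (by linarith) (by positivity)) hη.le) hηlog
    linarith
  · exact var_num heτ htτ (zero_lt_one.trans_le hhi) le_rfl ((add_le_add hδC hdevN).trans_eq (two_mul τ).symm) hτe
  · exact inc_num hlo hσ hKp hε₂ hε₂ε htK heD hKLσ
  · refine final_num hα hKL hR0 hN (Nat.floor_le (by positivity)) (Nat.lt_floor_add_one _).le hε₁ hε₂ε
      (J := psiH R₀ h₀ + dotH R₀ h₀ (qh R₀ h₀) / 2) hΦN ?_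
    simp only [Jval]; ring

/-- the pressure is asymptotically at most the value of every path -/
theorem upper_hopf_of (hG : GridX) (hF : FieldX f D) (hI : IbpX f) (hZ : ZeroX f) (hE : GeX f)
    {Kp : ℝ} (hKp : 0 ≤ Kp) (hP : StepX f Kp) (hS : Sm f f1 f2 f3 B D) (hB : ∀ x, f x ≤ B)
    {α : ℝ} (hα : 0 < α) {R : ℕ} {h : ℕ → ℝ} {V : ℝ} (hR : 1 ≤ R) (hh : Prof R h V) :
    ∀ ε > 0, ∀ᶠ N : ℕ in atTop, pressure (isingUniform N) f ⌊α * N⌋₊ ≤ Jval α f R h + ε := by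
  intro ε hε
  obtain ⟨KL, hKL, hL⟩ := Par.phiLip_of hS
  obtain ⟨r, hr⟩ := exists_nat_ge (4 * α * KL / ε)
  have hR0 : 1 ≤ (r + 1) * R := Nat.one_le_iff_ne_zero.2 (Nat.mul_ne_zero (by omega) (by omega))
  have hh0 : Prof ((r + 1) * R) (rep (r + 1) h) V := by
    refine ⟨by simpa [rep] using hh.zero, fun l hl => ?_, ?_⟩
    · exact hh.le_of_le (Nat.div_le_div_right (Nat.le_succ l)) (Nat.div_le_of_le_mul (by omega))
    · rw [rep, Nat.mul_div_cancel_left _ (by omega)]; exact hh.top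
  set ε₁ := ε / (2 * (5 * α + 7))
  filter_upwards [upper_fine hG hF hI hZ hE hKp hP hS hB hα hKL hL hR0 hh0 (show 0 < ε₁ by positivity)] with N hN
  rw [Jval_rep hS hR (by omega) hh] at hN
  refine hN.trans ?_
  have h1 : α * (KL * (2 / (((r + 1) * R : ℕ) : ℝ))) ≤ ε / 2 := by
    rw [div_le_iff₀ hε] at hr
    have hRR : (r:ℝ) + 1 ≤ (((r + 1) * R : ℕ) : ℝ) := by exact_mod_cast Nat.le_mul_of_pos_right (r + 1) (by omega : 0 < R)
    rw [mul_div_assoc', mul_div_assoc', div_le_iff₀ (by linarith [Nat.cast_nonneg (α := ℝ) r])]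
    nlinarith
  have h2 : ε₁ * (5 * α + 7) = ε / 2 := by simp only [ε₁]; field_simp
  linarith

end Vale.Agent.P157.Full
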