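import Vale.Agent.P157.Full.FieldVec

/-! Elementary properties of the system of patterns and site fields: the weight, continuity, the bounds of the
free energy and of the field energy, convexity in the amplitudes, and the Lipschitz bound. -/

set_option linter.unusedSectionVars false

open MeasureTheory ProbabilityTheory Finset
open Vale.Agent.P150 (gauss dot l1 l1_nonneg abs_dot_le)
open Vale.Agent.P168.MP (lin ET Batch gain1 logZ0 Ok ok_lin nest)
open Vale.Agent.P157.Par (Site Ix Sm ov adev devOf ovK pats)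
open Vale.Agent.P157.Lim (xv)

namespace Vale.Agent.P157.Full.Fld

variable {f f1 f2 f3 : ℝ → ℝ} {B D : ℝ}
variable {R₀ k S N n M : ℕ} [NeZero N] {ι : Type} [Fintype ι] [DecidableEq ι] {β : ι → Batch} {h u : ι → ℝ}

lemma one_le_kR (hR₀ : 1 ≤ R₀) (hk : 1 ≤ k) : 1 ≤ k * R₀ := Nat.one_le_iff_ne_zero.2 (by positivity)

/-! ### the weight -/

/-- the weight without the site field -/
noncomputable def bX (f : ℝ → ℝ) (R S : ℕ) (β : ι → Batch) (h u : ι → ℝ) (g : Fin M → Fin N → ℝ)
    (p : List (MarkX (Site N (n + 1)) N S β)) : ℝ :=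
  Par.base f R g (p.map Prod.fst) * Real.exp (∑ i : ι × Fin S, gain1 R h u (p.map (plain cfg)) i)

omit [DecidableEq ι] in
lemma wX_apply (lam : Fin R₀ → ℝ) (g : Fin M → Fin N → ℝ) (z : Fin N × Ix (k * R₀) n → ℝ)
    (p : List (MarkX (Site N (n + 1)) N S β)) :
    wX f R₀ k S β h u lam g z p =
      bX f (k * R₀) S β h u g p * Real.exp (dot (lamVec R₀ k lam (p.map Prod.fst)) z) := by
  simp only [wX, pwX, fieldW, bX]; ring

omit [DecidableEq ι] in
lemma bX_pos (R : ℕ) (g : Fin M → Fin N → ℝ) (p : List (MarkX (Site N (n + 1)) N S β)) :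
    0 < bX f R S β h u g p := mul_pos (Par.base_pos g _) (Real.exp_pos _)

omit [DecidableEq ι] in
lemma wX_pos (lam : Fin R₀ → ℝ) (g : Fin M → Fin N → ℝ) (z : Fin N × Ix (k * R₀) n → ℝ)
    (p : List (MarkX (Site N (n + 1)) N S β)) : 0 < wX f R₀ k S β h u lam g z p := by
  rw [wX_apply]; exact mul_pos (bX_pos _ _ _) (Real.exp_pos _)

lemma ok_wX (hR₀ : 1 ≤ R₀) (hk : 1 ≤ k) (lam : Fin R₀ → ℝ) (g : Fin M → Fin N → ℝ)
    (z : Fin N × Ix (k * R₀) n → ℝ) :
    Ok (k * R₀) (lin (k * R₀)) (wX f R₀ k S β h u lam g z) :=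
  ok_lin (one_le_kR hR₀ hk) (wX_pos lam g z)

/-- bound of the exponent of the perturbation -/
def gB (S : ℕ) (β : ι → Batch) (h u : ι → ℝ) : ℝ :=
  ∑ i : ι × Fin S, (|h i.1| * (β i.1).k + |u i.1|)

omit [DecidableEq ι] in
lemma abs_log_bX (hb : ∀ x, |f x| ≤ B) (R : ℕ) (g : Fin M → Fin N → ℝ)
    (p : List (MarkX (Site N (n + 1)) N S β)) :
    |Real.log (bX f R S β h u g p)| ≤ M * B + gB S β h u := by
  rw [bX, Real.log_mul (Par.base_pos g _).ne' (Real.exp_pos _).ne', Real.log_exp]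
  refine (abs_add_le _ _).trans (add_le_add (Par.abs_log_base hb g _) ?_)
  refine (abs_sum_le_sum_abs _ _).trans (sum_le_sum fun i _ => (abs_add_le _ _).trans ?_)
  rw [abs_mul, abs_mul]
  exact add_le_add (mul_le_mul_of_nonneg_left (Vale.Agent.P168.MP.abs_psiH_le _ _ _) (abs_nonneg _))
    (mul_le_of_le_one_right (abs_nonneg _) (Vale.Agent.P168.MP.abs_psi0_le _ _ _))

omit [DecidableEq ι] in
lemma continuous_wX (hf : Continuous f) (lam : Fin R₀ → ℝ) (p : List (MarkX (Site N (n + 1)) N S β)) :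
    Continuous fun x : (Fin M → Fin N → ℝ) × (Fin N × Ix (k * R₀) n → ℝ) =>
      wX f R₀ k S β h u lam x.1 x.2 p := by
  simp only [wX_apply, bX]
  exact (((Par.continuous_base hf _).comp continuous_fst).mul continuous_const).mul
    (Real.continuous_exp.comp ((Par.continuous_dot_left _).comp continuous_snd))

lemma continuous_FX (hf : Continuous f) (lam : Fin R₀ → ℝ) :
    Continuous fun x : (Fin M → Fin N → ℝ) × (Fin N × Ix (k * R₀) n → ℝ) =>
      FX f R₀ k S β h u lam x.1 x.2 :=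
  Par.continuous_logZ0 (fun p => continuous_wX hf lam p) (fun x p => wX_pos lam x.1 x.2 p) _

lemma continuous_HX (hf : Continuous f) (lam : Fin R₀ → ℝ) (j : Fin R₀) :
    Continuous fun x : (Fin M → Fin N → ℝ) × (Fin N × Ix (k * R₀) n → ℝ) =>
      HX f R₀ k S β h u lam x.1 x.2 j :=
  Par.continuous_ET (fun p => continuous_wX hf lam p) (fun x p => wX_pos lam x.1 x.2 p) _ _
    fun _ => (Par.continuous_dot_left _).comp continuous_snd

lemma continuous_rX (hf : Continuous f) (lam : Fin R₀ → ℝ) (l : ℕ) :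
    Continuous fun x : (Fin M → Fin N → ℝ) × (Fin N × Ix (k * R₀) n → ℝ) =>
      rX f R₀ k S β h u lam x.1 x.2 l :=
  Par.continuous_ET (fun p => continuous_wX hf lam p) (fun x p => wX_pos lam x.1 x.2 p) _ _
    fun _ => continuous_const

lemma continuous_adevX (hf : Continuous f) (lam : Fin R₀ → ℝ) :
    Continuous fun x : (Fin M → Fin N → ℝ) × (Fin N × Ix (k * R₀) n → ℝ) =>
      adev (k * R₀) (wX f R₀ k S β h u lam x.1 x.2) (ovK (spinX cfg (k * R₀)))
        (rX f R₀ k S β h u lam x.1 x.2) := by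
  have hd : ∀ l, Continuous fun x : (Fin M → Fin N → ℝ) × (Fin N × Ix (k * R₀) n → ℝ) =>
      devOf (k * R₀) (wX f R₀ k S β h u lam x.1 x.2) (ovK (spinX cfg (k * R₀)))
        (rX f R₀ k S β h u lam x.1 x.2) l := fun l =>
    Par.continuous_ET (fun p => continuous_wX hf lam p) (fun x p => wX_pos lam x.1 x.2 p) _ _
      fun _ => (continuous_const.sub (continuous_rX hf lam l)).abs
  unfold adev
  exact ((continuous_finsetSum _ fun l _ => hd l).div_const _).add (hd _)

lemma abs_rX_le (lam : Fin R₀ → ℝ) (g : Fin M → Fin N → ℝ) (z : Fin N × Ix (k * R₀) n → ℝ) (l : ℕ) :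
    |rX f R₀ k S β h u lam g z l| ≤ 1 :=
  Vale.Agent.P168.MP.ET_bound (wX_pos lam g z) fun _ => Par.abs_ov_le' _ _

lemma adevX_bounds (lam : Fin R₀ → ℝ) (g : Fin M → Fin N → ℝ) (z : Fin N × Ix (k * R₀) n → ℝ) :
    0 ≤ adev (k * R₀) (wX f R₀ k S β h u lam g z) (ovK (spinX cfg (k * R₀)))
        (rX f R₀ k S β h u lam g z) ∧
      adev (k * R₀) (wX f R₀ k S β h u lam g z) (ovK (spinX cfg (k * R₀)))
        (rX f R₀ k S β h u lam g z) ≤ 4 := by
  have hd : ∀ l, 0 ≤ devOf (k * R₀) (wX f R₀ k S β h u lam g z) (ovK (spinX cfg (k * R₀))) (rX f R₀ k S β h u lam g z) l ∧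
      devOf (k * R₀) (wX f R₀ k S β h u lam g z) (ovK (spinX cfg (k * R₀))) (rX f R₀ k S β h u lam g z) l ≤ 2 := fun l =>
    ⟨Vale.Agent.P168.MP.ET_nonneg (wX_pos lam g z) fun _ => abs_nonneg _,
      (le_abs_self _).trans (Vale.Agent.P168.MP.ET_bound (wX_pos lam g z) fun ps => by
        rw [abs_abs]
        refine (abs_sub _ _).trans ?_
        linarith [Par.abs_ov_le' (spinX cfg (k * R₀) (ps.getD 0 [])) (spinX cfg (k * R₀) (ps.getD 1 [])),
          show |ovK (spinX cfg (k * R₀)) (ps.getD 0 []) (ps.getD 1 [])| =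
            |ov (spinX cfg (k * R₀) (ps.getD 0 [])) (spinX cfg (k * R₀) (ps.getD 1 []))| from rfl,
          abs_rX_le (f := f) (S := S) (β := β) (h := h) (u := u) lam g z l])⟩
  unfold adev
  refine ⟨add_nonneg (div_nonneg (sum_nonneg fun l _ => (hd l).1) (Nat.cast_nonneg _)) (hd (k * R₀)).1, ?_⟩
  have h2 : (∑ l ∈ range (k * R₀), devOf (k * R₀) (wX f R₀ k S β h u lam g z) (ovK (spinX cfg (k * R₀)))
      (rX f R₀ k S β h u lam g z) l) / ((k * R₀ : ℕ) : ℝ) ≤ 2 := by
    rcases Nat.eq_zero_or_pos (k * R₀) with h0 | h0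
    · simp [h0]
    · rw [div_le_iff₀ (Nat.cast_pos.2 h0)]
      refine (sum_le_card_nsmul _ _ _ fun l _ => (hd l).2).trans (le_of_eq ?_)
      rw [card_range, nsmul_eq_mul, mul_comm]
  linarith [(hd (k * R₀)).2]

lemma abs_dot_blockVec (j : Fin R₀) (p : List (Site N (n + 1))) (z : Fin N × Ix (k * R₀) n → ℝ) :
    |dot (blockVec (k * R₀) k j p) z| ≤ l1 z := by
  rw [blockVec_eq, ← one_mul (l1 z)]
  exact abs_dot_le (abs_bv_le (jk_le j) p) z

lemma abs_HX_le (lam : Fin R₀ → ℝ) (g : Fin M → Fin N → ℝ) (z : Fin N × Ix (k * R₀) n → ℝ) (j : Fin R₀) :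
    |HX f R₀ k S β h u lam g z j| ≤ l1 z :=
  Vale.Agent.P168.MP.ET_bound (wX_pos lam g z) fun _ => abs_dot_blockVec j _ z

/-! ### comparison of weights -/

section compare

variable {Ω : Type} [Fintype Ω] [Nonempty Ω] {R : ℕ} {m : ℕ → ℝ} {w w' : List Ω → ℝ}

/-- the tangent of `logZ0` along an exponential tilt -/
lemma logZ0_exp_tangent (hm : Ok R m w) (A : List Ω → ℝ) :
    logZ0 R m w + ET R m w [(0, 0)] (fun ps => A (ps.getD 0 [])) ≤
      logZ0 R m fun p => w p * Real.exp (A p) := by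
  have h1 := Par.ext_le_log_nest hm A R [] (by simp)
  have h2 := Vale.Agent.P168.MP.logZ0_mul (R := R) (m := m) hm.wpos (Y := fun p => Real.exp (A p))
    fun p => Real.exp_pos _
  rw [Vale.Agent.P168.MP.ET_single]
  simp only [List.getD_cons_zero]
  linarith

lemma abs_logZ0_sub_le (hm : Ok R m w) (hw' : ∀ p, 0 < w' p) {δ : ℝ}
    (h : ∀ p, p.length = R → |Real.log (w' p) - Real.log (w p)| ≤ δ) :
    |logZ0 R m w' - logZ0 R m w| ≤ δ := by
  set Y : List Ω → ℝ := fun p => w' p / w p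
  have hY : ∀ p, 0 < Y p := fun p => div_pos (hw' p) (hm.wpos p)
  have e : (fun p => w p * Y p) = w' := funext fun p => mul_div_cancel₀ _ (hm.wpos p).ne'
  have h2 := Vale.Agent.P168.MP.logZ0_mul (R := R) (m := m) hm.wpos hY
  rw [e] at h2
  rw [h2]
  obtain ⟨ha, hb⟩ := Vale.Agent.P168.MP.nest_mem (Y := Y) hm (Real.exp_pos (-δ)) (b := Real.exp δ)
    (fun q hq => by
      have := abs_le.1 (h q hq)
      rw [← Real.log_div (hw' q).ne' (hm.wpos q).ne'] at this
      exact ⟨(Real.le_log_iff_exp_le (hY q)).1 this.1, (Real.log_le_iff_le_exp (hY q)).1 this.2⟩)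
    R [] (by simp)
  rw [abs_le]
  exact ⟨(Real.le_log_iff_exp_le ((Real.exp_pos _).trans_le ha)).2 ha,
    (Real.log_le_iff_le_exp ((Real.exp_pos _).trans_le ha)).2 hb⟩

lemma convexOn_of_tangent {φ H : ℝ → ℝ} (h : ∀ x y, φ x + (y - x) * H x ≤ φ y) :
    ConvexOn ℝ Set.univ φ := by
  refine ⟨convex_univ, fun x _ y _ a b ha hb hab => ?_⟩
  simp only [smul_eq_mul]
  have h1 := mul_le_mul_of_nonneg_left (h (a * x + b * y) x) ha
  have h2 := mul_le_mul_of_nonneg_left (h (a * x + b * y) y) hb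
  have e : b = 1 - a := by linarith
  subst e
  linear_combination h1 + h2

end compare

omit [DecidableEq ι] in
lemma dot_lamVec_update (lam : Fin R₀ → ℝ) (j : Fin R₀) (t : ℝ) (p : List (Site N (n + 1)))
    (z : Fin N × Ix (k * R₀) n → ℝ) :
    dot (lamVec R₀ k (Function.update lam j t) p) z =
      dot (lamVec R₀ k lam p) z + (t - lam j) * dot (blockVec (k * R₀) k j p) z := by
  rw [dot_lamVec, dot_lamVec, ← sub_eq_iff_eq_add', ← sum_sub_distrib, sum_eq_single j]
  · rw [Function.update_self]; ring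
  · intro i _ hi; rw [Function.update_of_ne hi, sub_self]
  · simp

/-- **Convexity in each amplitude, and the derivative** -/
theorem FX_convex (hR₀ : 1 ≤ R₀) (hk : 1 ≤ k) (lam : Fin R₀ → ℝ) (g : Fin M → Fin N → ℝ)
    (z : Fin N × Par.Ix (k * R₀) n → ℝ) (j : Fin R₀) :
    ConvexOn ℝ Set.univ (fun t => FX f R₀ k S β h u (Function.update lam j t) g z) ∧
      HasDerivAt (fun t => FX f R₀ k S β h u (Function.update lam j t) g z)
        (HX f R₀ k S β h u lam g z j) (lam j) := by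
  set e : List (MarkX (Site N (n + 1)) N S β) → ℝ := fun p => dot (blockVec (k * R₀) k j (p.map Prod.fst)) z
  have hw : ∀ s t p, wX f R₀ k S β h u (Function.update lam j t) g z p =
      wX f R₀ k S β h u (Function.update lam j s) g z p * Real.exp ((t - s) * e p) := fun s t p => by
    rw [wX_apply, wX_apply, mul_assoc, ← Real.exp_add, dot_lamVec_update, dot_lamVec_update]
    congr 2; simp only [e]; ring
  refine ⟨convexOn_of_tangent (H := fun s => HX f R₀ k S β h u (Function.update lam j s) g z j)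
    fun s t => ?_, ?_⟩
  · have h1 := logZ0_exp_tangent (ok_wX hR₀ hk (f := f) (h := h) (u := u) (β := β) (S := S)
      (Function.update lam j s) g z) fun p => (t - s) * e p
    rw [Vale.Agent.P168.MP.ET_const_mul, ← funext (hw s t)] at h1
    exact h1
  · refine Vale.Agent.P168.MP.hasDerivAt_logZ0
      (w := fun t => wX f R₀ k S β h u (Function.update lam j t) g z) (g := e)
      (ok_wX hR₀ hk _ g z) (fun p => ?_) |>.congr_deriv ?_
    · have e0 : (fun t => wX f R₀ k S β h u (Function.update lam j t) g z p) = fun t =>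
          wX f R₀ k S β h u (Function.update lam j (lam j)) g z p * Real.exp ((t - lam j) * e p) :=
        funext fun t => hw (lam j) t p
      rw [e0]
      exact ((((hasDerivAt_id (lam j)).sub_const (lam j)).mul_const (e p)).exp.const_mul _).congr_deriv
        (by simp)
    · rw [Function.update_eq_self]; rfl

lemma abs_f_sub_le (hS : Sm f f1 f2 f3 B D) (x y : ℝ) : |f x - f y| ≤ D * |x - y| := by
  have := Convex.norm_image_sub_le_of_norm_hasDerivWithin_le (s := Set.univ) (f := f) (f' := f1) (C := D)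
    (fun t _ => (hS.d0 t).hasDerivWithinAt) (fun t _ => by simpa using hS.b1 t) convex_univ
    (Set.mem_univ y) (Set.mem_univ x)
  simpa [Real.norm_eq_abs] using this

lemma abs_dot_le_sqrt {κ : Type} [Fintype κ] (a b : κ → ℝ) :
    |dot a b| ≤ √(dot a a) * √(∑ x, b x ^ 2) := by
  have e : dot a a = ∑ x, a x ^ 2 := sum_congr rfl fun x _ => (sq (a x)).symm
  rw [e, ← Real.sqrt_mul (sum_nonneg fun x _ => sq_nonneg _)]
  exact Real.abs_le_sqrt (sum_mul_sq_le_sq_mul_sq univ a b)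

/-- **Lipschitz in the patterns and the field** -/
theorem FX_lip (hS : Sm f f1 f2 f3 B D) (hR₀ : 1 ≤ R₀) (hk : 1 ≤ k) (lam : Fin R₀ → ℝ)
    (g g' : Fin M → Fin N → ℝ) (z z' : Fin N × Par.Ix (k * R₀) n → ℝ) :
    |FX f R₀ k S β h u lam g z - FX f R₀ k S β h u lam g' z'| ≤
      √((M : ℝ) * D ^ 2 + N * ∑ j, lam j ^ 2) *
        √((∑ a, ∑ i, (g a i - g' a i) ^ 2) + ∑ x, (z x - z' x) ^ 2) := by
  set A := ∑ a, ∑ i, (g a i - g' a i) ^ 2
  set Bz := ∑ x, (z x - z' x) ^ 2
  set Vl := (N : ℝ) * ∑ j, lam j ^ 2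
  have hA : 0 ≤ A := sum_nonneg fun a _ => sum_nonneg fun i _ => sq_nonneg _
  have hBz : 0 ≤ Bz := sum_nonneg fun x _ => sq_nonneg _
  have hVl : 0 ≤ Vl := mul_nonneg (Nat.cast_nonneg _) (sum_nonneg fun j _ => sq_nonneg _)
  refine abs_logZ0_sub_le (ok_wX hR₀ hk lam g' z') (wX_pos lam g z) fun p _ => ?_
  rw [wX_apply, wX_apply, Real.log_mul (bX_pos _ _ _).ne' (Real.exp_pos _).ne',
    Real.log_mul (bX_pos _ _ _).ne' (Real.exp_pos _).ne', Real.log_exp, Real.log_exp, bX, bX,
    Real.log_mul (Par.base_pos g _).ne' (Real.exp_pos _).ne',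
    Real.log_mul (Par.base_pos g' _).ne' (Real.exp_pos _).ne', Par.base, Par.base, Par.ham, Par.ham,
    Real.log_exp, Real.log_exp, Real.log_exp]
  set x := xv N (Par.spins (k * R₀) (p.map Prod.fst))
  set c := lamVec R₀ k lam (p.map Prod.fst)
  have hd : dot c z - dot c z' = dot c (fun i => z i - z' i) := by
    simp only [dot, mul_sub, sum_sub_distrib]
  have h1 : |(∑ a, f (dot x (g a))) - ∑ a, f (dot x (g' a))| ≤ √((M : ℝ) * D ^ 2) * √A := by
    rw [← sum_sub_distrib]
    refine (abs_sum_le_sum_abs _ _).trans ?_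
    have hx : dot x x = 1 := Vale.Agent.P157.Lim.dot_xv (Nat.pos_of_ne_zero (NeZero.ne N)) _
    have hD : 0 ≤ D := hS.D_nonneg
    have hterm : ∀ a, |f (dot x (g a)) - f (dot x (g' a))| ≤ D * √(∑ i, (g a i - g' a i) ^ 2) :=
      fun a => (abs_f_sub_le hS _ _).trans (mul_le_mul_of_nonneg_left (by
        have := abs_dot_le_sqrt x fun i => g a i - g' a i
        rw [hx, Real.sqrt_one, one_mul] at this
        simpa only [dot, mul_sub, sum_sub_distrib] using this) hD)
    refine (sum_le_sum fun a _ => hterm a).trans ?_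
    refine (Real.sum_mul_le_sqrt_mul_sqrt univ (fun _ => D) fun a => √(∑ i, (g a i - g' a i) ^ 2)).trans
      (le_of_eq ?_)
    simp [Real.sq_sqrt (sum_nonneg fun i (_ : i ∈ univ) => sq_nonneg (g _ i - g' _ i)), A]
  have h2 : |dot c z - dot c z'| ≤ √Vl * √Bz := by
    rw [hd]
    exact (abs_dot_le_sqrt _ _).trans (mul_le_mul_of_nonneg_right
      (Real.sqrt_le_sqrt (dot_lamVec_self_le hk lam _)) (Real.sqrt_nonneg _))
  have h3 := Real.sum_sqrt_mul_sqrt_le (univ : Finset (Fin 2)) (f := ![(M : ℝ) * D ^ 2, Vl]) (g := ![A, Bz])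
    (fun i => by fin_cases i <;> simp <;> positivity) (fun i => by fin_cases i <;> simp <;> assumption)
  simp only [Fin.sum_univ_two, Matrix.cons_val_zero, Matrix.cons_val_one] at h3
  have h4 := abs_le.1 h1
  have h5 := abs_le.1 h2
  rw [abs_le]
  constructor <;> linarith

end Vale.Agent.P157.Full.Fld
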