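import Vale.Agent.P157.Full.FieldMean
import Vale.Agent.P157.Par.Lip

/-! Gaussian integration by parts in the site field, against bounded test functionals. -/

set_option linter.unusedSectionVars false

open MeasureTheory ProbabilityTheory Finset Filter
open Vale.Agent.P150 (gauss dot l1 l1_nonneg)
open Vale.Agent.P168.MP (lin ET Batch Valid Supp att)
open Vale.Agent.P157.Par (Site Ix Sm ov ovK devOf adev coll pats)

namespace Vale.Agent.P157.Full.Fld

variable {f : ℝ → ℝ} {B : ℝ}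
variable {R₀ k S N n M : ℕ} [NeZero N] {ι : Type} [Fintype ι] [DecidableEq ι] {β : ι → Batch} {h u : ι → ℝ}

lemma abs_lamVec_le (lam : Fin R₀ → ℝ) (p : List (Site N (n + 1))) (x : Fin N × Ix (k * R₀) n) :
    |lamVec R₀ k lam p x| ≤ ∑ i, |lam i| := by
  refine (abs_sum_le_sum_abs _ _).trans (sum_le_sum fun i _ => ?_)
  rw [abs_mul, blockVec_eq]
  exact mul_le_of_le_one_right (abs_nonneg _) (abs_bv_le (jk_le i) p x)

/-- the field energy of one coordinate -/
noncomputable def FxX (f : ℝ → ℝ) (R₀ k S : ℕ) (β : ι → Batch) (h u : ι → ℝ) (lam : Fin R₀ → ℝ)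
    (g : Fin M → Fin N → ℝ) (z : Fin N × Ix (k * R₀) n → ℝ) (j : Fin R₀) (x : Fin N × Ix (k * R₀) n) : ℝ :=
  ET (k * R₀) (lin (k * R₀)) (wX f R₀ k S β h u lam g z) [(0, 0)]
    fun ps => blockVec (k * R₀) k j ((ps.getD 0 []).map Prod.fst) x

lemma abs_FxX_le (lam : Fin R₀ → ℝ) (g : Fin M → Fin N → ℝ) (z : Fin N × Ix (k * R₀) n → ℝ) (j : Fin R₀)
    (x : Fin N × Ix (k * R₀) n) : |FxX f R₀ k S β h u lam g z j x| ≤ 1 :=
  Vale.Agent.P168.MP.ET_bound (wX_pos lam g z) fun _ => abs_bv_le (jk_le j) _ x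

lemma continuous_wX_right (lam : Fin R₀ → ℝ) (g : Fin M → Fin N → ℝ)
    (p : List (MarkX (Site N (n + 1)) N S β)) :
    Continuous fun z : Fin N × Ix (k * R₀) n → ℝ => wX f R₀ k S β h u lam g z p := by
  simp only [wX_apply]
  exact continuous_const.mul (Real.continuous_exp.comp (Par.continuous_dot_left _))

lemma continuous_ET_right (lam : Fin R₀ → ℝ) (g : Fin M → Fin N → ℝ) (T : List (ℕ × ℕ))
    (F : List (List (MarkX (Site N (n + 1)) N S β)) → ℝ) :
    Continuous fun z : Fin N × Ix (k * R₀) n → ℝ =>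
      ET (k * R₀) (lin (k * R₀)) (wX f R₀ k S β h u lam g z) T F :=
  Par.continuous_ET (F := fun _ => F) (fun p => continuous_wX_right lam g p)
    (fun z p => wX_pos lam g z p) _ T fun _ => continuous_const

lemma continuous_ET_both (hf : Continuous f) (lam : Fin R₀ → ℝ) (T : List (ℕ × ℕ))
    (F : List (List (MarkX (Site N (n + 1)) N S β)) → ℝ) :
    Continuous fun x : (Fin M → Fin N → ℝ) × (Fin N × Ix (k * R₀) n → ℝ) =>
      ET (k * R₀) (lin (k * R₀)) (wX f R₀ k S β h u lam x.1 x.2) T F :=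
  Par.continuous_ET (F := fun _ => F) (fun p => continuous_wX hf lam p)
    (fun x p => wX_pos lam x.1 x.2 p) _ T fun _ => continuous_const

lemma continuous_FxX (lam : Fin R₀ → ℝ) (g : Fin M → Fin N → ℝ) (j : Fin R₀)
    (x : Fin N × Ix (k * R₀) n) : Continuous fun z => FxX f R₀ k S β h u lam g z j x :=
  continuous_ET_right lam g _ _

lemma HX_eq_sum (lam : Fin R₀ → ℝ) (g : Fin M → Fin N → ℝ) (z : Fin N × Ix (k * R₀) n → ℝ) (j : Fin R₀) :
    HX f R₀ k S β h u lam g z j = ∑ x, z x * FxX f R₀ k S β h u lam g z j x := by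
  simp only [HX, FxX, dot, ← Vale.Agent.P168.MP.ET_const_mul, ← Vale.Agent.P168.MP.ET_sum]
  congr 1; funext ps
  exact sum_congr rfl fun x _ => mul_comm _ _

lemma hasDerivAt_wX (lam : Fin R₀ → ℝ) (g : Fin M → Fin N → ℝ) (z : Fin N × Ix (k * R₀) n → ℝ)
    (x : Fin N × Ix (k * R₀) n) (t : ℝ) (p : List (MarkX (Site N (n + 1)) N S β)) :
    HasDerivAt (fun s => wX f R₀ k S β h u lam g (Function.update z x s) p)
      (wX f R₀ k S β h u lam g (Function.update z x t) p * lamVec R₀ k lam (p.map Prod.fst) x) t := by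
  simp only [wX_apply]
  have hd : HasDerivAt (fun s => dot (lamVec R₀ k lam (p.map Prod.fst)) (Function.update z x s))
      (lamVec R₀ k lam (p.map Prod.fst) x) t := by
    unfold dot
    refine (HasDerivAt.fun_sum fun i _ => HasDerivAt.const_mul (lamVec R₀ k lam (p.map Prod.fst) i)
      ((hasDerivAt_pi.1 (hasDerivAt_update z x t)) i)).congr_deriv ?_
    simp [Pi.single_apply]
  exact (hd.exp.const_mul _).congr_deriv (by ring)

/-- the derivative of the coordinate energy -/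
noncomputable def DFxX (f : ℝ → ℝ) (R₀ k S : ℕ) (β : ι → Batch) (h u : ι → ℝ) (lam : Fin R₀ → ℝ)
    (g : Fin M → Fin N → ℝ) (z : Fin N × Ix (k * R₀) n → ℝ) (j : Fin R₀) (x : Fin N × Ix (k * R₀) n) : ℝ :=
  ((att (k * R₀) (lin (k * R₀)) [(0, 0)]).map fun c => c.2 *
    ET (k * R₀) (lin (k * R₀)) (wX f R₀ k S β h u lam g z) [c.1, (0, 0)] fun ps =>
      blockVec (k * R₀) k j ((ps.getD 0 []).map Prod.fst) x *
        lamVec R₀ k lam ((ps.getD 1 []).map Prod.fst) x).sum

lemma hasDerivAt_FxX (hR₀ : 1 ≤ R₀) (hk : 1 ≤ k) (lam : Fin R₀ → ℝ) (g : Fin M → Fin N → ℝ)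
    (z : Fin N × Ix (k * R₀) n → ℝ) (j : Fin R₀) (x : Fin N × Ix (k * R₀) n) (t : ℝ) :
    HasDerivAt (fun s => FxX f R₀ k S β h u lam g (Function.update z x s) j x)
      (DFxX f R₀ k S β h u lam g (Function.update z x t) j x) t := by
  have hT : Valid (k * R₀) [(0, 0)] := ⟨rfl, rfl⟩
  refine (Vale.Agent.P168.MP.hasDerivAt_ET_const
    (w := fun s => wX f R₀ k S β h u lam g (Function.update z x s))
    (g := fun p : List (MarkX (Site N (n + 1)) N S β) => lamVec R₀ k lam (p.map Prod.fst) x)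
    (ok_wX hR₀ hk lam g _) (fun p => hasDerivAt_wX lam g z x t p) hT
    fun ps => blockVec (k * R₀) k j ((ps.getD 0 []).map Prod.fst) x).congr_deriv ?_
  refine congrArg List.sum (List.map_congr_left fun c hc => congrArg (c.2 * ·) ?_)
  refine Vale.Agent.P168.MP.ET_congr (Vale.Agent.P168.MP.att_valid hT hc) fun ps hs => ?_
  obtain ⟨P, Q, rfl⟩ : ∃ P Q, ps = [P, Q] := List.length_eq_two.1 hs.1
  rfl

lemma continuous_DFxX (lam : Fin R₀ → ℝ) (g : Fin M → Fin N → ℝ) (j : Fin R₀)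
    (x : Fin N × Ix (k * R₀) n) : Continuous fun z => DFxX f R₀ k S β h u lam g z j x :=
  continuous_list_sum _ fun _ _ => continuous_const.mul (continuous_ET_right lam g _ _)

lemma abs_DFxX_le (lam : Fin R₀ → ℝ) (g : Fin M → Fin N → ℝ) (z : Fin N × Ix (k * R₀) n → ℝ) (j : Fin R₀)
    (x : Fin N × Ix (k * R₀) n) : |DFxX f R₀ k S β h u lam g z j x| ≤ 3 * ∑ i, |lam i| := by
  have h3 := Par.att_abs_sum_le (R := k * R₀) [(0, 0)]
  simp only [List.length_singleton, Nat.cast_one, mul_one] at h3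
  refine (Par.abs_list_sum _ _).trans ((Par.list_sum_le (g := fun c => |c.2| * ∑ i, |lam i|) fun _ _ => ?_).trans ?_)
  · rw [abs_mul]
    refine mul_le_mul_of_nonneg_left (Vale.Agent.P168.MP.ET_bound (wX_pos lam g z) fun ps => ?_) (abs_nonneg _)
    rw [abs_mul, blockVec_eq]
    exact (mul_le_of_le_one_left (abs_nonneg _) (abs_bv_le (jk_le j) _ x)).trans (abs_lamVec_le lam _ x)
  · rw [List.sum_map_mul_right]
    exact mul_le_mul_of_nonneg_right h3 (sum_nonneg fun i _ => abs_nonneg _)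

/-- the self term of the field energy of a block -/
noncomputable def QX (f : ℝ → ℝ) (R₀ k S : ℕ) (β : ι → Batch) (h u : ι → ℝ) (lam : Fin R₀ → ℝ)
    (g : Fin M → Fin N → ℝ) (z : Fin N × Ix (k * R₀) n → ℝ) (j : Fin R₀) : ℝ :=
  N - (∑ l ∈ range (k * R₀), ET (k * R₀) (lin (k * R₀)) (wX f R₀ k S β h u lam g z) [(0, l), (0, 0)]
    fun ps => dot (blockVec (k * R₀) k j ((ps.getD 0 []).map Prod.fst))
      (blockVec (k * R₀) k j ((ps.getD 1 []).map Prod.fst))) / (k * R₀ : ℕ)

lemma continuous_QX (hf : Continuous f) (lam : Fin R₀ → ℝ) (j : Fin R₀) :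
    Continuous fun x : (Fin M → Fin N → ℝ) × (Fin N × Ix (k * R₀) n → ℝ) =>
      QX f R₀ k S β h u lam x.1 x.2 j :=
  continuous_const.sub ((continuous_finsetSum _ fun _ _ => continuous_ET_both hf lam _ _).div_const _)

lemma abs_QX_le (lam : Fin R₀ → ℝ) (g : Fin M → Fin N → ℝ) (z : Fin N × Ix (k * R₀) n → ℝ) (j : Fin R₀) :
    |QX f R₀ k S β h u lam g z j| ≤ 2 * N := by
  refine (abs_sub _ _).trans ?_
  have h1 : ∀ l, |ET (k * R₀) (lin (k * R₀)) (wX f R₀ k S β h u lam g z) [(0, l), (0, 0)]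
      fun ps => dot (blockVec (k * R₀) k j ((ps.getD 0 []).map Prod.fst))
        (blockVec (k * R₀) k j ((ps.getD 1 []).map Prod.fst))| ≤ N := fun l =>
    Vale.Agent.P168.MP.ET_bound (wX_pos lam g z) fun _ => abs_cv_bv_le (jk_le j) _ _
  rw [Nat.abs_cast, abs_div, Nat.abs_cast, two_mul]
  refine add_le_add le_rfl ?_
  rcases Nat.eq_zero_or_pos (k * R₀) with h0 | h0
  · simp [h0]
  · rw [div_le_iff₀ (Nat.cast_pos.2 h0)]
    refine (abs_sum_le_sum_abs _ _).trans ((sum_le_card_nsmul _ _ _ fun l _ => h1 l).trans (le_of_eq ?_))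
    rw [card_range, nsmul_eq_mul, mul_comm]

/-- the derivative of the coordinate energies sums to the self term -/
lemma sum_DFxX (hR₀ : 1 ≤ R₀) (hk : 1 ≤ k) (lam : Fin R₀ → ℝ) (g : Fin M → Fin N → ℝ)
    (z : Fin N × Ix (k * R₀) n → ℝ) (j : Fin R₀) :
    ∑ x, DFxX f R₀ k S β h u lam g z j x = lam j * QX f R₀ k S β h u lam g z j := by
  have hR := one_le_kR hR₀ hk
  have hok := ok_wX (f := f) (h := h) (u := u) (β := β) (S := S) hR₀ hk lam g z
  set P : ℕ × ℕ → ℝ := fun c => ET (k * R₀) (lin (k * R₀)) (wX f R₀ k S β h u lam g z) [c, (0, 0)]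
    fun ps => dot (blockVec (k * R₀) k j ((ps.getD 0 []).map Prod.fst))
      (blockVec (k * R₀) k j ((ps.getD 1 []).map Prod.fst)) with hP
  have e1 : ∑ x, DFxX f R₀ k S β h u lam g z j x =
      lam j * ((att (k * R₀) (lin (k * R₀)) [(0, 0)]).map fun c => c.2 * P c.1).sum := by
    simp only [DFxX, ← Vale.Agent.P168.MP.list_sum_map_finset_sum, ← List.sum_map_mul_left]
    refine congrArg List.sum (List.map_congr_left fun c _ => ?_)
    rw [← mul_sum, ← Vale.Agent.P168.MP.ET_sum, mul_left_comm]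
    simp only [hP, ← Vale.Agent.P168.MP.ET_const_mul]
    congr 1; funext ps
    rw [← cv_block_lam hk]; rfl
  have htop : P (0, k * R₀) = N := by
    have hT : Valid (k * R₀) [(0, k * R₀), (0, 0)] := ⟨Nat.zero_lt_one, le_rfl, rfl, rfl⟩
    refine (Vale.Agent.P168.MP.ET_congr hT (G := fun _ => (N : ℝ)) fun ps hs => ?_).trans
      (Vale.Agent.P168.MP.ET_const (wX_pos lam g z) _ _)
    have h01 := hs.2.2 0 1 (by simp) (by simp)
    simp only [show Vale.Agent.P168.MP.sp (k * R₀) [(0, k * R₀), (0, 0)] 0 1 = k * R₀ by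
      simp [Vale.Agent.P168.MP.sp],
      List.take_of_length_le (hs.2.1 0 (by simp)).le, List.take_of_length_le (hs.2.1 1 (by simp)).le] at h01
    rw [← h01, blockVec_eq]
    exact cv_bv_self (jk_le j) ((List.length_map _).trans (hs.2.1 0 (by simp)))
  rw [e1, Par.att_single_sum hR hok.top hok.last P, htop, QX, sum_div]
  congr 1
  rw [add_comm, sub_eq_add_neg, ← sum_neg_distrib]
  refine congrArg _ (sum_congr rfl fun l hl => ?_)
  have e : Par.cf (lin (k * R₀)) l = -(1 / ((k * R₀ : ℕ) : ℝ)) := Par.coef_lt (mem_range.1 hl)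
  rw [e]; ring

/-- **Integration by parts against a bounded test functional** -/
theorem ibp_test (hR₀ : 1 ≤ R₀) (hk : 1 ≤ k) (lam : Fin R₀ → ℝ) (g : Fin M → Fin N → ℝ)
    (j : Fin R₀) {φ : (Fin N × Ix (k * R₀) n → ℝ) → ℝ}
    {φ' : Fin N × Ix (k * R₀) n → (Fin N × Ix (k * R₀) n → ℝ) → ℝ} (hφ : Continuous φ)
    (hφ' : ∀ x, Continuous (φ' x)) {C C' : ℝ} (hb : ∀ z, |φ z| ≤ C) (hb' : ∀ x z, |φ' x z| ≤ C')
    (hd : ∀ x z t, HasDerivAt (fun s => φ (Function.update z x s)) (φ' x (Function.update z x t)) t) :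
    ∫ z, HX f R₀ k S β h u lam g z j * φ z ∂gauss (Fin N × Ix (k * R₀) n) =
      ∫ z, (lam j * QX f R₀ k S β h u lam g z j * φ z +
        ∑ x, FxX f R₀ k S β h u lam g z j x * φ' x z) ∂gauss (Fin N × Ix (k * R₀) n) := by
  have hC : 0 ≤ C := (abs_nonneg _).trans (hb 0)
  set L := ∑ i, |lam i|
  have hL : 0 ≤ L := sum_nonneg fun i _ => abs_nonneg _
  have hC' : ∀ x : Fin N × Ix (k * R₀) n, 0 ≤ C' := fun x => (abs_nonneg _).trans (hb' x 0)
  have hc1 : ∀ x, Continuous fun z => FxX f R₀ k S β h u lam g z j x * φ z := fun x =>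
    (continuous_FxX lam g j x).mul hφ
  have hc2 : ∀ x, Continuous fun z => DFxX f R₀ k S β h u lam g z j x * φ z +
      FxX f R₀ k S β h u lam g z j x * φ' x z := fun x =>
    ((continuous_DFxX lam g j x).mul hφ).add ((continuous_FxX lam g j x).mul (hφ' x))
  have b1 : ∀ x z, |FxX f R₀ k S β h u lam g z j x * φ z| ≤ C + 3 * L * C + C' := fun x z => by
    rw [abs_mul]
    refine le_trans ((mul_le_of_le_one_left (abs_nonneg _) (abs_FxX_le lam g z j x)).trans (hb z)) ?_
    have := hC' x; nlinarith [mul_nonneg hL hC]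
  have b2 : ∀ x z, |DFxX f R₀ k S β h u lam g z j x * φ z + FxX f R₀ k S β h u lam g z j x * φ' x z| ≤
      C + 3 * L * C + C' := fun x z => by
    refine (abs_add_le _ _).trans ?_
    rw [abs_mul, abs_mul]
    have h1 := mul_le_mul (abs_DFxX_le (f := f) (S := S) (β := β) (h := h) (u := u) lam g z j x) (hb z)
      (abs_nonneg _) (by positivity)
    have h2 := (mul_le_of_le_one_left (abs_nonneg (φ' x z)) (abs_FxX_le (f := f) (S := S) (β := β) (h := h) (u := u) lam g z j x)).trans (hb' x z)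
    linarith
  have hi : ∀ x, ∫ z, z x * (FxX f R₀ k S β h u lam g z j x * φ z) ∂gauss (Fin N × Ix (k * R₀) n) =
      ∫ z, (DFxX f R₀ k S β h u lam g z j x * φ z + FxX f R₀ k S β h u lam g z j x * φ' x z)
        ∂gauss (Fin N × Ix (k * R₀) n) := fun x =>
    Vale.Agent.P150.gauss_ibp (C := C + 3 * L * C + C') (M := 0) x le_rfl (hc1 x) (hc2 x)
      (fun z => by simpa using b1 x z) (fun z => by simpa using b2 x z)
      fun z t => (hasDerivAt_FxX hR₀ hk lam g z j x t).mul (hd x z t)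
  have hint : ∀ x, Integrable (fun z => z x * (FxX f R₀ k S β h u lam g z j x * φ z))
      (gauss (Fin N × Ix (k * R₀) n)) := fun x =>
    Vale.Agent.P150.integrable_of_bound (C := C + 3 * L * C + C') (M := 1)
      ((continuous_apply x).mul (hc1 x)) fun z => by
        rw [one_mul, abs_mul, mul_comm (C + 3 * L * C + C')]
        exact mul_le_mul ((Vale.Agent.P150.abs_le_l1 z x).trans
          (by linarith [Real.add_one_le_exp (l1 z)])) (b1 x z) (abs_nonneg _) (Real.exp_pos _).le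
  have hint2 : ∀ x, Integrable (fun z => DFxX f R₀ k S β h u lam g z j x * φ z +
      FxX f R₀ k S β h u lam g z j x * φ' x z) (gauss (Fin N × Ix (k * R₀) n)) := fun x =>
    Integrable.of_bound (hc2 x).aestronglyMeasurable _ (Eventually.of_forall fun z => b2 x z)
  simp only [HX_eq_sum, sum_mul, mul_assoc]
  rw [integral_finsetSum _ fun x _ => hint x]
  simp only [hi]
  rw [← integral_finsetSum _ fun x _ => hint2 x]
  refine integral_congr_ae (Eventually.of_forall fun z => ?_)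
  simp only [sum_add_distrib, ← sum_mul, sum_DFxX hR₀ hk, mul_assoc]

end Vale.Agent.P157.Full.Fld
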