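import Vale.Agent.P157.Full.FieldBase

/-! Averages over patterns and fields of functionals of exponential growth in the field. -/

set_option linter.unusedSectionVars false

open MeasureTheory ProbabilityTheory Finset Filter
open Vale.Agent.P150 (gauss l1 l1_nonneg)
open Vale.Agent.P157.Par (Ix pats)

namespace Vale.Agent.P157.Full.Fld

variable {N M n R : ℕ}

/-- continuous, with a bound of exponential growth in the field, uniform in the patterns -/
def Dom (F : (Fin M → Fin N → ℝ) → (Fin N × Ix R n → ℝ) → ℝ) : Prop :=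
  Continuous (fun x : (Fin M → Fin N → ℝ) × (Fin N × Ix R n → ℝ) => F x.1 x.2) ∧
    ∃ C : ℝ, 0 ≤ C ∧ ∀ g z, |F g z| ≤ C * Real.exp (1 * l1 z)

variable {F G : (Fin M → Fin N → ℝ) → (Fin N × Ix R n → ℝ) → ℝ}

lemma Dom.right (hF : Dom F) (g : Fin M → Fin N → ℝ) : Continuous (F g) :=
  hF.1.comp (Continuous.prodMk_right g)

lemma Dom.int (hF : Dom F) (g : Fin M → Fin N → ℝ) : Integrable (F g) (gauss (Fin N × Ix R n)) := by
  obtain ⟨-, C, -, hC⟩ := id hF
  exact Vale.Agent.P150.integrable_of_bound (hF.right g) (hC g)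

lemma Dom.inner (hF : Dom F) :
    Continuous (fun g => ∫ z, F g z ∂gauss (Fin N × Ix R n)) ∧
      Integrable (fun g => ∫ z, F g z ∂gauss (Fin N × Ix R n)) (pats N M) := by
  obtain ⟨hc, C, -, hC⟩ := id hF
  have hi := (Vale.Agent.P150.integrable_exp_l1 (ι := Fin N × Ix R n) 1).const_mul C
  have hcont : Continuous fun g => ∫ z, F g z ∂gauss (Fin N × Ix R n) :=
    continuous_of_dominated (fun g => (hF.right g).aestronglyMeasurable)
      (fun g => Eventually.of_forall fun z => hC g z) hi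
      (Eventually.of_forall fun z => hc.comp (Continuous.prodMk_left z))
  refine ⟨hcont, Integrable.of_bound hcont.aestronglyMeasurable
    (∫ z, C * Real.exp (1 * l1 z) ∂gauss (Fin N × Ix R n)) (Eventually.of_forall fun g => ?_)⟩
  rw [Real.norm_eq_abs]
  exact abs_integral_le_integral_abs.trans (integral_mono_of_nonneg
    (Eventually.of_forall fun z => abs_nonneg _) hi (Eventually.of_forall fun z => hC g z))

lemma Dom.of_bdd {C : ℝ} (hc : Continuous fun x : (Fin M → Fin N → ℝ) × (Fin N × Ix R n → ℝ) => F x.1 x.2)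
    (hb : ∀ g z, |F g z| ≤ C) : Dom F :=
  ⟨hc, max C 0, le_max_right _ _, fun g z => ((hb g z).trans (le_max_left C 0)).trans
    (le_mul_of_one_le_right (le_max_right _ _) (Real.one_le_exp (by rw [one_mul]; exact l1_nonneg z)))⟩

lemma Dom.of_l1 {a b : ℝ} (ha : 0 ≤ a) (hb0 : 0 ≤ b)
    (hc : Continuous fun x : (Fin M → Fin N → ℝ) × (Fin N × Ix R n → ℝ) => F x.1 x.2)
    (hb : ∀ g z, |F g z| ≤ a + b * l1 z) : Dom F :=
  ⟨hc, a + b, add_nonneg ha hb0, fun g z => (hb g z).trans (by
    have h1 : 1 ≤ Real.exp (1 * l1 z) := Real.one_le_exp (by rw [one_mul]; exact l1_nonneg z)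
    have h2 : l1 z ≤ Real.exp (1 * l1 z) := by rw [one_mul]; linarith [Real.add_one_le_exp (l1 z)]
    rw [add_mul]
    exact add_le_add (le_mul_of_one_le_right ha h1) (mul_le_mul_of_nonneg_left h2 hb0))⟩

lemma Dom.add (hF : Dom F) (hG : Dom G) : Dom fun g z => F g z + G g z := by
  obtain ⟨hc, C, hC0, hC⟩ := hF
  obtain ⟨hc', C', hC0', hC'⟩ := hG
  exact ⟨hc.add hc', C + C', add_nonneg hC0 hC0', fun g z => (abs_add_le _ _).trans (by
    rw [add_mul]; exact add_le_add (hC g z) (hC' g z))⟩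

lemma Dom.const_mul (hF : Dom F) (c : ℝ) : Dom fun g z => c * F g z := by
  obtain ⟨hc, C, hC0, hC⟩ := hF
  exact ⟨continuous_const.mul hc, |c| * C, mul_nonneg (abs_nonneg _) hC0, fun g z => by
    rw [abs_mul, mul_assoc]; exact mul_le_mul_of_nonneg_left (hC g z) (abs_nonneg _)⟩

lemma Dom.sub (hF : Dom F) (hG : Dom G) : Dom fun g z => F g z - G g z := by
  simpa [sub_eq_add_neg] using hF.add (hG.const_mul (-1))

lemma Dom.mul_bdd (hF : Dom F) {C : ℝ}
    (hc : Continuous fun x : (Fin M → Fin N → ℝ) × (Fin N × Ix R n → ℝ) => G x.1 x.2)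
    (hb : ∀ g z, |G g z| ≤ C) : Dom fun g z => F g z * G g z := by
  obtain ⟨hc', C', hC0', hC'⟩ := hF
  exact ⟨hc'.mul hc, C' * |C|, mul_nonneg hC0' (abs_nonneg _), fun g z => by
    rw [abs_mul, mul_right_comm]
    exact mul_le_mul (hC' g z) ((hb g z).trans (le_abs_self C)) (abs_nonneg _)
      (mul_nonneg hC0' (Real.exp_pos _).le)⟩

lemma meanX_add (hF : Dom F) (hG : Dom G) :
    meanX (fun g z => F g z + G g z) = meanX F + meanX G := by
  simp only [meanX, fun g => integral_add (hF.int g) (hG.int g)]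
  exact integral_add hF.inner.2 hG.inner.2

lemma meanX_const_mul (c : ℝ) : meanX (fun g z => c * F g z) = c * meanX F := by
  simp only [meanX, integral_const_mul]

lemma meanX_sub (hF : Dom F) (hG : Dom G) :
    meanX (fun g z => F g z - G g z) = meanX F - meanX G := by
  simp only [meanX, fun g => integral_sub (hF.int g) (hG.int g)]
  exact integral_sub hF.inner.2 hG.inner.2

lemma meanX_mono (hF : Dom F) (hG : Dom G) (h : ∀ g z, F g z ≤ G g z) : meanX F ≤ meanX G :=
  integral_mono hF.inner.2 hG.inner.2 fun g => integral_mono (hF.int g) (hG.int g) (h g)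

lemma meanX_const (c : ℝ) : meanX (fun (_ : Fin M → Fin N → ℝ) (_ : Fin N × Ix R n → ℝ) => c) = c := by
  simp [meanX]

lemma abs_meanX_le (hF : Dom F) (hG : Dom G) (h : ∀ g z, |F g z| ≤ G g z) : |meanX F| ≤ meanX G := by
  rw [abs_le]
  constructor
  · have h1 := meanX_mono (hG.const_mul (-1)) hF fun g z => by linarith [(abs_le.1 (h g z)).1]
    rw [meanX_const_mul] at h1; linarith
  · exact meanX_mono hF hG fun g z => (abs_le.1 (h g z)).2

lemma abs_meanX_le_const (hF : Dom F) {C : ℝ} (h : ∀ g z, |F g z| ≤ C) : |meanX F| ≤ C :=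
  (abs_meanX_le hF (Dom.of_bdd continuous_const fun _ _ => le_rfl) h).trans_eq (meanX_const C)

lemma Dom.sum {α : Type} (s : Finset α) {F : α → (Fin M → Fin N → ℝ) → (Fin N × Ix R n → ℝ) → ℝ}
    (h : ∀ i ∈ s, Dom (F i)) : Dom fun g z => ∑ i ∈ s, F i g z := by
  classical
  induction s using Finset.induction with
  | empty => simpa using (Dom.of_bdd (C := 0) continuous_const fun (_ : Fin M → Fin N → ℝ) (_ : Fin N × Ix R n → ℝ) => by simp : Dom fun _ _ => (0:ℝ))
  | insert i s hi ih =>
    simp only [sum_insert hi]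
    exact (h i (mem_insert_self _ _)).add (ih fun j hj => h j (mem_insert_of_mem hj))

lemma meanX_sum {α : Type} (s : Finset α) {F : α → (Fin M → Fin N → ℝ) → (Fin N × Ix R n → ℝ) → ℝ}
    (h : ∀ i ∈ s, Dom (F i)) : meanX (fun g z => ∑ i ∈ s, F i g z) = ∑ i ∈ s, meanX (F i) := by
  classical
  induction s using Finset.induction with
  | empty => simp [meanX]
  | insert i s hi ih =>
    have hs := fun j hj => h j (mem_insert_of_mem hj)
    simp only [sum_insert hi]
    rw [meanX_add (h i (mem_insert_self _ _)) (Dom.sum s hs), ih hs]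

end Vale.Agent.P157.Full.Fld
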