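import Vale.Agent.P157.Full.FieldIbp

/-! The self term of a block against the tail of the mean overlaps, and the derivative of that tail. -/

set_option linter.unusedSectionVars false

open MeasureTheory ProbabilityTheory Finset Filter
open Vale.Agent.P150 (gauss dot l1)
open Vale.Agent.P168.MP (lin ET Batch Valid Supp att)
open Vale.Agent.P157.Par (Site Ix ov ovK devOf adev coll spins)

namespace Vale.Agent.P157.Full.Fld

variable {f : ℝ → ℝ} {B : ℝ}
variable {R₀ k S N n M : ℕ} [NeZero N] {ι : Type} [Fintype ι] [DecidableEq ι] {β : ι → Batch} {h u : ι → ℝ}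

lemma spins_fst {R : ℕ} (hR : 1 ≤ R) {p : List (MarkX (Site N (n + 1)) N S β)} (hp : p.length = R) :
    spins R (p.map Prod.fst) = spinX cfg R p := by
  funext i
  simp only [spins, spinX, Vale.Agent.P168.MP.spinAt]
  rw [List.getD_eq_getElem _ _ (by simp [hp]; omega), List.getD_eq_getElem _ _ (by simp [hp]; omega)]
  simp [plain, cfg]

lemma abs_tailAvg_le (R J : ℕ) {r : ℕ → ℝ} (hr : ∀ l, |r l| ≤ 1) : |tailAvg R J r| ≤ 1 := by
  rw [tailAvg, abs_div, Nat.abs_cast]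
  refine div_le_one_of_le₀ ((abs_sum_le_sum_abs _ _).trans
    ((sum_le_card_nsmul _ _ 1 fun l _ => hr l).trans ?_)) (Nat.cast_nonneg _)
  simp only [nsmul_eq_mul, mul_one, Nat.card_Ico]
  exact_mod_cast Nat.sub_le R J

lemma continuous_tailX (hf : Continuous f) (lam : Fin R₀ → ℝ) (J : ℕ) :
    Continuous fun x : (Fin M → Fin N → ℝ) × (Fin N × Ix (k * R₀) n → ℝ) =>
      tailAvg (k * R₀) J (rX f R₀ k S β h u lam x.1 x.2) :=
  (continuous_finsetSum _ fun l _ => continuous_rX hf lam l).div_const _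

lemma abs_tailX_le (lam : Fin R₀ → ℝ) (g : Fin M → Fin N → ℝ) (z : Fin N × Ix (k * R₀) n → ℝ) (J : ℕ) :
    |tailAvg (k * R₀) J (rX f R₀ k S β h u lam g z)| ≤ 1 :=
  abs_tailAvg_le _ _ fun l => abs_rX_le lam g z l

/-- mean collisions at the levels of the pairs -/
noncomputable def CX (f : ℝ → ℝ) (R₀ k S : ℕ) (β : ι → Batch) (h u : ι → ℝ) (lam : Fin R₀ → ℝ)
    (g : Fin M → Fin N → ℝ) (z : Fin N × Ix (k * R₀) n → ℝ) : ℝ :=
  (∑ l ∈ range (k * R₀), ∑ i : Fin N, ET (k * R₀) (lin (k * R₀)) (wX f R₀ k S β h u lam g z) [(0, l), (0, 0)]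
    fun ps => coll i l [(ps.getD 0 []).map Prod.fst, (ps.getD 1 []).map Prod.fst]) / (k * R₀ : ℕ)

lemma CX_bounds (lam : Fin R₀ → ℝ) (g : Fin M → Fin N → ℝ) (z : Fin N × Ix (k * R₀) n → ℝ) :
    0 ≤ CX f R₀ k S β h u lam g z ∧ CX f R₀ k S β h u lam g z ≤ N := by
  have hb : ∀ l (i : Fin N), 0 ≤ ET (k * R₀) (lin (k * R₀)) (wX f R₀ k S β h u lam g z) [(0, l), (0, 0)]
      (fun ps => coll i l [(ps.getD 0 []).map Prod.fst, (ps.getD 1 []).map Prod.fst]) ∧
      ET (k * R₀) (lin (k * R₀)) (wX f R₀ k S β h u lam g z) [(0, l), (0, 0)]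
      (fun ps => coll i l [(ps.getD 0 []).map Prod.fst, (ps.getD 1 []).map Prod.fst]) ≤ 1 := fun l i =>
    ⟨Vale.Agent.P168.MP.ET_nonneg (wX_pos lam g z) fun _ => Par.coll_nonneg _ _ _,
      (le_abs_self _).trans (Vale.Agent.P168.MP.ET_bound (wX_pos lam g z) fun ps => by
        rw [abs_of_nonneg (Par.coll_nonneg _ _ _)]; unfold Par.coll; split_ifs <;> norm_num)⟩
  refine ⟨div_nonneg (sum_nonneg fun l _ => sum_nonneg fun i _ => (hb l i).1) (Nat.cast_nonneg _), ?_⟩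
  refine div_le_of_le_mul₀ (Nat.cast_nonneg _) (Nat.cast_nonneg _) ?_
  refine (sum_le_card_nsmul _ _ (N : ℝ) fun l _ =>
    (sum_le_card_nsmul _ _ 1 fun i _ => (hb l i).2).trans_eq (by simp)).trans (le_of_eq ?_)
  rw [card_range, nsmul_eq_mul, mul_comm]

lemma continuous_CX (hf : Continuous f) (lam : Fin R₀ → ℝ) :
    Continuous fun x : (Fin M → Fin N → ℝ) × (Fin N × Ix (k * R₀) n → ℝ) => CX f R₀ k S β h u lam x.1 x.2 :=
  (continuous_finsetSum _ fun _ _ => continuous_finsetSum _ fun _ _ => continuous_ET_both hf lam _ _).div_const _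

/-- the self term is the complement of the tail of the overlaps, up to collisions -/
lemma QX_near (hR₀ : 1 ≤ R₀) (hk : 1 ≤ k) (lam : Fin R₀ → ℝ) (g : Fin M → Fin N → ℝ)
    (z : Fin N × Ix (k * R₀) n → ℝ) (j : Fin R₀) :
    |QX f R₀ k S β h u lam g z j -
      N * (1 - tailAvg (k * R₀) (j * k) (rX f R₀ k S β h u lam g z))| ≤ CX f R₀ k S β h u lam g z := by
  have hR := one_le_kR hR₀ hk
  have hRpos : (0 : ℝ) < ((k * R₀ : ℕ) : ℝ) := Nat.cast_pos.2 hR
  set P : ℕ → ℝ := fun l => ET (k * R₀) (lin (k * R₀)) (wX f R₀ k S β h u lam g z) [(0, l), (0, 0)]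
    fun ps => dot (blockVec (k * R₀) k j ((ps.getD 0 []).map Prod.fst))
      (blockVec (k * R₀) k j ((ps.getD 1 []).map Prod.fst)) with hP
  set r := rX f R₀ k S β h u lam g z with hr
  have hIco : ∑ l ∈ Ico ((j : ℕ) * k) (k * R₀), r l = ∑ l ∈ range (k * R₀), if (j : ℕ) * k ≤ l then r l else 0 := by
    rw [← sum_filter]
    exact sum_congr (by ext; simp [and_comm]) fun _ _ => rfl
  have e : QX f R₀ k S β h u lam g z j - N * (1 - tailAvg (k * R₀) (j * k) r) =
      -((∑ l ∈ range (k * R₀), (P l - if (j : ℕ) * k ≤ l then (N : ℝ) * r l else 0)) / ((k * R₀ : ℕ) : ℝ)) := by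
    simp only [sum_sub_distrib, ← mul_ite_zero, ← mul_sum, ← hIco, QX, tailAvg, hP]
    ring
  rw [e, abs_neg, abs_div, Nat.abs_cast, CX]
  refine div_le_div_of_nonneg_right ((abs_sum_le_sum_abs _ _).trans (sum_le_sum fun l hl => ?_)) hRpos.le
  have hlR := mem_range.1 hl
  have hT : Valid (k * R₀) [(0, l), (0, 0)] := ⟨Nat.zero_lt_one, hlR.le, rfl, rfl⟩
  have hite : (if (j : ℕ) * k ≤ l then (N : ℝ) * r l else 0) =
      ET (k * R₀) (lin (k * R₀)) (wX f R₀ k S β h u lam g z) [(0, l), (0, 0)] fun ps =>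
        (if (j : ℕ) * k ≤ l then (N : ℝ) else 0) * ovK (spinX cfg (k * R₀)) (ps.getD 0 []) (ps.getD 1 []) := by
    rw [Vale.Agent.P168.MP.ET_const_mul, ite_mul, zero_mul]; rfl
  rw [hite, hP, ← Vale.Agent.P168.MP.ET_sub, ← Vale.Agent.P168.MP.ET_sum]
  refine (Vale.Agent.P168.MP.ET_abs_le (wX_pos lam g z) _ _).trans
    (Vale.Agent.P168.MP.ET_mono_on (wX_pos lam g z) hT fun ps hs => ?_)
  have e1 := hs.2.2 0 1 (by simp) (by simp)
  simp only [show Vale.Agent.P168.MP.sp (k * R₀) [(0, l), (0, 0)] 0 1 = l by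
    simp [Vale.Agent.P168.MP.sp, hlR.le]] at e1
  have l0 := hs.2.1 0 (show 0 < ([(0, l), (0, 0)] : List (ℕ × ℕ)).length by simp)
  have l1 := hs.2.1 1 (show 1 < ([(0, l), (0, 0)] : List (ℕ × ℕ)).length by simp)
  refine le_trans (le_of_eq ?_) (cv_bv_split (J := (j : ℕ) * k) (l := l) (jk_le j)
    ((List.length_map _).trans l0) ((List.length_map _).trans l1) hlR
    (by rw [← List.map_take, ← List.map_take, e1]))
  rw [spins_fst hR l0, spins_fst hR l1, ite_mul, zero_mul]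
  rfl

/-- the derivative of the mean overlap at level `l` -/
noncomputable def DrX (f : ℝ → ℝ) (R₀ k S : ℕ) (β : ι → Batch) (h u : ι → ℝ) (lam : Fin R₀ → ℝ)
    (g : Fin M → Fin N → ℝ) (z : Fin N × Ix (k * R₀) n → ℝ) (l : ℕ) (x : Fin N × Ix (k * R₀) n) : ℝ :=
  ((att (k * R₀) (lin (k * R₀)) [(0, l), (0, 0)]).map fun c => c.2 *
    ET (k * R₀) (lin (k * R₀)) (wX f R₀ k S β h u lam g z) [c.1, (0, l), (0, 0)] fun ps =>
      (ovK (spinX cfg (k * R₀)) (ps.dropLast.getD 0 []) (ps.dropLast.getD 1 []) -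
        rX f R₀ k S β h u lam g z l) * lamVec R₀ k lam ((ps.getLastD []).map Prod.fst) x).sum

lemma hasDerivAt_rX (hR₀ : 1 ≤ R₀) (hk : 1 ≤ k) (lam : Fin R₀ → ℝ) (g : Fin M → Fin N → ℝ)
    (z : Fin N × Ix (k * R₀) n → ℝ) {l : ℕ} (hl : l ≤ k * R₀) (x : Fin N × Ix (k * R₀) n) (t : ℝ) :
    HasDerivAt (fun s => rX f R₀ k S β h u lam g (Function.update z x s) l)
      (DrX f R₀ k S β h u lam g (Function.update z x t) l x) t := by
  have hT : Valid (k * R₀) [(0, l), (0, 0)] := ⟨Nat.zero_lt_one, hl, rfl, rfl⟩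
  set r := rX f R₀ k S β h u lam g (Function.update z x t) l
  have h1 := Vale.Agent.P168.MP.hasDerivAt_ET_const
    (w := fun s => wX f R₀ k S β h u lam g (Function.update z x s))
    (g := fun p : List (MarkX (Site N (n + 1)) N S β) => lamVec R₀ k lam (p.map Prod.fst) x)
    (ok_wX hR₀ hk lam g _) (fun p => hasDerivAt_wX lam g z x t p) hT
    fun ps => ovK (spinX cfg (k * R₀)) (ps.getD 0 []) (ps.getD 1 []) - r
  have e : (fun s => ET (k * R₀) (lin (k * R₀)) (wX f R₀ k S β h u lam g (Function.update z x s))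
      [(0, l), (0, 0)] fun ps => ovK (spinX cfg (k * R₀)) (ps.getD 0 []) (ps.getD 1 []) - r) =
      fun s => rX f R₀ k S β h u lam g (Function.update z x s) l - r := funext fun s => by
    rw [Vale.Agent.P168.MP.ET_sub, Vale.Agent.P168.MP.ET_const (wX_pos lam g _)]; rfl
  rw [e] at h1
  exact (h1.add_const r).congr_of_eventuallyEq (Eventually.of_forall fun s => (sub_add_cancel _ _).symm)

lemma continuous_DrX (hf : Continuous f) (lam : Fin R₀ → ℝ) (g : Fin M → Fin N → ℝ) (l : ℕ)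
    (x : Fin N × Ix (k * R₀) n) : Continuous fun z => DrX f R₀ k S β h u lam g z l x :=
  continuous_list_sum _ fun _ _ => continuous_const.mul
    (Par.continuous_ET (fun p => continuous_wX_right lam g p) (fun z p => wX_pos lam g z p) _ _
      fun _ => (continuous_const.sub
        ((continuous_rX hf lam l).comp (Continuous.prodMk_right g))).mul continuous_const)

lemma att_two_sum_le (l : ℕ) :
    ((att (k * R₀) (lin (k * R₀)) [(0, l), (0, 0)]).map fun c => |c.2|).sum ≤ 6 := by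
  refine (Par.att_abs_sum_le (R := k * R₀) [(0, l), (0, 0)]).trans (le_of_eq ?_)
  simp only [List.length_cons, List.length_nil]; norm_num

lemma abs_DrX_le (lam : Fin R₀ → ℝ) (g : Fin M → Fin N → ℝ) (z : Fin N × Ix (k * R₀) n → ℝ) (l : ℕ)
    (x : Fin N × Ix (k * R₀) n) : |DrX f R₀ k S β h u lam g z l x| ≤ 6 * (2 * ∑ i, |lam i|) := by
  refine (Par.abs_list_sum _ _).trans
    ((Par.list_sum_le (g := fun c => |c.2| * (2 * ∑ i, |lam i|)) fun c _ => ?_).trans ?_)
  · rw [abs_mul]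
    refine mul_le_mul_of_nonneg_left (Vale.Agent.P168.MP.ET_bound (wX_pos lam g z) fun ps => ?_) (abs_nonneg _)
    rw [abs_mul]
    refine mul_le_mul ((abs_sub _ _).trans ?_) (abs_lamVec_le lam _ x) (abs_nonneg _) zero_le_two
    have := abs_rX_le (f := f) (S := S) (β := β) (h := h) (u := u) lam g z l
    have : |ovK (spinX cfg (k * R₀)) (ps.dropLast.getD 0 []) (ps.dropLast.getD 1 [])| ≤ 1 := Par.abs_ov_le' _ _
    linarith
  · rw [List.sum_map_mul_right]
    exact mul_le_mul_of_nonneg_right (att_two_sum_le l) (mul_nonneg zero_le_two (sum_nonneg fun i _ => abs_nonneg _))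

/-- the field energies against the derivative of an overlap: only the deviation remains -/
lemma sum_Fx_DrX (hk : 1 ≤ k) (lam : Fin R₀ → ℝ) (g : Fin M → Fin N → ℝ)
    (z : Fin N × Ix (k * R₀) n → ℝ) (j : Fin R₀) {l : ℕ} (hl : l ≤ k * R₀) :
    |∑ x, FxX f R₀ k S β h u lam g z j x * DrX f R₀ k S β h u lam g z l x| ≤
      6 * (|lam j| * N) * devOf (k * R₀) (wX f R₀ k S β h u lam g z) (ovK (spinX cfg (k * R₀)))
        (rX f R₀ k S β h u lam g z) l := by
  have hw := wX_pos (f := f) (S := S) (β := β) (h := h) (u := u) lam g z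
  have hT : Valid (k * R₀) [(0, l), (0, 0)] := ⟨Nat.zero_lt_one, hl, rfl, rfl⟩
  set dev := devOf (k * R₀) (wX f R₀ k S β h u lam g z) (ovK (spinX cfg (k * R₀)))
    (rX f R₀ k S β h u lam g z) l with hdev
  have hF : ∀ p : List (Site N (n + 1)),
      |∑ x, FxX f R₀ k S β h u lam g z j x * lamVec R₀ k lam p x| ≤ |lam j| * N := fun p => by
    simp only [FxX, ← Vale.Agent.P168.MP.ET_mul_const, ← Vale.Agent.P168.MP.ET_sum]
    refine Vale.Agent.P168.MP.ET_bound hw fun ps => ?_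
    rw [← dot, cv_block_lam hk, abs_mul, blockVec_eq]
    exact mul_le_mul_of_nonneg_left (abs_cv_bv_le (jk_le j) _ _) (abs_nonneg _)
  simp only [DrX, ← List.sum_map_mul_left, ← Vale.Agent.P168.MP.list_sum_map_finset_sum]
  refine (Par.abs_list_sum _ _).trans ((Par.list_sum_le (g := fun c => |c.2| * (|lam j| * N * dev)) fun c hc => ?_).trans ?_)
  · simp only [mul_left_comm _ c.2, ← mul_sum, ← Vale.Agent.P168.MP.ET_const_mul, ← Vale.Agent.P168.MP.ET_sum]
    refine (Vale.Agent.P168.MP.ET_abs_le hw _ _).trans ?_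
    have hb : ET (k * R₀) (lin (k * R₀)) (wX f R₀ k S β h u lam g z) [c.1, (0, l), (0, 0)]
        (fun ps => |ovK (spinX cfg (k * R₀)) (ps.dropLast.getD 0 []) (ps.dropLast.getD 1 []) -
          rX f R₀ k S β h u lam g z l|) = dev := by
      rw [show c.1 = (c.1.1, c.1.2) from rfl, Vale.Agent.P168.MP.ET_cons, hdev, devOf]
      simp only [List.dropLast_concat, Vale.Agent.P168.MP.ext_const hw]
    rw [← hb, ← mul_assoc |c.2|, ← Vale.Agent.P168.MP.ET_const_mul]
    refine Vale.Agent.P168.MP.ET_mono hw fun ps => ?_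
    set o := ovK (spinX cfg (k * R₀)) (ps.dropLast.getD 0 []) (ps.dropLast.getD 1 []) -
      rX f R₀ k S β h u lam g z l
    have e : ∑ x, FxX f R₀ k S β h u lam g z j x * (o * lamVec R₀ k lam ((ps.getLastD []).map Prod.fst) x) =
        o * ∑ x, FxX f R₀ k S β h u lam g z j x * lamVec R₀ k lam ((ps.getLastD []).map Prod.fst) x := by
      rw [mul_sum]; exact sum_congr rfl fun x _ => by ring
    rw [e, abs_mul, abs_mul, mul_assoc |c.2|, mul_comm |o|]
    exact mul_le_mul_of_nonneg_left (mul_le_mul_of_nonneg_right (hF _) (abs_nonneg _)) (abs_nonneg _)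
  · rw [List.sum_map_mul_right]
    refine (mul_le_mul_of_nonneg_right (att_two_sum_le l) ?_).trans (le_of_eq (by ring))
    exact mul_nonneg (by positivity) (Vale.Agent.P168.MP.ET_nonneg hw fun _ => abs_nonneg _)

/-- the derivative of the tail -/
noncomputable def DTX (f : ℝ → ℝ) (R₀ k S : ℕ) (β : ι → Batch) (h u : ι → ℝ) (lam : Fin R₀ → ℝ)
    (g : Fin M → Fin N → ℝ) (z : Fin N × Ix (k * R₀) n → ℝ) (J : ℕ) (x : Fin N × Ix (k * R₀) n) : ℝ :=
  (∑ l ∈ Ico J (k * R₀), DrX f R₀ k S β h u lam g z l x) / (k * R₀ : ℕ)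

lemma hasDerivAt_tailX (hR₀ : 1 ≤ R₀) (hk : 1 ≤ k) (lam : Fin R₀ → ℝ) (g : Fin M → Fin N → ℝ)
    (z : Fin N × Ix (k * R₀) n → ℝ) (J : ℕ) (x : Fin N × Ix (k * R₀) n) (t : ℝ) :
    HasDerivAt (fun s => tailAvg (k * R₀) J (rX f R₀ k S β h u lam g (Function.update z x s)))
      (DTX f R₀ k S β h u lam g (Function.update z x t) J x) t :=
  (HasDerivAt.fun_sum fun _ hl => hasDerivAt_rX hR₀ hk lam g z (mem_Ico.1 hl).2.le x t).div_const _

lemma continuous_DTX (hf : Continuous f) (lam : Fin R₀ → ℝ) (g : Fin M → Fin N → ℝ) (J : ℕ)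
    (x : Fin N × Ix (k * R₀) n) : Continuous fun z => DTX f R₀ k S β h u lam g z J x :=
  (continuous_finsetSum _ fun l _ => continuous_DrX hf lam g l x).div_const _

lemma abs_DTX_le (lam : Fin R₀ → ℝ) (g : Fin M → Fin N → ℝ) (z : Fin N × Ix (k * R₀) n → ℝ) (J : ℕ)
    (x : Fin N × Ix (k * R₀) n) : |DTX f R₀ k S β h u lam g z J x| ≤ 6 * (2 * ∑ i, |lam i|) := by
  rw [DTX, abs_div, Nat.abs_cast]
  refine div_le_of_le_mul₀ (Nat.cast_nonneg _) (by positivity) ((abs_sum_le_sum_abs _ _).trans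
    ((sum_le_card_nsmul _ _ _ fun l _ => abs_DrX_le lam g z l x).trans ?_))
  rw [nsmul_eq_mul, Nat.card_Ico, mul_comm (6 * _)]
  exact mul_le_mul_of_nonneg_right (Nat.cast_le.2 (Nat.sub_le _ _)) (by positivity)

lemma sum_Fx_DTX (hk : 1 ≤ k) (lam : Fin R₀ → ℝ) (g : Fin M → Fin N → ℝ)
    (z : Fin N × Ix (k * R₀) n → ℝ) (j : Fin R₀) (J : ℕ) :
    |∑ x, FxX f R₀ k S β h u lam g z j x * DTX f R₀ k S β h u lam g z J x| ≤
      6 * (|lam j| * N) * adev (k * R₀) (wX f R₀ k S β h u lam g z) (ovK (spinX cfg (k * R₀)))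
        (rX f R₀ k S β h u lam g z) := by
  simp only [DTX, mul_div_assoc', mul_sum, ← sum_div]
  rw [sum_comm, abs_div, Nat.abs_cast]
  have h0 : ∀ l, 0 ≤ devOf (k * R₀) (wX f R₀ k S β h u lam g z) (ovK (spinX cfg (k * R₀)))
      (rX f R₀ k S β h u lam g z) l := fun l =>
    Vale.Agent.P168.MP.ET_nonneg (wX_pos lam g z) fun _ => abs_nonneg _
  unfold adev
  rw [mul_add, mul_div_assoc', mul_sum]
  refine le_trans ?_ (le_add_of_nonneg_right (mul_nonneg (by positivity) (h0 _)))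
  refine div_le_div_of_nonneg_right ((abs_sum_le_sum_abs _ _).trans ((sum_le_sum fun l hl =>
    sum_Fx_DrX hk lam g z j (mem_Ico.1 hl).2.le).trans ?_)) (Nat.cast_nonneg _)
  exact sum_le_sum_of_subset_of_nonneg (fun l hl => mem_range.2 (mem_Ico.1 hl).2) fun l _ _ =>
    mul_nonneg (by positivity) (h0 l)

end Vale.Agent.P157.Full.Fld
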