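import Vale.Agent.P157.Full.UDefs
import Vale.Agent.P157.Par.UpperMix

/-! The block vectors of the site field: orthogonality of different blocks, the covariance of two replicas up to
collisions of labels, and the collision bound under a bounded perturbation of the weight. -/

open MeasureTheory ProbabilityTheory Finset
open Vale.Agent.P150 (gauss dot l1)
open Vale.Agent.P168 (sg)
open Vale.Agent.P168.MP (Valid ET lin Supp Batch avg)
open Vale.Agent.P157.Par (Site Ix key cv spins labs ov coll siteVec node cst)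

namespace Vale.Agent.P157.Full.Fld

variable {N n R J J' l : ℕ}

lemma cst_step (J j : ℕ) : cst (step J) j = if j = J then 1 else 0 := by
  cases j with
  | zero => by_cases h : J = 0 <;> simp [cst, step, h, eq_comm]
  | succ j =>
    simp only [cst, step]
    by_cases h1 : J ≤ j
    · simp [h1, le_trans h1 (Nat.le_succ j), show j + 1 ≠ J by omega]
    · by_cases h2 : J = j + 1
      · subst h2; simp
      · simp [h1, show ¬ J ≤ j + 1 by omega, show j + 1 ≠ J by omega]

/-- the vector of the indicator profile of the levels above `J` -/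
noncomputable def bv (R J : ℕ) (p : List (Site N (n + 1))) : Fin N × Ix R n → ℝ :=
  siteVec R (fun x => node R (step J) x) p

lemma blockVec_eq (R k j : ℕ) (p : List (Site N (n + 1))) : blockVec R k j p = bv R (j * k) p := rfl

lemma node_step_eq (hJ : J ≤ R) {x : List (Fin (n + 1))} (hx : x.length = R) (κ : Ix R n) :
    node R (step J) x κ = if κ = key (x.take J) then 1 else 0 := by
  rw [Par.node, hx, min_self, sum_eq_single_of_mem J (by simp; omega)]
  · simp [cst_step]
  · intro j _ hj; simp [cst_step, hj]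

lemma bv_eq (hJ : J ≤ R) {p : List (Site N (n + 1))} (hp : p.length = R) (x : Fin N × Ix R n) :
    bv R J p x = sg (spins R p x.1) * if x.2 = key ((labs x.1 p).take J) then 1 else 0 := by
  rw [bv, Par.siteVec, if_pos hp, node_step_eq hJ (by simp [labs, hp])]

lemma bv_ne {p : List (Site N (n + 1))} (hp : p.length ≠ R) (x : Fin N × Ix R n) : bv R J p x = 0 :=
  if_neg hp

lemma abs_bv_le (hJ : J ≤ R) (p : List (Site N (n + 1))) (x : Fin N × Ix R n) : |bv R J p x| ≤ 1 := by
  by_cases hp : p.length = R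
  · rw [bv_eq hJ hp, abs_mul, Par.abs_sg, one_mul]; split_ifs <;> norm_num
  · rw [bv_ne hp]; norm_num

lemma cv_bv_eq (hJ : J ≤ R) (hJ' : J' ≤ R) {p p' : List (Site N (n + 1))} (hp : p.length = R)
    (hp' : p'.length = R) : dot (bv R J p) (bv R J' p') =
      ∑ i, sg (spins R p i) * sg (spins R p' i) *
        if (key ((labs i p).take J) : Ix R n) = key ((labs i p').take J') then 1 else 0 := by
  rw [dot, Fintype.sum_prod_type]
  refine sum_congr rfl fun i _ => ?_
  simp [bv_eq hJ hp, bv_eq hJ' hp', mul_ite, ite_mul]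
  split_ifs with h1 h2 <;> simp_all

/-- different blocks are orthogonal -/
lemma cv_bv_ne (hJ : J ≤ R) (hJ' : J' ≤ R) (hne : J ≠ J') (p p' : List (Site N (n + 1))) :
    dot (bv R J p) (bv R J' p') = 0 := by
  by_cases hp : p.length = R
  · by_cases hp' : p'.length = R
    · rw [cv_bv_eq hJ hJ' hp hp']
      refine sum_eq_zero fun i _ => ?_
      rw [if_neg, mul_zero]
      intro h
      refine hne ?_
      have := ((Par.key_take_eq (by simp [labs, hp, hJ]) (by simp [labs, hp', hJ'])).1 h).1
      exact this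
    · simp [dot, bv_ne hp']
  · simp [dot, bv_ne hp]

lemma cv_bv_self (hJ : J ≤ R) {p : List (Site N (n + 1))} (hp : p.length = R) :
    dot (bv R J p) (bv R J p) = N := by
  rw [cv_bv_eq hJ hJ hp hp]
  simp [Par.sg_mul_self]

lemma dot_bv_self_le (hJ : J ≤ R) (p : List (Site N (n + 1))) : dot (bv R J p) (bv R J p) ≤ N := by
  by_cases hp : p.length = R
  · exact (cv_bv_self hJ hp).le
  · simp [dot, bv_ne hp]

lemma abs_cv_bv_le (hJ : J ≤ R) (p p' : List (Site N (n + 1))) : |dot (bv R J p) (bv R J p')| ≤ N := by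
  by_cases hp : p.length = R
  · by_cases hp' : p'.length = R
    · rw [cv_bv_eq hJ hJ hp hp']
      refine (abs_sum_le_sum_abs _ _).trans ((sum_le_card_nsmul _ _ 1 fun i _ => ?_).trans (by simp))
      rw [abs_mul, abs_mul, Par.abs_sg, Par.abs_sg, one_mul, one_mul]
      split_ifs <;> norm_num
    · simp [dot, bv_ne hp']
  · simp [dot, bv_ne hp]

lemma labs_getD (i : Fin N) {p : List (Site N (n + 1))} (hp : p.length = R) (hl : l < R) :
    (labs i p).getD l 0 = ((p.getD l fun _ => (false, 0)) i).2 := by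
  rw [List.getD_eq_getElem _ _ (by simp [labs, hp, hl]), List.getD_eq_getElem _ _ (hp ▸ hl)]
  simp [labs]

/-- two replicas splitting at level `l`: the overlap above the start of the block, up to collisions below it -/
lemma cv_bv_split [NeZero N] (hJ : J ≤ R) {p p' : List (Site N (n + 1))} (hp : p.length = R)
    (hp' : p'.length = R) (hl : l < R) (h : p.take l = p'.take l) :
    |dot (bv R J p) (bv R J p') - (if J ≤ l then N * ov (spins R p) (spins R p') else 0)| ≤
      ∑ i, coll i l [p, p'] := by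
  rw [cv_bv_eq hJ hJ hp hp']
  by_cases hJl : J ≤ l
  · rw [if_pos hJl, ← Par.sum_sg_eq, ← sum_sub_distrib]
    refine le_trans (le_of_eq ?_) (sum_nonneg fun i _ => Par.coll_nonneg i l _)
    refine abs_eq_zero.2 (sum_eq_zero fun i _ => ?_)
    rw [if_pos, mul_one, sub_self]
    have : (labs i p).take J = (labs i p').take J := by
      simp only [labs, ← List.map_take, Vale.Agent.P168.MP.take_of_le h hJl]
    rw [this]
  · rw [if_neg hJl, sub_zero]
    refine (abs_sum_le_sum_abs _ _).trans (sum_le_sum fun i _ => ?_)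
    rw [abs_mul, abs_mul, Par.abs_sg, Par.abs_sg, one_mul, one_mul]
    split_ifs with hk
    · have e := ((Par.key_take_eq (by simp [labs, hp, hJ]) (by simp [labs, hp', hJ])).1 hk).2
      have e' := congrArg (fun x => x.getD l 0) e
      simp only [List.getD_eq_getElem?_getD, List.getElem?_take_of_lt (show l < J by omega)] at e'
      simp only [← List.getD_eq_getElem?_getD, labs_getD i hp hl, labs_getD i hp' hl] at e'
      simp only [Par.coll, List.getD_cons_zero, List.getD_cons_succ, e', if_pos, abs_one, le_refl]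
    · simp [Par.coll_nonneg]

/-! ### the whole field -/

variable {R₀ k : ℕ}

lemma jk_le (j : Fin R₀) : (j : ℕ) * k ≤ k * R₀ := by
  rw [mul_comm]; exact Nat.mul_le_mul_left k j.2.le

lemma cv_block_lam (hk : 1 ≤ k) (lam : Fin R₀ → ℝ) (j : Fin R₀) (p p' : List (Site N (n + 1))) :
    dot (blockVec (k * R₀) k j p) (lamVec R₀ k lam p') =
      lam j * dot (blockVec (k * R₀) k j p) (blockVec (k * R₀) k j p') := by
  simp only [blockVec_eq, lamVec, dot, mul_sum]
  rw [sum_comm, sum_eq_single j]
  · exact sum_congr rfl fun x _ => by ring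
  · intro i _ hi
    have h := cv_bv_ne (jk_le (k := k) j) (jk_le i)
      (fun e => hi (Fin.ext (Nat.eq_of_mul_eq_mul_right (by omega) e).symm)) p p'
    simp only [mul_left_comm _ (lam i), ← mul_sum]
    rw [← dot, h, mul_zero]
  · simp

lemma dot_lamVec (lam : Fin R₀ → ℝ) (p : List (Site N (n + 1))) (z : Fin N × Ix (k * R₀) n → ℝ) :
    dot (lamVec R₀ k lam p) z = ∑ j, lam j * dot (blockVec (k * R₀) k j p) z := by
  simp only [lamVec, dot, sum_mul, mul_sum]
  rw [sum_comm]
  exact sum_congr rfl fun j _ => sum_congr rfl fun x _ => by ring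

lemma dot_lamVec_self_le (hk : 1 ≤ k) (lam : Fin R₀ → ℝ) (p : List (Site N (n + 1))) :
    dot (lamVec R₀ k lam p) (lamVec R₀ k lam p) ≤ N * ∑ j, lam j ^ 2 := by
  rw [dot_lamVec, mul_sum]
  refine sum_le_sum fun j _ => ?_
  rw [cv_block_lam hk, ← mul_assoc, ← sq, mul_comm (N : ℝ), blockVec_eq]
  exact mul_le_mul_of_nonneg_left (dot_bv_self_le (jk_le j) p) (sq_nonneg _)

/-! ### collisions -/

/-- collisions of labels are rare under a bounded weight with a field read from the first marks -/
lemma ET_collX [NeZero N] {A : Type} [Fintype A] [Nonempty A] {ι : Type} [Fintype ι] (hR : 1 ≤ R)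
    (a : List (Site N (n + 1)) → ι → ℝ) {V : ℝ} (ha : ∀ p, dot (a p) (a p) ≤ V)
    (ha0 : ∀ p, p.length ≠ R → ∀ x, a p x = 0)
    {Y : List (Site N (n + 1) × A) → ℝ} {C : ℝ} (hY : ∀ p, Real.exp (-C) ≤ Y p ∧ Y p ≤ Real.exp C)
    (i : Fin N) (hl : l < R) :
    ∫ z, ET R (lin R) (fun p => Y p * Real.exp (dot (a (p.map Prod.fst)) z)) [(0, l), (0, 0)]
      (fun ps => coll i l [(ps.getD 0 []).map Prod.fst, (ps.getD 1 []).map Prod.fst]) ∂gauss ι ≤
      Par.collK N R V C / √((n + 1 : ℕ) : ℝ) := by
  classical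
  set P := Fin R → Site N (n + 1)
  set av : P → ι → ℝ := fun q => a (List.ofFn q)
  set m := 2 * N * R
  obtain ⟨hI, hIn⟩ := Par.integral_exp_fmax av (fun q => ha _) (show (0 : ℝ) ≤ 4 by norm_num) m
  have hX : ∀ (p : List (Site N (n + 1))) z, |dot (a p) z| ≤ Par.fmax av z := fun p z => by
    by_cases hp : p.length = R
    · subst hp
      have := Par.le_fmax av z fun j => p.get j
      simpa [av, List.ofFn_get] using this
    · simp only [dot, ha0 p hp, zero_mul, sum_const_zero, abs_zero]
      exact (abs_nonneg _).trans (Par.le_fmax av z fun _ => fun _ => (false, 0))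
  have hY0 : ∀ p, 0 < Y p := fun p => (Real.exp_pos _).trans_le (hY p).1
  have hc0 : ∀ ps : List (List (Site N (n + 1) × A)),
      0 ≤ coll i l [(ps.getD 0 []).map Prod.fst, (ps.getD 1 []).map Prod.fst] := fun ps => Par.coll_nonneg _ _ _
  have d : (Site N (n + 1) × A) := Classical.arbitrary (Site N (n + 1) × A)
  have hle : ∀ z, ET R (lin R) (fun p => Y p * Real.exp (dot (a (p.map Prod.fst)) z)) [(0, l), (0, 0)]
      (fun ps => coll i l [(ps.getD 0 []).map Prod.fst, (ps.getD 1 []).map Prod.fst]) ≤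
      Real.exp (4 * C) / ((n + 1 : ℕ) : ℝ) * Real.exp (4 * Par.fmax av z) := fun z => by
    have hb : ∀ p, Real.exp (-(C + Par.fmax av z)) ≤ Y p * Real.exp (dot (a (p.map Prod.fst)) z) ∧
        Y p * Real.exp (dot (a (p.map Prod.fst)) z) ≤ Real.exp (C + Par.fmax av z) := fun p => by
      rw [neg_add, Real.exp_add, Real.exp_add]
      exact ⟨mul_le_mul (hY p).1 (Real.exp_le_exp.2 (abs_le.1 (hX _ z)).1) (Real.exp_pos _).le (hY0 p).le,
        mul_le_mul (hY p).2 (Real.exp_le_exp.2 (abs_le.1 (hX _ z)).2) (Real.exp_pos _).le (Real.exp_pos _).le⟩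
    have key := Par.ET_tilt_le (Vale.Agent.P168.MP.ok_lin hR (w := fun _ : List (Site N (n + 1) × A) => (1 : ℝ)) fun _ => one_pos)
      (Real.exp_pos _) hb hl.le (H := fun ps => coll i l [(ps.getD 0 []).map Prod.fst, (ps.getD 1 []).map Prod.fst]) hc0
    simp only [one_mul] at key
    refine key.trans (le_of_eq ?_)
    have e := Par.ET_one_collision (R := R) (m := lin R) d (fun o : (Site N (n + 1) × A) => (o.1 i).2)
      (δ := 1 / ((n + 1 : ℕ) : ℝ)) (fun x => by
        rw [Vale.Agent.P168.MP.Upper.avg_fst (B := A) (fun o : Site N (n + 1) => if (o i).2 = x then (1 : ℝ) else 0)]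
        exact Par.avg_label i x) hl
    have hcoll : ET R (lin R) (fun _ : List (Site N (n + 1) × A) => (1 : ℝ)) [(0, l), (0, 0)]
        (fun ps => coll i l [(ps.getD 0 []).map Prod.fst, (ps.getD 1 []).map Prod.fst]) =
        1 / ((n + 1 : ℕ) : ℝ) := by
      rw [← e]
      have hT : Valid R [(0, l), (0, 0)] := ⟨Nat.zero_lt_one, hl.le, rfl, rfl⟩
      refine Vale.Agent.P168.MP.ET_congr hT fun ps hs => ?_
      have g : ∀ q : List (Site N (n + 1) × A), q.length = R →
          (q.map Prod.fst).getD l (fun _ => (false, 0)) = (q.getD l d).1 := fun q hq => by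
        rw [List.getD_eq_getElem _ _ (by simp [hq, hl]), List.getD_eq_getElem _ _ (hq ▸ hl)]
        simp
      simp only [Par.coll, List.getD_cons_zero, List.getD_cons_succ, g _ (hs.2.1 0 (by simp)),
        g _ (hs.2.1 1 (by simp))]
    rw [hcoll, ← Real.exp_sub, ← Real.exp_nat_mul]
    rw [show ((2 : ℕ) : ℝ) * (C + Par.fmax av z - -(C + Par.fmax av z)) = 4 * C + 4 * Par.fmax av z by
      push_cast; ring, Real.exp_add]
    ring
  refine (integral_mono_of_nonneg (Filter.Eventually.of_forall fun z =>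
    Vale.Agent.P168.MP.ET_nonneg (fun p => mul_pos (hY0 p) (Real.exp_pos _)) hc0) (hI.const_mul _)
    (Filter.Eventually.of_forall hle)).trans ?_
  rw [integral_const_mul]
  set I := ∫ z, Real.exp (4 * Par.fmax av z) ∂gauss ι
  set L : ℝ := ((n + 1 : ℕ) : ℝ) with hLdef
  have hL : (0 : ℝ) < L := Nat.cast_pos.2 n.succ_pos
  have hsL : 0 < √L := Real.sqrt_pos.2 hL
  have hI0 : 0 ≤ I := integral_nonneg fun z => (Real.exp_pos _).le
  have hcard : (Fintype.card P : ℝ) = 2 ^ (N * R) * √L ^ m := by
    simp only [P, Site, Fintype.card_fun, Fintype.card_prod, Fintype.card_bool, Fintype.card_fin]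
    rw [← pow_mul, show m = 2 * (N * R) by ring, pow_mul (√L), Real.sq_sqrt hL.le, hLdef]
    simp only [Nat.cast_pow, Nat.cast_mul, mul_pow, Nat.cast_ofNat]
  have hroot : I / √L ≤ max 1 (2 ^ (N * R) * (2 * Real.exp ((((m : ℕ) : ℝ) * 4) ^ 2 * V / 2))) := by
    rcases le_or_gt (I / √L) 1 with h1 | h1
    · exact h1.trans (le_max_left _ _)
    have hn : m ≠ 0 := Nat.mul_ne_zero (Nat.mul_ne_zero two_ne_zero (NeZero.ne N)) (by omega)
    refine (le_self_pow₀ h1.le hn).trans (le_trans ?_ (le_max_right _ _))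
    rw [div_pow, div_le_iff₀ (pow_pos hsL _)]
    refine hIn.trans (le_of_eq ?_)
    rw [hcard]; ring
  calc Real.exp (4 * C) / L * I = Real.exp (4 * C) * (I / √L) / √L := by
        rw [mul_div_assoc', div_div, Real.mul_self_sqrt hL.le]; ring
    _ ≤ _ := div_le_div_of_nonneg_right (mul_le_mul_of_nonneg_left hroot (Real.exp_pos _).le) hsL.le

end Vale.Agent.P157.Full.Fld
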