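import Vale.Agent.P157.Full.Defs
import Vale.Agent.P157.Par.SiteInt
import Vale.Agent.P157.Par.Close

/-! Uniform size of the pattern fields, and the self-consistency map as a function of the profile. -/

open MeasureTheory ProbabilityTheory Real Finset
open Vale.Agent.P150 (gauss dot)
open Vale.Agent.P157.Lim (xv)

namespace Vale.Agent.P157.Full

variable {N M : ℕ}

/-- a smooth bound on the size of the fields, uniform over the configurations -/
noncomputable def lse (g : Fin M → Fin N → ℝ) : ℝ :=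
  log (∑ σ : Fin N → Bool, exp (∑ a, |dot (xv N σ) (g a)|))

lemma abs_le_lse (g : Fin M → Fin N → ℝ) (σ : Fin N → Bool) : ∑ a, |dot (xv N σ) (g a)| ≤ lse g := by
  rw [lse, le_log_iff_exp_le (sum_pos (fun _ _ => exp_pos _) univ_nonempty)]
  exact single_le_sum (f := fun τ : Fin N → Bool => exp (∑ a, |dot (xv N τ) (g a)|))
    (fun _ _ => (exp_pos _).le) (mem_univ σ)

lemma lse_nonneg (g : Fin M → Fin N → ℝ) : 0 ≤ lse g :=
  (sum_nonneg fun _ _ => abs_nonneg _).trans (abs_le_lse g fun _ => true)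

/-- exponential moment of the absolute value of one field -/
lemma exp_abs_dot [NeZero N] (σ : Fin N → Bool) :
    Integrable (fun y : Fin N → ℝ => exp |dot (xv N σ) y|) (gauss (Fin N)) ∧
      ∫ y, exp |dot (xv N σ) y| ∂gauss (Fin N) ≤ exp 2 := by
  set x := xv N σ
  have hi : ∀ a : Fin N → ℝ, Integrable (fun z => exp (dot a z)) (gauss (Fin N)) := fun a => by
    refine Vale.Agent.P150.integrable_of_bound (C := 1) (M := ∑ k, |a k|) (by unfold dot; fun_prop) fun z => ?_
    rw [abs_exp, one_mul]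
    exact exp_le_exp.2 ((le_abs_self _).trans (Vale.Agent.P150.abs_dot_le
      (fun k => Finset.single_le_sum (fun j _ => abs_nonneg (a j)) (mem_univ k)) z))
  have hn : ∀ y, dot (-x) y = -dot x y := fun y => by simp [dot]
  have hb : ∀ y, exp |dot x y| ≤ exp (dot x y) + exp (dot (-x) y) := fun y => by
    rw [hn]
    rcases abs_choice (dot x y) with h | h <;> rw [h] <;> linarith [exp_pos (dot x y), exp_pos (-dot x y)]
  have hint : Integrable (fun y => exp |dot x y|) (gauss (Fin N)) :=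
    ((hi x).add (hi (-x))).mono'
      (Continuous.aestronglyMeasurable (by unfold dot; fun_prop))
      (Filter.Eventually.of_forall fun y => by
        rw [Real.norm_eq_abs, abs_exp]; exact hb y)
  refine ⟨hint, (integral_mono hint ((hi x).add (hi (-x))) hb).trans ?_⟩
  simp only [Pi.add_apply]
  rw [integral_add (hi x) (hi (-x)), Vale.Agent.P150.mgf_dot, Vale.Agent.P150.mgf_dot]
  have e : ∑ k, x k ^ 2 = 1 := by
    have := Vale.Agent.P157.Lim.dot_xv (NeZero.pos N) σ
    simpa [dot, sq, x] using this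
  simp only [Pi.neg_apply, neg_sq, e]
  have h2 : exp (1/2) * exp (3/2) = exp 2 := by rw [← exp_add]; norm_num
  have h3 : (2:ℝ) ≤ exp (3/2) := by linarith [add_one_le_exp (3/2 : ℝ)]
  nlinarith [exp_pos (1/2 : ℝ)]

/-- the mean of the uniform bound -/
lemma integral_lse [NeZero N] :
    Integrable (lse : (Fin M → Fin N → ℝ) → ℝ) (Par.pats N M) ∧
      ∫ g, lse g ∂Par.pats N M ≤ N + 2 * M := by
  set C : ℝ := 2 ^ N * exp 2 ^ M with hC
  set X : (Fin M → Fin N → ℝ) → ℝ := fun g => ∑ σ : Fin N → Bool, ∏ a, exp |dot (xv N σ) (g a)|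
  have hX : ∀ g, ∑ σ : Fin N → Bool, exp (∑ a, |dot (xv N σ) (g a)|) = X g := fun g => by
    simp only [X, exp_sum]
  have hXp : ∀ g, 0 < X g := fun g => sum_pos (fun _ _ => prod_pos fun _ _ => exp_pos _) univ_nonempty
  have hterm : ∀ σ : Fin N → Bool,
      Integrable (fun g : Fin M → Fin N → ℝ => ∏ a, exp |dot (xv N σ) (g a)|) (Par.pats N M) := fun σ =>
    Integrable.fintype_prod (f := fun (_ : Fin M) (y : Fin N → ℝ) => exp |dot (xv N σ) y|)
      fun _ => (exp_abs_dot σ).1
  have hXi : Integrable X (Par.pats N M) := integrable_finsetSum _ fun σ _ => hterm σ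
  have hXe : ∫ g, X g ∂Par.pats N M ≤ C := by
    rw [integral_finsetSum _ fun σ _ => hterm σ]
    refine (sum_le_sum (g := fun _ => exp 2 ^ M) fun σ _ => ?_).trans_eq (by simp [hC])
    rw [Par.pats, integral_fintype_prod_eq_pow (fun y : Fin N → ℝ => exp |dot (xv N σ) y|),
      Fintype.card_fin]
    exact pow_le_pow_left₀ (integral_nonneg fun _ => (exp_pos _).le) (exp_abs_dot σ).2 M
  have hC0 : 0 < C := by positivity
  have hb : ∀ g : Fin M → Fin N → ℝ, lse g ≤ X g / C + (log C - 1) := fun g => by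
    have := log_le_sub_one_of_pos (div_pos (hXp g) hC0)
    rw [log_div (hXp g).ne' hC0.ne'] at this
    rw [lse, hX]
    linarith
  have hc : Continuous (lse : (Fin M → Fin N → ℝ) → ℝ) := by
    unfold lse
    refine Continuous.log ?_ fun g => (sum_pos (fun _ _ => exp_pos _) univ_nonempty).ne'
    unfold dot; fun_prop
  have hmaj : Integrable (fun g => X g / C + (log C - 1)) (Par.pats N M) :=
    (hXi.div_const C).add (integrable_const _)
  have hi : Integrable (lse : (Fin M → Fin N → ℝ) → ℝ) (Par.pats N M) :=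
    hmaj.mono' hc.aestronglyMeasurable (Filter.Eventually.of_forall fun g => by
      rw [Real.norm_eq_abs, abs_of_nonneg (lse_nonneg g)]; exact hb g)
  refine ⟨hi, (integral_mono hi hmaj hb).trans ?_⟩
  rw [integral_add (hXi.div_const C) (integrable_const _), integral_div]
  simp only [integral_const, probReal_univ, one_smul]
  have h1 : (∫ g, X g ∂Par.pats N M) / C ≤ 1 := (div_le_one hC0).2 hXe
  have h2 : log C ≤ N + 2 * M := by
    rw [hC, log_mul (by positivity) (by positivity), log_pow, log_pow, log_exp]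
    have h := log_le_sub_one_of_pos (show (0:ℝ) < 2 by norm_num)
    nlinarith [mul_le_mul_of_nonneg_left h (Nat.cast_nonneg (α := ℝ) N)]
  linarith

open Par (Sm Prof Gm dist1)

variable {f f1 f2 f3 : ℝ → ℝ} {B D : ℝ}

lemma sinh_div_cosh_eq : (fun x => sinh x / cosh x) = tanh := funext fun x => (tanh_eq_sinh_div_cosh x).symm

/-- the overlaps of a path lie in the unit interval -/
lemma qhm_mem {R : ℕ} {h : ℕ → ℝ} {V : ℝ} (hh : Prof R h V) {l : ℕ} (hl : l ≤ R) :
    0 ≤ qh R h l ∧ qh R h l ≤ 1 := by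
  unfold qh
  split_ifs
  · have hb : ∀ y, |sinh y / cosh y| ≤ 1 := fun y => by
      rw [abs_div, abs_of_pos (cosh_pos y), div_le_one (cosh_pos y), abs_le, sinh_eq, cosh_eq]
      constructor <;> linarith [exp_pos y, exp_pos (-y)]
    have hg := Par.gamma_mono (Par.adm_exp Par.sm_logcosh) (Par.ex_lin R) hh
      Par.sm_logcosh.cont1 hb hl
    rw [Par.cosh_eq_exp, sinh_div_cosh_eq, one_pow] at hg
    exact ⟨hg.1, hg.2.1⟩
  · exact ⟨zero_le_one, le_rfl⟩

/-- a levelwise Lipschitz bound gives a bound of the mean distance -/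
lemma dist1_of_lvl {R : ℕ} (hR : 1 ≤ R) {x y q q' : ℕ → ℝ} {K : ℝ}
    (h : ∀ l ≤ R, |x l - y l| ≤ K * (|q l - q' l| + dist1 R q q')) :
    dist1 R x y ≤ 3 * K * dist1 R q q' := by
  have hR' : (0:ℝ) < R := by exact_mod_cast hR
  calc dist1 R x y ≤ (∑ l ∈ range R, K * (|q l - q' l| + dist1 R q q')) / R +
        K * (|q R - q' R| + dist1 R q q') := add_le_add
          (div_le_div_of_nonneg_right (sum_le_sum fun l h' => h l (mem_range.1 h').le) hR'.le) (h R le_rfl)
    _ = K * (((∑ l ∈ range R, |q l - q' l|) / R + |q R - q' R|) + 2 * dist1 R q q') := by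
        rw [← mul_sum, sum_add_distrib, sum_const, card_range, nsmul_eq_mul]; field_simp; ring
    _ = 3 * K * dist1 R q q' := by unfold Par.dist1; ring

/-- the self-consistency map is Lipschitz -/
lemma qhm_lip (hS : Sm f f1 f2 f3 B D) (A : ℝ) : ∃ K : ℝ, 0 ≤ K ∧
    ∀ (α : ℝ) (R : ℕ) (q q' : ℕ → ℝ), 0 ≤ α → α ≤ A → 1 ≤ R → Prof R q 1 → Prof R q' 1 →
      dist1 R (qh R fun l => α * Gm f f1 R q l) (qh R fun l => α * Gm f f1 R q' l) ≤ K * dist1 R q q' := by
  obtain ⟨Kf, hKf, hf⟩ := Par.Phi_lip hS 1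
  obtain ⟨Kc, hKc, hc⟩ := Par.Phi_lip Par.sm_logcosh (|A| * D ^ 2)
  refine ⟨3 * Kc * (|A| * (3 * Kf)), by positivity, fun α R q q' h0 h1 hR hq hq' => ?_⟩
  have hA : α ≤ |A| := h1.trans (le_abs_self A)
  set h := fun l => α * Gm f f1 R q l
  set h' := fun l => α * Gm f f1 R q' l
  have hh : Prof R h (|A| * D ^ 2) :=
    ((Par.gm_prof hS hR hq).scale h0).weaken (mul_le_mul_of_nonneg_right hA (sq_nonneg D))
  have hh' : Prof R h' (|A| * D ^ 2) :=
    ((Par.gm_prof hS hR hq').scale h0).weaken (mul_le_mul_of_nonneg_right hA (sq_nonneg D))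
  have hd : dist1 R h h' ≤ |A| * (3 * Kf * dist1 R q q') := by
    have hG : dist1 R (Gm f f1 R q) (Gm f f1 R q') ≤ 3 * Kf * dist1 R q q' :=
      dist1_of_lvl hR fun l hl => ((hf R q q' hR hq hq').2 l hl).trans_eq (by unfold Par.dist1; ring)
    calc dist1 R h h' = α * dist1 R (Gm f f1 R q) (Gm f f1 R q') := by
          simp only [h, h', Par.dist1, ← mul_sub, abs_mul, abs_of_nonneg h0, ← mul_sum]; ring
      _ ≤ _ := mul_le_mul hA hG (Par.dist1_nonneg _ _ _) (abs_nonneg A)
  have hl : ∀ l ≤ R, |qh R h l - qh R h' l| ≤ Kc * (|h l - h' l| + dist1 R h h') := fun l hl => by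
    unfold qh
    split_ifs
    · have := (hc R h h' hR hh hh').2 l hl
      rw [Par.cosh_eq_exp, sinh_div_cosh_eq] at this
      exact this.trans_eq (by unfold Par.dist1; ring)
    · rw [sub_self, abs_zero]
      exact mul_nonneg hKc (add_nonneg (abs_nonneg _) (Par.dist1_nonneg _ _ _))
  refine (dist1_of_lvl hR hl).trans ?_
  calc 3 * Kc * dist1 R h h' ≤ 3 * Kc * (|A| * (3 * Kf * dist1 R q q')) :=
        mul_le_mul_of_nonneg_left hd (by positivity)
    _ = _ := by ring

end Vale.Agent.P157.Full
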