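import Vale.Agent.P157.Full.SelfCons
import Vale.Agent.P157.Par.Main

/-! The lower bound by the infimum over paths. -/

open MeasureTheory ProbabilityTheory Real Finset Filter
open scoped Topology
open Vale.Agent.P168.MP (lin pw spinAt allBatch BIdx gu Batch growC gainCap avg)

namespace Vale.Agent.P157.Full

open Par (Sm Prof Gm dist1 qP adev qlev ovK pats ham pertI)

set_option linter.unusedSectionVars false

variable {f f1 f2 f3 : ℝ → ℝ} {B D : ℝ}

/-- the functional at a profile against the value of the path it generates -/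
theorem fval_ge_Jval (hS : Sm f f1 f2 f3 B D) (A : ℝ) : ∃ K : ℝ, 0 ≤ K ∧ ∀ (α : ℝ) (R : ℕ) (q : ℕ → ℝ),
    0 ≤ α → α ≤ A → 1 ≤ R → Prof R q 1 → q R = 1 →
      Jval α f R (fun l => α * Gm f f1 R q l) - K * dist1 R q (qh R fun l => α * Gm f f1 R q l) ≤
        Par.Fval α f R (lin R) q := by
  obtain ⟨KL, hKL, hL⟩ := Par.phiLip_of hS
  refine ⟨|A| * KL + |A| * D ^ 2, by positivity, fun α R q h0 h1 hR hq hqR => ?_⟩
  have hA : α ≤ |A| := h1.trans (le_abs_self A)
  set h := fun l => α * Gm f f1 R q l with hh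
  have hG := Par.gm_prof hS hR hq
  have hR' : (0:ℝ) < R := by exact_mod_cast hR
  have hQt : qh R h R = 1 := by simp [qh]
  have hQ : Prof R (qh R h) 1 := by
    have hb : ∀ y, |sinh y / cosh y| ≤ 1 := fun y => by
      rw [abs_div, abs_of_pos (cosh_pos y), div_le_one (cosh_pos y), abs_le, sinh_eq, cosh_eq]
      constructor <;> linarith [exp_pos y, exp_pos (-y)]
    refine ⟨(qhm_mem (hG.scale h0) (Nat.zero_le R)).1, fun l hl => ?_, hQt.le⟩
    have hm := (Par.gamma_mono (Par.adm_exp Par.sm_logcosh) (Par.ex_lin R) (hG.scale h0)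
      Par.sm_logcosh.cont1 hb hl.le).2.2 hl
    rw [Par.cosh_eq_exp, sinh_div_cosh_eq] at hm
    rcases Nat.lt_or_eq_of_le (show l + 1 ≤ R from hl) with h' | h'
    · simp only [qh, if_pos hl, if_pos h']; exact hm
    · rw [h', hQt]; exact (qhm_mem (hG.scale h0) hl.le).2
  have eF : Par.Fval α f R (lin R) q =
      α * Par.Phi (fun y => exp (f y)) R (lin R) q + psiH R h + dotH R h q / 2 := by
    rw [Par.fval_site hS hR hqR α, Par.Esite, sum_range_succ, Par.coef_top hR, one_mul, hqR, mul_one,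
      sum_congr rfl fun l hl => by rw [Par.coef_lt (mem_range.1 hl)]]
    simp only [psiH, dotH, hh, ← mul_sum, mul_assoc]
    field_simp
    ring
  have hphi := (abs_le.1 (hL R (qh R h) q hR hQ hq)).2
  have hd : dist1 R (qh R h) q = dist1 R q (qh R h) := by simp only [Par.dist1, abs_sub_comm]
  rw [hd] at hphi
  have hdot : dotH R h (qh R h) - dotH R h q ≤ |A| * D ^ 2 * dist1 R q (qh R h) := by
    have hs : ∑ l ∈ range R, (h l * qh R h l - h l * q l) ≤ ∑ l ∈ range R, |A| * D ^ 2 * |q l - qh R h l| :=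
      sum_le_sum fun l hl => by
        have g := hG.upper (mem_range.1 hl).le
        rw [← mul_sub, abs_sub_comm]
        refine (mul_le_mul_of_nonneg_left (le_abs_self _) (mul_nonneg h0 g.1)).trans ?_
        exact mul_le_mul_of_nonneg_right (mul_le_mul hA g.2 g.1 (abs_nonneg A)) (abs_nonneg _)
    simp only [dotH, Par.dist1]
    rw [← sub_div, ← sum_sub_distrib, mul_add, ← mul_div_assoc, mul_sum]
    exact (div_le_div_of_nonneg_right hs hR'.le).trans (le_add_of_nonneg_right (by positivity))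
  have hdn := Par.dist1_nonneg R q (qh R h)
  have a1 := mul_le_mul_of_nonneg_left hphi h0
  have a2 := mul_le_mul_of_nonneg_right hA (mul_nonneg hKL hdn)
  have a3 : 0 ≤ |A| * D ^ 2 * dist1 R q (qh R h) := by positivity
  rw [eF, Jval]
  linarith

/-- **Lower bound**: a bound on the values of paths bounds the pressure from below -/
theorem lower_of_le (hS : Sm f f1 f2 f3 B D) (hB : ∀ x, f x ≤ B) {α : ℝ} (hα : 0 < α) {s : ℝ}
    (hs : ∀ (R : ℕ) (h : ℕ → ℝ) (V : ℝ), 1 ≤ R → Prof R h V → s ≤ Jval α f R h) :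
    ∀ ε > 0, ∀ᶠ N : ℕ in atTop, s - ε ≤ pressure (isingUniform N) f ⌊α * N⌋₊ := by
  intro ε hε
  have hf : Continuous f := hS.cont0
  set δ := ε / 5
  have hδ : 0 < δ := by positivity
  obtain ⟨C, N₀, J, hC, hinc⟩ := Par.increment hS hB hα δ hδ
  obtain ⟨KF, hKF, hfv⟩ := fval_ge_Jval hS α
  obtain ⟨δ₁, hδ₁, hsc⟩ := self_consistent hS hB hα (δ / (KF + 1)) (by positivity)
  obtain ⟨R₀, hR₀⟩ := Par.grid_rep (show 0 < min δ₁ (δ / (C * J + 1)) by positivity)
  set R := max R₀ 2
  have hR2 : 2 ≤ R := le_max_right _ _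
  have hR1 : 1 ≤ R := by omega
  obtain ⟨S, M, hp, ub, -, hM, hp0, hp1, hub, hub1, hgrid⟩ := hR₀ R (le_max_left _ _)
  have : NeZero M := ⟨hM.ne'⟩
  set β := allBatch R 2
  have hh : ∀ _j : BIdx R 2, |hp| ≤ 1 := fun _ => by rw [abs_of_pos hp0]; exact hp1
  have hu : ∀ (g : BIdx R 2 → Fin M) j, |gu ub M g j| ≤ 1 := fun g j => by
    obtain ⟨a, b⟩ := Vale.Agent.P168.MP.gu_mem hub g j
    rw [abs_of_pos a]; exact b.trans hub1
  have hcard : (0 : ℝ) < Fintype.card (BIdx R 2 → Fin M) := Vale.Agent.P168.MP.card_pos_real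
  set a : ℕ → ℝ := fun n => avg fun g : BIdx R 2 → Fin M =>
    pertI f R S β (fun _ => hp) (gu ub M g) (n + 1) (α * ((n + 1 : ℕ) : ℝ)) with ha
  obtain ⟨n₁, hn₁⟩ := exists_nat_ge (growC R S β / δ)
  obtain ⟨n₃, hn₃⟩ := eventually_atTop.1 (hsc (S := S) (K := M) hR2 hp0 hp1 hub hub1
    fun N _ W hW => (hgrid N W hW).trans (min_le_left _ _))
  set m₀ := max (max N₀ n₁) n₃
  set c := s - 4 * δ
  have hstep : ∀ n, m₀ ≤ n → a n + c ≤ a (n + 1) := by
    intro n hn
    have hn₃' : n₃ ≤ n := le_of_max_le_right hn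
    have hn' : max N₀ n₁ ≤ n := le_of_max_le_left hn
    set W : (BIdx R 2 → Fin M) → ∀ {K : ℕ}, (Fin K → Fin (n + 1) → ℝ) →
        List (Vale.Agent.P168.MP.Mark (n + 1) S β) → ℝ :=
      fun g {K} G => pw (S := S) (β := β) R (ham f G) (fun _ => hp) (gu ub M g)
    set I : ℕ → (BIdx R 2 → Fin M) → ℝ := fun i g =>
      ∫ G, adev R (W g G) (ovK (spinAt R)) (qlev R (W g G) (spinAt R)) ∂pats (n + 1) (⌊α * (n + 1 : ℕ)⌋₊ + i)
    have hI : ∀ i, avg (I i) ≤ δ / (C * J + 1) := by
      intro i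
      simp only [I, avg]
      rw [← integral_finsetSum _ fun g _ => Par.integrable_adev hf hR1 _ _, ← integral_div]
      refine (integral_mono ((integrable_finsetSum _ fun g _ => Par.integrable_adev hf hR1 _ _).div_const _)
        (integrable_const (δ / (C * J + 1))) fun G => ?_).trans_eq (by simp)
      exact (hgrid (n + 1) (ham f G) fun σ => Par.ham_pos f G σ).trans (min_le_right _ _)
    set d : (BIdx R 2 → Fin M) → ℝ := fun g => ∫ G, dist1 R (qP f R S β (fun _ => hp) (gu ub M g) G)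
      (qh R fun l => α * Gm f f1 R (qP f R S β (fun _ => hp) (gu ub M g) G) l)
        ∂pats (n + 1) ⌊α * (n + 1 : ℕ)⌋₊
    have hg : ∀ g : BIdx R 2 → Fin M, s - δ - (C * (∑ i ∈ range J, I i g) + KF * d g) - δ ≤
        pertI f R S β (fun _ => hp) (gu ub M g) (n + 1 + 1) (α * ((n + 1 + 1 : ℕ) : ℝ)) -
          pertI f R S β (fun _ => hp) (gu ub M g) (n + 1) (α * ((n + 1 : ℕ) : ℝ)) := by
      intro g
      have h1 := hinc β (R := R) (S := S) (fun _ => hp) (gu ub M g) hR2 hh (hu g) (n + 1)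
        (by have := le_of_max_le_left hn'; omega)
      have hdi := integrable_dist1_qmap (f1 := f1) (N := n + 1) (M := ⌊α * (n + 1 : ℕ)⌋₊) (S := S) (β := β)
        (h := fun _ => hp) (u := gu ub M g) hS hα.le hR1
      have h2 : s - KF * d g ≤
          ∫ G, Par.Fval α f R (lin R) (qlev R (W g G) (spinAt R)) ∂pats (n + 1) ⌊α * (n + 1 : ℕ)⌋₊ := by
        calc s - KF * d g = ∫ G, (s - KF * dist1 R (qP f R S β (fun _ => hp) (gu ub M g) G)
              (qh R fun l => α * Gm f f1 R (qP f R S β (fun _ => hp) (gu ub M g) G) l))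
              ∂pats (n + 1) ⌊α * (n + 1 : ℕ)⌋₊ := by
              rw [integral_sub (integrable_const s)]
              · simp [d, integral_const_mul]
              · exact hdi.const_mul _
          _ ≤ _ := integral_mono ((integrable_const s).sub (hdi.const_mul _))
              (Par.integrable_fval hS hR1 hα.le) fun G => by
            obtain ⟨hq, hqR⟩ := Par.qlev_prof (R := R) (w := W g G) (rd := spinAt R)
              fun p => mul_pos (Par.ham_pos f G _) (exp_pos _)
            have e1 := hfv α R _ hα.le le_rfl hR1 hq hqR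
            have e2 := hs R _ _ hR1 ((Par.gm_prof hS hR1 hq).scale hα.le)
            simp only [Par.qP, W] at e1 e2 ⊢
            linarith
      have h3 : growC R S β / (((n + 1 : ℕ) : ℝ) + 1) ≤ δ := by
        rw [div_le_iff₀ (by positivity)]
        rw [div_le_iff₀ hδ] at hn₁
        have h4 : (n₁ : ℝ) ≤ n := by exact_mod_cast le_of_max_le_right hn'
        have := mul_le_mul_of_nonneg_right h4 hδ.le
        push_cast
        linarith
      simp only [W, I] at h1 h2 ⊢
      linarith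
    have h5 := Vale.Agent.P168.MP.avg_le_avg hg
    have h6 : C * ∑ i ∈ range J, avg (I i) ≤ δ := by
      refine (mul_le_mul_of_nonneg_left (Finset.sum_le_sum fun i _ => hI i) hC).trans ?_
      rw [Finset.sum_const, Finset.card_range, nsmul_eq_mul, ← mul_assoc, mul_div_left_comm]
      exact mul_le_of_le_one_right hδ.le ((div_le_one (by positivity)).2 (by linarith))
    have h7 : KF * avg d ≤ δ := by
      refine (mul_le_mul_of_nonneg_left (hn₃ n hn₃') hKF).trans ?_
      rw [← mul_div_assoc, div_le_iff₀ (by positivity)]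
      linarith
    simp only [ha, avg, Finset.sum_sub_distrib, Finset.sum_add_distrib, Finset.sum_const, Finset.card_univ,
      nsmul_eq_mul, ← Finset.mul_sum, ← Finset.sum_div, sub_div, add_div, mul_div_assoc] at h5 h6 h7 ⊢
    rw [Finset.sum_comm] at h5
    simp only [← mul_div_assoc, mul_div_cancel_left₀ _ hcard.ne'] at h5 h6 h7 ⊢
    simp only [c] at *
    linarith
  have hlow : ∀ j : ℕ, a m₀ + j * c ≤ a (m₀ + j) := by
    intro j
    induction j with
    | zero => simp
    | succ j ih =>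
      have := hstep (m₀ + j) (Nat.le_add_right _ _)
      rw [show m₀ + (j + 1) = m₀ + j + 1 by omega]
      push_cast
      linarith
  set D₀ := |a m₀| + ((m₀ : ℝ) + 1) * |c| + 3 * gainCap S β + |B|
  obtain ⟨n₂, hn₂⟩ := exists_nat_ge (D₀ / δ)
  refine eventually_atTop.2 ⟨max (m₀ + 1) (n₂ + 1), fun n hn => ?_⟩
  obtain ⟨j, rfl⟩ : ∃ j, n = m₀ + j + 1 := ⟨n - m₀ - 1, by have := le_of_max_le_left hn; omega⟩
  have hup : a (m₀ + j) ≤ ((m₀ + j + 1 : ℕ) : ℝ) *
      pressure (isingUniform (m₀ + j + 1)) f ⌊α * ((m₀ + j + 1 : ℕ) : ℝ)⌋₊ + 3 * gainCap S β + B := by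
    refine (Vale.Agent.P168.MP.avg_le_avg fun g => Par.pertI_near hS hB hR1 hh (hu g) (m₀ + j + 1)
      (by positivity)).trans_eq ?_
    exact Vale.Agent.P168.MP.avg_const _
  have hn2 : (n₂ : ℝ) + 1 ≤ ((m₀ + j + 1 : ℕ) : ℝ) := by exact_mod_cast le_of_max_le_right hn
  have hnj : ((m₀ + j + 1 : ℕ) : ℝ) = m₀ + j + 1 := by push_cast; ring
  set n := ((m₀ + j + 1 : ℕ) : ℝ) with hnn
  have hnpos : 0 < n := by linarith [Nat.cast_nonneg (α := ℝ) n₂]
  have hDn : D₀ ≤ n * δ := by
    rw [div_le_iff₀ hδ] at hn₂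
    exact hn₂.trans (mul_le_mul_of_nonneg_right (by linarith) hδ.le)
  have hl := hlow j
  rw [show (j : ℝ) * c = n * c - ((m₀ : ℝ) + 1) * c by rw [hnj]; ring] at hl
  have := mul_le_mul_of_nonneg_left (le_abs_self c) (show 0 ≤ (m₀ : ℝ) + 1 by positivity)
  have := neg_abs_le (a m₀)
  have := le_abs_self B
  refine le_of_mul_le_mul_left ?_ hnpos
  simp only [D₀, c, δ] at *
  linarith

end Vale.Agent.P157.Full
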