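import Vale.Agent.P157.Full.EnvGlue
import Vale.Agent.P157.Full.Lower
import Vale.Agent.P157.Full.Borel

/-! The limit of the pressure on the cube for every bounded Borel potential. -/

open MeasureTheory ProbabilityTheory Real Filter
open scoped Topology

namespace Vale.Agent.P157.Full

open Par (Sm Prof)

variable {f f1 f2 f3 : ℝ → ℝ} {B D : ℝ}

/-- the pressure is asymptotically at most the value of every path -/
theorem upper_hopf (hS : Sm f f1 f2 f3 B D) (hB : ∀ x, f x ≤ B) {α : ℝ} (hα : 0 < α) {R : ℕ}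
    {h : ℕ → ℝ} {V : ℝ} (hR : 1 ≤ R) (hh : Prof R h V) :
    ∀ ε > 0, ∀ᶠ N : ℕ in atTop, pressure (isingUniform N) f ⌊α * N⌋₊ ≤ Jval α f R h + ε := by
  obtain ⟨K, hK, hP⟩ := pattern_stepX hS hB
  exact upper_hopf_of glue_grid (glue_field hS hB) (glue_ibp hS hB) glue_zero
    (fun hR₀ hk _ _ _ β h u hh hu lam => meanX_ge hS hB hR₀ hk β h u hh hu lam)
    hK (fun β h u lam hR₀ hk hh hu => hP β h u lam hR₀ hk hh hu) hS hB hα hR hh

/-- for every bounded Borel potential the pressure converges to the infimum over field paths -/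
theorem hopf_limit (hf : Measurable f) (hb : ∀ x, |f x| ≤ B) {α : ℝ} (hα : 0 < α) :
    (hopfValues (fun y => exp (f y)) α).Nonempty ∧ BddBelow (hopfValues (fun y => exp (f y)) α) ∧
    Tendsto (fun N : ℕ => pressure (isingUniform N) f ⌊α * N⌋₊) atTop
      (𝓝 (sInf (hopfValues (fun y => exp (f y)) α))) :=
  limit_borel hf hb hα (fun hS hB _ hs => lower_of_le hS hB hα hs)
    fun hS hB _ _ _ hR hh => upper_hopf hS hB hα hR hh

end Vale.Agent.P157.Full
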