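import Vale.Agent.P157.Par.Grow

/-! The product of a base system and one new spin, and the deviations that control it. -/

open Finset
open Vale.Agent.P168 (sg)

namespace Vale.Agent.P157.Full

/-- the new spin at the leaf of a path -/
def leafB {Ω : Type} (R : ℕ) (p : List (Ω × Bool)) : Bool := (p.map Prod.snd).getD (R - 1) false

/-- base weight times a factor of the new spin -/
def prodW {Ω : Type} (R : ℕ) (w : List Ω → ℝ) (Y : List Ω → Bool → ℝ) (p : List (Ω × Bool)) : ℝ :=
  w (p.map Prod.fst) * Y (p.map Prod.fst) (leafB R p)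

/-- the product of the new spins of two replicas -/
def spinPr {Ω : Type} (R : ℕ) (ps : List (List (Ω × Bool))) : ℝ :=
  sg (leafB R (ps.getD 0 [])) * sg (leafB R (ps.getD 1 []))

/-- deviations of the overlap and of the correlation of the derivatives from a profile -/
noncomputable def sdev {Ω : Type} [Fintype Ω] {N M : ℕ} (f f1 : ℝ → ℝ) (R : ℕ) (w : List Ω → ℝ)
    (rd : List Ω → Fin N → Bool) (g : Fin M → Fin N → ℝ) (q : ℕ → ℝ) (l : ℕ) : ℝ :=
  Par.devOf R w (Par.ovK rd) q l + Par.adev R w (Par.ovK rd) q +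
    (Par.devOf R w (Par.qK f1 rd g) (Par.Gm f f1 R q) l +
      Par.adev R w (Par.qK f1 rd g) (Par.Gm f f1 R q))

end Vale.Agent.P157.Full
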