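import Vale.Agent.P157.Full.Cross
import Vale.Agent.P157.Par.Incr
import Vale.Agent.P157.Par.GridRep

/-! Self-consistency of the overlaps of the perturbed system. -/

open MeasureTheory ProbabilityTheory Real Finset Filter
open scoped Topology
open Vale.Agent.P150 (gauss)
open Vale.Agent.P168.MP (lin Batch pw spinAt avg allBatch BIdx gu)

namespace Vale.Agent.P157.Full

open Par (Sm Prof Gm dist1 qP adP AD pats ham addC ovK adev qlev gsum)

set_option linter.unusedSectionVars false

variable {f f1 f2 f3 : ℝ → ℝ} {B D : ℝ}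

section sys
variable {ι : Type} [Fintype ι] [DecidableEq ι] {β : ι → Batch} {R S N M : ℕ} [NeZero N] {h u : ι → ℝ}

/-- a continuous Lipschitz family of profile functionals, level by level -/
lemma continuous_qmap (hS : Sm f f1 f2 f3 B D) {α : ℝ} (hα : 0 ≤ α) (hR : 1 ≤ R) {l : ℕ} (hl : l < R) :
    Continuous fun G : Fin M → Fin N → ℝ => qmap α f f1 R (qP f R S β h u G) l := by
  obtain ⟨K, hK, hlip⟩ := qhm_lip hS α
  have hR' : (0:ℝ) < R := by exact_mod_cast hR
  refine (Par.cont_functional (X := Fin M → Fin N → ℝ) hR (F := fun q => qmap α f f1 R q l) (K := R * K)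
    (by positivity) (fun q q' hq hq' => ?_) (fun g => Par.qP_prof g) fun l => Par.continuous_qP hS.cont0 l).1
  have h1 := hlip α R q q' hα le_rfl hR hq hq'
  have h2 : |qmap α f f1 R q l - qmap α f f1 R q' l| ≤ R * dist1 R (qmap α f f1 R q) (qmap α f f1 R q') := by
    have := single_le_sum (f := fun j => |qmap α f f1 R q j - qmap α f f1 R q' j|)
      (fun j _ => abs_nonneg _) (mem_range.2 hl)
    refine this.trans ?_
    rw [Par.dist1, mul_add, mul_div_cancel₀ _ hR'.ne']
    exact le_add_of_nonneg_right (by positivity)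
  rw [mul_assoc]
  exact h2.trans (mul_le_mul_of_nonneg_left h1 hR'.le)

/-- at the top both profiles are one -/
lemma dist1_qmap (α : ℝ) (g : Fin M → Fin N → ℝ) :
    dist1 R (qP f R S β h u g) (qmap α f f1 R (qP f R S β h u g)) =
      (∑ l ∈ range R, |qP f R S β h u g l - qmap α f f1 R (qP f R S β h u g) l|) / R := by
  have h1 : qP f R S β h u g R = 1 := Par.qlev_top (Par.pw_ham_pos g)
  simp [Par.dist1, h1, qmap, qh]

lemma integrable_dist1_qmap (hS : Sm f f1 f2 f3 B D) {α : ℝ} (hα : 0 ≤ α) (hR : 1 ≤ R) :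
    Integrable (fun g : Fin M → Fin N → ℝ =>
      dist1 R (qP f R S β h u g) (qmap α f f1 R (qP f R S β h u g))) (pats N M) := by
  simp only [dist1_qmap]
  refine (integrable_finsetSum _ fun l hl => ?_).div_const _
  have hl' := mem_range.1 hl
  refine Integrable.of_bound (((Par.continuous_qP hS.cont0 l).sub
    (continuous_qmap hS hα hR hl')).abs).aestronglyMeasurable 1 (Eventually.of_forall fun g => ?_)
  have a := (Par.qP_prof (f := f) (h := h) (u := u) (S := S) (β := β) (R := R) g).upper hl'.le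
  have b := qmap_mem hS hα hR (Par.qP_prof (f := f) (h := h) (u := u) (S := S) (β := β) (R := R) g) hl'.le
  simp only [Real.norm_eq_abs, abs_abs]
  rw [abs_le]; constructor <;> linarith

end sys

/-- **Self-consistency at fixed perturbation parameters** -/
theorem self_bound (hS : Sm f f1 f2 f3 B D) (hB : ∀ x, f x ≤ B) {α : ℝ} (hα : 0 ≤ α) : ∃ L K₂ : ℝ, 0 ≤ L ∧ 0 ≤ K₂ ∧
    ∀ {U : ℝ}, 0 < U → ∃ K : ℝ, 0 ≤ K ∧ ∀ {ι : Type} [Fintype ι] [DecidableEq ι] (β : ι → Batch) (R S : ℕ), 2 ≤ R →
      ∃ C : ℝ, 0 ≤ C ∧ ∀ {h u : ι → ℝ}, (∀ j, |h j| ≤ 1) → (∀ j, |u j| ≤ 1) →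
      ∀ {N M : ℕ} [NeZero N], 2 ≤ M → (M : ℝ) * (1 / √((N:ℝ) + 1)) ^ 2 ≤ α →
      ∀ {θ θ' : ℝ}, 0 < θ → 0 < θ' →
        ∫ G : Fin M → Fin (N + 1) → ℝ, dist1 R (qP f R S β h u G) (qmap α f f1 R (qP f R S β h u G))
            ∂pats (N + 1) M ≤
          θ + L / (4 * θ) * (2 * (1 + 2 * α) / U + (2 * C + 2) / ((N:ℝ) + 1) +
            K * (AD f R S β h u N M + (2 * θ' + K₂ / θ' * (AD f R S β h u N M + 1 / M)) +
              |(M:ℝ) * (1 / √((N:ℝ) + 1)) ^ 2 - α| + (2 * α + 1) * (1 / √((N:ℝ) + 1)))) := by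
  obtain ⟨LQ, hLQ, hlip⟩ := qhm_lip hS α
  obtain ⟨K₂, hK₂, hqc⟩ := Par.qconc_sum hS hB
  refine ⟨3 + 3 * LQ, K₂, by positivity, hK₂, fun {U} hU => ?_⟩
  obtain ⟨K, hK, hc0⟩ := cross hS hB hα hU
  refine ⟨K, hK, ?_⟩
  intro ι _ _ β R S hR
  obtain ⟨C, hC, hcross⟩ := hc0 β R S hR
  refine ⟨C, hC, ?_⟩
  intro h u hh hu N M _ hM hMt θ θ' hθ hθ'
  have hR1 : 1 ≤ R := by omega
  have hR' : (0:ℝ) < R := by exact_mod_cast hR1
  have hf : Continuous f := hS.cont0
  set t := 1 / √((N:ℝ) + 1) with htdef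
  have ht0 : 0 ≤ t := by positivity
  have ht2 : t ^ 2 = 1 / ((N:ℝ) + 1) := by rw [htdef, div_pow, one_pow, Real.sq_sqrt (by positivity)]
  set Err := fun g : Fin M → Fin N → ℝ => stepErr f f1 R S β h u α U K C g
  set μ := (pats N M).prod (gauss (Fin M))
  set qq := fun G : Fin M → Fin (N + 1) → ℝ => qP f R S β h u G
  set X := fun (l : ℕ) (G : Fin M → Fin (N + 1) → ℝ) => qq G l - qmap α f f1 R (qq G) l
  have hqc' : ∀ G l, l < R → (0 ≤ qq G l ∧ qq G l ≤ 1) ∧
      (0 ≤ qmap α f f1 R (qq G) l ∧ qmap α f f1 R (qq G) l ≤ 1) := fun G l hl =>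
    ⟨(Par.qP_prof G).upper hl.le, qmap_mem hS hα hR1 (Par.qP_prof G) hl.le⟩
  have hXc : ∀ l < R, Continuous (X l) := fun l hl =>
    (Par.continuous_qP hf l).sub (continuous_qmap hS hα hR1 hl)
  have hX1 : ∀ G, ∀ l < R, |X l G| ≤ 1 := fun G l hl => by
    obtain ⟨a, b⟩ := hqc' G l hl
    rw [abs_le]; simp only [X]; constructor <;> linarith
  set O := fun (l : ℕ) (G : Fin M → Fin (N + 1) → ℝ) => olast f R S β h u l G
  set Qm := fun (l : ℕ) (G : Fin M → Fin (N + 1) → ℝ) => qmap α f f1 R (qq G) l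
  have hib : ∀ {H : (Fin M → Fin (N + 1) → ℝ) → ℝ}, Continuous H → ∀ {b : ℝ}, (∀ G, |H G| ≤ b) →
      Integrable H (pats (N + 1) M) := fun {H} hH {b} hb =>
    Integrable.of_bound hH.aestronglyMeasurable b
      (Eventually.of_forall fun G => (Real.norm_eq_abs _).trans_le (hb G))
  -- the symmetry of the sites
  have hsq : ∀ l < R, ∫ G, X l G ^ 2 ∂pats (N + 1) M = ∫ G, X l G * (O l G - Qm l G) ∂pats (N + 1) M := by
    intro l hl
    have hsym := site_sym (f := f) (β := β) (S := S) (M := M) (N := N) (h := h) (u := u) hf hR1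
      (F := fun q => q l - qmap α f f1 R q l) (C := 1) (hXc l hl) (fun G => hX1 G l hl) hl.le
    have i1 : Integrable (fun G => X l G * qq G l) (pats (N + 1) M) :=
      hib ((hXc l hl).mul (Par.continuous_qP hf l)) (b := 1) fun G => by
        obtain ⟨a, -⟩ := hqc' G l hl
        simp only [abs_mul]
        exact mul_le_one₀ (hX1 G l hl) (abs_nonneg _) (abs_le.2 ⟨by linarith, a.2⟩)
    have i2 : Integrable (fun G => X l G * Qm l G) (pats (N + 1) M) :=
      hib ((hXc l hl).mul (continuous_qmap hS hα hR1 hl)) (b := 1) fun G => by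
        obtain ⟨-, a⟩ := hqc' G l hl
        simp only [abs_mul]
        exact mul_le_one₀ (hX1 G l hl) (abs_nonneg _) (abs_le.2 ⟨by linarith, a.2⟩)
    have i3 : Integrable (fun G => X l G * O l G) (pats (N + 1) M) :=
      hib ((hXc l hl).mul (continuous_olast hf l)) (b := 1) fun G => by
        simp only [abs_mul]
        exact mul_le_one₀ (hX1 G l hl) (abs_nonneg _) (abs_olast_le l G)
    calc ∫ G, X l G ^ 2 ∂pats (N + 1) M = ∫ G, (X l G * qq G l - X l G * Qm l G) ∂pats (N + 1) M :=
          integral_congr_ae (Eventually.of_forall fun G => by simp only [X, Qm]; ring)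
      _ = (∫ G, X l G * O l G ∂pats (N + 1) M) - ∫ G, X l G * Qm l G ∂pats (N + 1) M := by
          rw [integral_sub i1 i2]
          exact congrArg (· - _) hsym
      _ = _ := by
          rw [← integral_sub i3 i2]
          exact integral_congr_ae (Eventually.of_forall fun G => by ring)
  -- the cross terms at fixed base patterns
  set Y := fun G => ∑ l ∈ range R, X l G * (O l G - Qm l G)
  have hY1 : ∀ G, |Y G| ≤ R * 2 := fun G => by
    refine (abs_sum_le_sum_abs _ _).trans ((sum_le_sum (g := fun _ => (2:ℝ)) fun l hl => ?_).trans_eq (by simp))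
    obtain ⟨-, a⟩ := hqc' G l (mem_range.1 hl)
    rw [abs_mul]
    refine (mul_le_of_le_one_left (abs_nonneg _) (hX1 G l (mem_range.1 hl))).trans ((abs_sub _ _).trans ?_)
    have := abs_olast_le (f := f) (h := h) (u := u) (S := S) (β := β) (R := R) l G
    simp only [O, Qm]
    rw [abs_of_nonneg a.1]
    linarith [a.2]
  have hYc : Continuous Y := continuous_finsetSum _ fun l hl =>
    (hXc l (mem_range.1 hl)).mul ((continuous_olast hf l).sub (continuous_qmap hS hα hR1 (mem_range.1 hl)))
  have hYi : Integrable Y (pats (N + 1) M) := hib hYc hY1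
  have hYp : Integrable (fun p : (Fin M → Fin N → ℝ) × (Fin M → ℝ) => Y (addC p.1 p.2)) μ :=
    Par.measurePreserving_addC.integrable_comp_of_integrable hYi
  have hpt : ∀ g, ∫ z, Y (addC g z) ∂gauss (Fin M) ≤ (3 + 3 * LQ) * (R * Err g) := by
    intro g
    obtain ⟨h1, h2⟩ := hcross hh hu hMt g
    set q := qP f R S β h u g
    have hq : Prof R q 1 := Par.qP_prof g
    set Z := fun z => ∑ l ∈ range R, |qq (addC g z) l - q l|
    set W := fun (l : ℕ) z => O l (addC g z) - qmap α f f1 R q l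
    have hiz : ∀ {H : (Fin M → Fin (N + 1) → ℝ) → ℝ}, Continuous H → ∀ {b : ℝ}, (∀ G, |H G| ≤ b) →
        Integrable (fun z => H (addC g z)) (gauss (Fin M)) := fun {H} hH {b} hb =>
      Integrable.of_bound (hH.comp (continuous_addC g)).aestronglyMeasurable b
        (Eventually.of_forall fun z => (Real.norm_eq_abs _).trans_le (hb _))
    have hpt : ∀ z, Y (addC g z) ≤ (2 + 3 * LQ) * Z z + ∑ l ∈ range R, (q l - qmap α f f1 R q l) * W l z := by
      intro z
      set G := addC g z
      have hd : ∑ l ∈ range R, |Qm l G - qmap α f f1 R q l| ≤ LQ * Z z := by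
        have hl := hlip α R (qq G) q hα le_rfl hR1 (Par.qP_prof G) hq
        have e1 : qq G R = 1 := Par.qlev_top (Par.pw_ham_pos G)
        have e2 : q R = 1 := Par.qlev_top (Par.pw_ham_pos g)
        unfold Par.dist1 at hl
        rw [e1, e2, sub_self, abs_zero, add_zero, ← mul_div_assoc] at hl
        have := (le_add_of_nonneg_right (abs_nonneg _)).trans hl
        exact (div_le_div_iff_of_pos_right hR').1 this
      have hl : ∀ l ∈ range R, X l G * (O l G - Qm l G) ≤ 2 * |qq G l - q l| +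
          3 * |Qm l G - qmap α f f1 R q l| + (q l - qmap α f f1 R q l) * W l z := fun l hl => by
        have hl' := mem_range.1 hl
        obtain ⟨-, b⟩ := hqc' G l hl'
        have c := hq.upper hl'.le
        have d := qmap_mem hS hα hR1 hq hl'.le
        have o := abs_olast_le (f := f) (h := h) (u := u) (S := S) (β := β) (R := R) l G
        rw [show X l G * (O l G - Qm l G) = ((qq G l - q l) - (Qm l G - qmap α f f1 R q l)) * (O l G - Qm l G) +
          (q l - qmap α f f1 R q l) * -(Qm l G - qmap α f f1 R q l) + (q l - qmap α f f1 R q l) * W l z by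
            simp only [X, W, Qm]; ring]
        refine add_le_add ?_ le_rfl
        refine ((le_abs_self _).trans (abs_add_le _ _)).trans ?_
        rw [abs_mul, abs_mul, abs_neg]
        have e1 : |O l G - Qm l G| ≤ 2 := (abs_sub _ _).trans (by
          simp only [O, Qm]; rw [abs_of_nonneg b.1]; linarith [b.2])
        have e2 : |q l - qmap α f f1 R q l| ≤ 1 := abs_le.2 ⟨by linarith, by linarith⟩
        have e3 := mul_le_mul (abs_sub (qq G l - q l) (Qm l G - qmap α f f1 R q l)) e1 (abs_nonneg _)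
          (add_nonneg (abs_nonneg _) (abs_nonneg _))
        have e4 := mul_le_of_le_one_left (abs_nonneg (Qm l G - qmap α f f1 R q l)) e2
        linarith
      refine (sum_le_sum hl).trans ?_
      simp only [sum_add_distrib, ← mul_sum, Z]
      linarith
    have iZ : Integrable Z (gauss (Fin M)) := integrable_finsetSum _ fun l hl =>
      hiz (((Par.continuous_qP hf l).sub continuous_const).abs) (b := 1) fun G => by
        have a := (hqc' G l (mem_range.1 hl)).1
        have c := hq.upper (mem_range.1 hl).le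
        simp only [Pi.sub_apply, abs_abs]
        rw [abs_le]; constructor <;> linarith
    have iW : ∀ l ∈ range R, Integrable (fun z => (q l - qmap α f f1 R q l) * W l z) (gauss (Fin M)) :=
      fun l _ => ((hiz (continuous_olast hf l) fun G => abs_olast_le l G).sub (integrable_const _)).const_mul _
    have iY : Integrable (fun z => Y (addC g z)) (gauss (Fin M)) := hiz hYc hY1
    refine (integral_mono iY ((iZ.const_mul _).add (integrable_finsetSum _ iW)) hpt).trans ?_
    simp only [Pi.add_apply]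
    rw [integral_add (iZ.const_mul _) (integrable_finsetSum _ iW), integral_const_mul, integral_finsetSum _ iW]
    have a1 := mul_le_mul_of_nonneg_left h1 (show 0 ≤ 2 + 3 * LQ by positivity)
    have a2 : ∑ l ∈ range R, ∫ z, (q l - qmap α f f1 R q l) * W l z ∂gauss (Fin M) ≤ R * Err g := by
      refine le_trans (sum_le_sum fun l hl => ?_) h2
      rw [integral_const_mul]
      refine (le_abs_self _).trans ?_
      rw [abs_mul]
      have c := hq.upper (mem_range.1 hl).le
      have d := qmap_mem hS hα hR1 hq (mem_range.1 hl).le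
      refine (mul_le_of_le_one_left (abs_nonneg _) (abs_le.2 ⟨by linarith, by linarith⟩)).trans_eq ?_
      simp only [W, O]
      rw [integral_sub (hiz (continuous_olast hf l) fun G => abs_olast_le l G) (integrable_const _),
        integral_const, probReal_univ, one_smul]
    simp only [Z, qq, Err] at *
    linarith
  -- integrate over the base patterns
  obtain ⟨hli, hle⟩ := integral_lse (N := N) (M := M)
  obtain ⟨hgi, hge⟩ := Par.integral_gsum_le (M := M) (N := N)
  have hPi := Par.integrable_adP (N := N) (M := M) (S := S) (β := β) (h := h) (u := u) hf hR1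
  have hKi := adK_props (N := N) (M := M) (S := S) (β := β) (h := h) (u := u) hS hR1
  set E0 := |(M:ℝ) * t ^ 2 - α|
  have eErr : Err = fun g => 2 * (t ^ 2 * lse g / U) + (2 * C + 2) / ((N:ℝ) + 1) +
      K * (adP f R S β h u g + adK f f1 R S β h u g + (E0 + t) + t ^ 2 * t ^ 2 * gsum g) := by
    funext g; simp only [Err, stepErr, E0, ← htdef]; ring
  have j1 : Integrable (fun g : Fin M → Fin N → ℝ => 2 * (t ^ 2 * lse g / U) + (2 * C + 2) / ((N:ℝ) + 1))
      (pats N M) := (((hli.const_mul _).div_const U).const_mul 2).add (integrable_const _)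
  have j2a : Integrable (fun g => adP f R S β h u g + adK f f1 R S β h u g) (pats N M) := hPi.add hKi
  have j2b : Integrable (fun g => adP f R S β h u g + adK f f1 R S β h u g + (E0 + t)) (pats N M) :=
    j2a.add (integrable_const _)
  have j2 : Integrable (fun g => adP f R S β h u g + adK f f1 R S β h u g + (E0 + t) + t ^ 2 * t ^ 2 * gsum g)
      (pats N M) := j2b.add (hgi.const_mul _)
  have hErr : Integrable Err (pats N M) := by rw [eErr]; exact j1.add (j2.const_mul K)
  have hKK : ∫ g, adK f f1 R S β h u g ∂pats N M ≤ 2 * θ' + K₂ / θ' * (AD f R S β h u N M + 1 / M) := by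
    have := hqc hR1 hM (gw_pos (R := R) (S := S) (β := β) (h := h) (u := u) (N := N)) (spinAt R) hθ'
    simp only [Par.ADev, Par.qb, wg_gw] at this
    exact this
  have ht1 : t ^ 2 * ((N:ℝ) + 2 * M) ≤ 1 + 2 * α := by
    have h1 : t ^ 2 * N ≤ 1 := by
      rw [ht2, one_div_mul_eq_div, div_le_one (by positivity)]; linarith
    linarith
  have hgs : t ^ 2 * t ^ 2 * ∫ g : Fin M → Fin N → ℝ, gsum g ∂pats N M ≤ t * (2 * α) := by
    have hs : t * √(N : ℝ) ≤ 1 := by
      rw [htdef, one_div_mul_eq_div, div_le_one (by positivity)]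
      exact Real.sqrt_le_sqrt (by linarith)
    calc t ^ 2 * t ^ 2 * ∫ g : Fin M → Fin N → ℝ, gsum g ∂pats N M ≤ t ^ 2 * t ^ 2 * (2 * (M * √(N : ℝ))) :=
          mul_le_mul_of_nonneg_left hge (by positivity)
      _ = t * (t * √(N : ℝ)) * (2 * ((M:ℝ) * t ^ 2)) := by ring
      _ ≤ t * 1 * (2 * α) := by gcongr
      _ = _ := by ring
  set Bnd := 2 * (1 + 2 * α) / U + (2 * C + 2) / ((N:ℝ) + 1) +
    K * (AD f R S β h u N M + (2 * θ' + K₂ / θ' * (AD f R S β h u N M + 1 / M)) + E0 + (2 * α + 1) * t)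
  have hE : ∫ g, Err g ∂pats N M ≤ Bnd := by
    rw [eErr, integral_add j1 (j2.const_mul K),
      integral_add (((hli.const_mul _).div_const U).const_mul 2) (integrable_const _), integral_const_mul,
      integral_div, integral_const_mul, integral_const_mul, integral_add j2b (hgi.const_mul _),
      integral_add j2a (integrable_const _), integral_add hPi hKi, integral_const_mul]
    simp only [integral_const, probReal_univ, one_smul]
    have a1 : 2 * (t ^ 2 * (∫ g : Fin M → Fin N → ℝ, lse g ∂pats N M) / U) ≤ 2 * (1 + 2 * α) / U := by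
      rw [← mul_div_assoc]
      exact div_le_div_of_nonneg_right (mul_le_mul_of_nonneg_left
        ((mul_le_mul_of_nonneg_left hle (sq_nonneg t)).trans ht1) two_pos.le) hU.le
    refine add_le_add (add_le_add a1 le_rfl) (mul_le_mul_of_nonneg_left ?_ hK)
    have hAD : ∫ g, adP f R S β h u g ∂pats N M = AD f R S β h u N M := rfl
    rw [hAD]
    linarith
  have hYI : ∫ G, Y G ∂pats (N + 1) M ≤ (3 + 3 * LQ) * (R * Bnd) := by
    rw [← Par.measurePreserving_addC.map_eq, integral_map Par.measurePreserving_addC.measurable.aemeasurable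
      hYc.aestronglyMeasurable, integral_prod _ hYp]
    refine (integral_mono hYp.integral_prod_left ((hErr.const_mul _).const_mul _) hpt).trans ?_
    rw [integral_const_mul, integral_const_mul]
    gcongr
  -- from squares to absolute values
  have hi2 : ∀ l ∈ range R, Integrable (fun G => X l G ^ 2) (pats (N + 1) M) := fun l hl =>
    hib ((hXc l (mem_range.1 hl)).pow 2) (b := 1) fun G => by
      simp only [abs_pow]
      exact pow_le_one₀ (abs_nonneg _) (hX1 G l (mem_range.1 hl))
  have hsum : ∫ G, (∑ l ∈ range R, X l G ^ 2) ∂pats (N + 1) M ≤ (3 + 3 * LQ) * (R * Bnd) := by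
    refine le_trans (le_of_eq ?_) hYI
    rw [integral_finsetSum _ hi2, integral_finsetSum]
    · exact sum_congr rfl fun l hl => hsq l (mem_range.1 hl)
    · intro l hl
      refine hib ((hXc l (mem_range.1 hl)).mul ((continuous_olast hf l).sub
        (continuous_qmap hS hα hR1 (mem_range.1 hl)))) (b := 2) fun G => ?_
      obtain ⟨-, a⟩ := hqc' G l (mem_range.1 hl)
      simp only [abs_mul]
      refine (mul_le_of_le_one_left (abs_nonneg _) (hX1 G l (mem_range.1 hl))).trans ((abs_sub _ _).trans ?_)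
      have o := abs_olast_le (f := f) (h := h) (u := u) (S := S) (β := β) (R := R) l G
      rw [abs_of_nonneg a.1]
      linarith [a.2]
  have iS : Integrable (fun G => (∑ l ∈ range R, X l G ^ 2) / R * (1 / (4 * θ))) (pats (N + 1) M) :=
    ((integrable_finsetSum _ hi2).div_const _).mul_const _
  refine (integral_mono (integrable_dist1_qmap (N := N + 1) hS hα hR1) ((integrable_const θ).add iS)
    fun G => ?_).trans ?_
  · rw [dist1_qmap]
    simp only [Pi.add_apply]
    rw [div_le_iff₀ hR', add_mul, mul_right_comm, div_mul_cancel₀ _ hR'.ne', sum_mul]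
    refine (sum_le_sum fun l _ => Par.abs_le_sq (x := X l G) hθ).trans_eq ?_
    rw [sum_add_distrib, sum_const, card_range, nsmul_eq_mul, mul_comm]
    exact congrArg (_ + ·) (sum_congr rfl fun l _ => by ring)
  · simp only [Pi.add_apply]
    rw [integral_add (integrable_const θ) iS, integral_mul_const, integral_div, integral_const, probReal_univ,
      one_smul]
    refine add_le_add le_rfl ?_
    rw [div_mul_eq_mul_div, ← mul_div_assoc, mul_one]
    calc (∫ G, (∑ l ∈ range R, X l G ^ 2) ∂pats (N + 1) M) / (4 * θ) / R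
        ≤ (3 + 3 * LQ) * (R * Bnd) / (4 * θ) / R := by gcongr
      _ = (3 + 3 * LQ) / (4 * θ) * Bnd := by field_simp

/-- a small multiple -/
lemma exists_small {a b : ℝ} (ha : 0 ≤ a) (hb : 0 < b) : ∃ x : ℝ, 0 < x ∧ a * x ≤ b :=
  ⟨b / (a + 1), by positivity, by rw [← mul_div_assoc, div_le_iff₀ (by positivity)]; linarith⟩

/-- **Self-consistency**: if the perturbation makes the overlaps pure, they solve the equation of the
site in the mean -/
theorem self_consistent (hS : Sm f f1 f2 f3 B D) (hB : ∀ x, f x ≤ B) {α : ℝ} (hα : 0 < α) :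
    ∀ ε > 0, ∃ δ : ℝ, 0 < δ ∧ ∀ {R S K : ℕ} [NeZero K] {hp ub : ℝ}, 2 ≤ R → 0 < hp → hp ≤ 1 →
      0 < ub → ub ≤ 1 →
      (∀ (N : ℕ) [NeZero N] (W : (Fin N → Bool) → ℝ), (∀ σ, 0 < W σ) →
        avg (fun g : BIdx R 2 → Fin K =>
          adev R (pw (S := S) (β := allBatch R 2) R W (fun _ => hp) (gu ub K g))
            (ovK (Vale.Agent.P168.MP.spinAt R))
            (qlev R (pw (S := S) (β := allBatch R 2) R W (fun _ => hp) (gu ub K g))
              (Vale.Agent.P168.MP.spinAt R))) ≤ δ) →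
      ∀ᶠ n : ℕ in atTop, avg (fun u : BIdx R 2 → Fin K =>
        ∫ g, dist1 R (qP (N := n + 1) f R S (allBatch R 2) (fun _ => hp) (gu ub K u) g)
          (qh R (fun l => α * Gm f f1 R (qP (N := n + 1) f R S (allBatch R 2) (fun _ => hp) (gu ub K u) g) l))
          ∂pats (n + 1) ⌊α * ((n + 1 : ℕ) : ℝ)⌋₊) ≤ ε := by
  intro ε hε
  obtain ⟨L, K₂, hL, hK₂, hmain⟩ := self_bound hS hB hα.le
  set θ := ε / 2 with hθdef
  have hθ : 0 < θ := by positivity
  set c := L / (4 * θ)
  have hc : 0 ≤ c := by positivity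
  set b := ε / 2 / (c + 1)
  have hb : 0 < b := by positivity
  -- the bad fields, then the correlations, then the overlaps
  obtain ⟨x, hx, hx'⟩ := exists_small (show 0 ≤ 2 * (1 + 2 * α) by positivity) (show 0 < b / 4 by positivity)
  obtain ⟨K, hK, hR⟩ := hmain (inv_pos.2 hx)
  obtain ⟨θ', hθ', hθ''⟩ := exists_small (show 0 ≤ 2 * K by positivity) (show 0 < b / 4 by positivity)
  obtain ⟨δ, hδ, hδ'⟩ := exists_small (show 0 ≤ K * (1 + K₂ / θ') by positivity) (show 0 < b / 4 by positivity)
  refine ⟨δ, hδ, ?_⟩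
  intro R S Kg _ hp ub hR2 hp0 hp1 hub hub1 hgrid
  obtain ⟨C, hC, hbd⟩ := hR (allBatch R 2) R S hR2
  have hh : ∀ _j : BIdx R 2, |hp| ≤ 1 := fun _ => by rw [abs_of_pos hp0]; exact hp1
  have hu : ∀ (g : BIdx R 2 → Fin Kg) j, |gu ub Kg g j| ≤ 1 := fun g j => by
    obtain ⟨a, b⟩ := Vale.Agent.P168.MP.gu_mem hub g j
    rw [abs_of_pos a]; exact b.trans hub1
  have hf : Continuous f := hS.cont0
  -- the error that vanishes with the dimension
  set t : ℕ → ℝ := fun n => 1 / √((n:ℝ) + 1)
  set M : ℕ → ℕ := fun n => ⌊α * ((n + 1 : ℕ) : ℝ)⌋₊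
  set tail : ℕ → ℝ := fun n => (2 * C + 2) / ((n:ℝ) + 1) +
    K * (K₂ / θ' * (2 / α / ((n:ℝ) + 1)) + 1 / ((n:ℝ) + 1) + (2 * α + 1) * t n)
  have htail : Tendsto tail atTop (𝓝 0) := by
    have t0 : ∀ a : ℝ, Tendsto (fun n : ℕ => a / ((n:ℝ) + 1)) atTop (𝓝 0) := fun a =>
      tendsto_const_nhds.div_atTop (tendsto_atTop_add_const_right _ _ tendsto_natCast_atTop_atTop)
    have t1 : Tendsto t atTop (𝓝 0) :=
      tendsto_const_nhds.div_atTop (Real.tendsto_sqrt_atTop.comp
        (tendsto_atTop_add_const_right _ _ tendsto_natCast_atTop_atTop))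
    have h := (t0 (2 * C + 2)).add (((((t0 (2 / α)).const_mul (K₂ / θ')).add (t0 1)).add
      (t1.const_mul (2 * α + 1))).const_mul K)
    simp only [mul_zero, add_zero] at h
    exact h
  filter_upwards [htail.eventually_le_const (show 0 < b / 4 by positivity), eventually_ge_atTop 1,
    ((tendsto_natCast_atTop_atTop (R := ℝ)).const_mul_atTop hα).eventually_ge_atTop 2] with n hn hn1 hn2
  have : NeZero n := ⟨by omega⟩
  have hn0 : (0:ℝ) < (n:ℝ) + 1 := by positivity
  have hM1 : α * ((n:ℝ) + 1) - 1 ≤ M n ∧ (M n : ℝ) ≤ α * ((n:ℝ) + 1) := by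
    have a := Nat.floor_le (show 0 ≤ α * ((n + 1 : ℕ) : ℝ) by positivity)
    have a' := Nat.lt_floor_add_one (α * ((n + 1 : ℕ) : ℝ))
    simp only [M]
    push_cast at a a' ⊢
    exact ⟨by linarith, a⟩
  have hM2 : 2 ≤ M n := Nat.le_floor (by push_cast; linarith)
  have ht2 : (1 / √((n:ℝ) + 1)) ^ 2 = 1 / ((n:ℝ) + 1) := by
    rw [div_pow, one_pow, Real.sq_sqrt (by positivity)]
  have hMt : (M n : ℝ) * (1 / √((n:ℝ) + 1)) ^ 2 ≤ α := by
    rw [ht2, mul_one_div, div_le_iff₀ hn0]; exact hM1.2
  have hdl : |(M n : ℝ) * (1 / √((n:ℝ) + 1)) ^ 2 - α| ≤ 1 / ((n:ℝ) + 1) := by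
    rw [ht2, mul_one_div, div_sub' hn0.ne', abs_div, abs_of_pos hn0]
    refine div_le_div_of_nonneg_right (abs_le.2 ⟨?_, ?_⟩) hn0.le <;> linarith [hM1.1, hM1.2]
  have hinvM : 1 / (M n : ℝ) ≤ 2 / α / ((n:ℝ) + 1) := by
    rw [div_div]
    refine le_trans ?_ (le_of_eq (show 1 / (α * ((n:ℝ) + 1) / 2) = 2 / (α * ((n:ℝ) + 1)) by rw [one_div_div]))
    exact one_div_le_one_div_of_le (by positivity) (by linarith [hM1.1])
  set AA := fun u : BIdx R 2 → Fin Kg => AD (N := n) f R S (allBatch R 2) (fun _ => hp) (gu ub Kg u) (M n)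
  set rest := c * (2 * (1 + 2 * α) * x + (2 * C + 2) / ((n:ℝ) + 1) +
    K * (2 * θ' + K₂ / θ' * (2 / α / ((n:ℝ) + 1)) + 1 / ((n:ℝ) + 1) + (2 * α + 1) * t n))
  have hbound : ∀ u : BIdx R 2 → Fin Kg,
      ∫ g, dist1 R (qP (N := n + 1) f R S (allBatch R 2) (fun _ => hp) (gu ub Kg u) g)
        (qh R (fun l => α * Gm f f1 R (qP (N := n + 1) f R S (allBatch R 2) (fun _ => hp) (gu ub Kg u) g) l))
        ∂pats (n + 1) (M n) ≤ (θ + rest) + c * (K * (1 + K₂ / θ')) * AA u := by
    intro u
    refine (hbd hh (hu u) hM2 hMt hθ hθ').trans ?_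
    rw [div_inv_eq_mul, add_assoc θ, add_le_add_iff_left]
    have a := mul_le_mul_of_nonneg_left (add_le_add hdl (mul_le_mul_of_nonneg_left hinvM
      (show 0 ≤ K₂ / θ' by positivity))) (mul_nonneg hc hK)
    simp only [rest, AA, t, c] at a ⊢
    linarith
  have hAA : avg AA ≤ δ := by
    simp only [AA, avg, Par.AD]
    rw [← integral_finsetSum _ fun g _ => Par.integrable_adP hf (by omega), ← integral_div]
    refine (integral_mono ((integrable_finsetSum _ fun g _ => Par.integrable_adP hf (by omega)).div_const _)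
      (integrable_const δ) fun G => ?_).trans_eq (by simp)
    exact hgrid n (ham f G) fun σ => Par.ham_pos f G σ
  refine (Vale.Agent.P168.MP.avg_le_avg hbound).trans ?_
  have e : avg (fun u => (θ + rest) + c * (K * (1 + K₂ / θ')) * AA u) =
      (θ + rest) + c * (K * (1 + K₂ / θ')) * avg AA := by
    have hcard := Vale.Agent.P168.MP.card_pos_real (Ω := BIdx R 2 → Fin Kg)
    simp only [avg, sum_add_distrib, sum_const, card_univ, nsmul_eq_mul, ← mul_sum]
    field_simp
  rw [e]
  have a1 := mul_le_mul_of_nonneg_left hAA (show 0 ≤ c * (K * (1 + K₂ / θ')) by positivity)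
  have a2 := mul_le_mul_of_nonneg_left
    (add_le_add (add_le_add hx' hn) (add_le_add hθ'' hδ')) hc
  have a3 : c * b ≤ ε / 2 := by
    simp only [b]; rw [← mul_div_assoc, div_le_iff₀ (by positivity)]; linarith
  simp only [rest, tail] at a1 a2 ⊢
  linarith

end Vale.Agent.P157.Full
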