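import Vale.Agent.P157.Full.SiteStep
import Vale.Agent.P157.Par.Bridge

/-! The overlaps `rs` of the site functional: raising one field level lowers every other overlap, a common shift
raises all of them strictly, and flat levels give equal overlaps. -/

open MeasureTheory ProbabilityTheory Real Filter Set
open Vale.Agent.P168.MP (lin)
open Vale.Agent.P157.Par (Ex ex_lin Prof Vn tl tlN EG)

namespace Vale.Agent.P157.Full

variable {V M V' M' F F' : ℝ → ℝ} {m m' a y : ℝ}

/-! ### strictness -/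

lemma isOpenPos_gauss : (gaussianReal 0 1).IsOpenPosMeasure :=
  (gaussianReal_absolutelyContinuous' 0 one_ne_zero).isOpenPosMeasure

lemma wmean_lt {W1 W2 A : ℝ → ℝ} (c1 : Continuous W1) (c2 : Continuous W2) (cA : Continuous A)
    (h1 : Integrable W1 (gaussianReal 0 1)) (h2 : Integrable W2 (gaussianReal 0 1))
    (h1A : Integrable (fun z => W1 z * A z) (gaussianReal 0 1))
    (h2A : Integrable (fun z => W2 z * A z) (gaussianReal 0 1))
    (p1 : 0 < ∫ z, W1 z ∂gaussianReal 0 1) (p2 : 0 < ∫ z, W2 z ∂gaussianReal 0 1)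
    (h : ∀ x z, 0 ≤ (A x - A z) * (W2 x * W1 z - W2 z * W1 x)) {x₀ z₀ : ℝ}
    (hne : (A x₀ - A z₀) * (W2 x₀ * W1 z₀ - W2 z₀ * W1 x₀) ≠ 0) :
    (∫ z, W1 z * A z ∂gaussianReal 0 1) / (∫ z, W1 z ∂gaussianReal 0 1) <
      (∫ z, W2 z * A z ∂gaussianReal 0 1) / (∫ z, W2 z ∂gaussianReal 0 1) := by
  have := isOpenPos_gauss
  set I1 := ∫ z, W1 z ∂gaussianReal 0 1
  set I2 := ∫ z, W2 z ∂gaussianReal 0 1
  set J1 := ∫ z, W1 z * A z ∂gaussianReal 0 1 with hJ1
  set J2 := ∫ z, W2 z * A z ∂gaussianReal 0 1 with hJ2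
  set I := fun x => W2 x * A x * I1 - W2 x * J1 - (W1 x * A x * I2 - W1 x * J2) with hIdef
  have hint : ∀ x, Integrable (fun z => (A x - A z) * (W2 x * W1 z - W2 z * W1 x)) (gaussianReal 0 1) :=
    fun x => (((h1.const_mul (W2 x * A x)).sub' (h1A.const_mul (W2 x))).sub'
      ((h2.const_mul (W1 x * A x)).sub' (h2A.const_mul (W1 x)))).congr (Eventually.of_forall fun z => by ring)
  have e : ∀ x, ∫ z, (A x - A z) * (W2 x * W1 z - W2 z * W1 x) ∂gaussianReal 0 1 = I x := fun x => by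
    rw [show (fun z => (A x - A z) * (W2 x * W1 z - W2 z * W1 x)) = fun z =>
        W2 x * A x * W1 z - W2 x * (W1 z * A z) - (W1 x * A x * W2 z - W1 x * (W2 z * A z)) by funext z; ring,
      integral_sub ((h1.const_mul _).sub' (h1A.const_mul _)) ((h2.const_mul _).sub' (h2A.const_mul _)),
      integral_sub (h1.const_mul _) (h1A.const_mul _), integral_sub (h2.const_mul _) (h2A.const_mul _)]
    simp only [integral_const_mul]
    rfl
  have hIi : Integrable I (gaussianReal 0 1) :=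
    ((h2A.mul_const _).sub' (h2.mul_const _)).sub' ((h1A.mul_const _).sub' (h1.mul_const _))
  have hI0 : 0 ≤ I := fun x => (integral_nonneg fun z => h x z).trans_eq (e x)
  have hIx : I x₀ ≠ 0 := by
    rw [← e]
    exact (integral_pos_of_integrable_nonneg_nonzero
      (Continuous.mul (continuous_const.sub cA) ((continuous_const.mul c1).sub (c2.mul continuous_const)))
      (hint x₀) (fun z => h x₀ z) hne).ne'
  have key : 0 < ∫ x, I x ∂gaussianReal 0 1 :=
    integral_pos_of_integrable_nonneg_nonzero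
      ((((c2.mul cA).mul continuous_const).sub (c2.mul continuous_const)).sub
        (((c1.mul cA).mul continuous_const).sub (c1.mul continuous_const))) hIi hI0 hIx
  simp only [hIdef] at key
  rw [integral_sub ((h2A.mul_const _).sub' (h2.mul_const _)) ((h1A.mul_const _).sub' (h1.mul_const _)),
    integral_sub (h2A.mul_const _) (h2.mul_const _), integral_sub (h1A.mul_const _) (h1.mul_const _)] at key
  simp only [integral_mul_const] at key
  rw [← hJ1, ← hJ2] at key
  rw [div_lt_div_iff₀ p1 p2]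
  change (0 : ℝ) < J2 * I1 - I2 * J1 - (J1 * I2 - I1 * J2) at key
  nlinarith

/-- nonconstant observables stay nonconstant -/
lemma Good.pull_nc (h : Good V M) (h0 : 0 ≤ m) (h1 : m ≤ 1) (hF : Continuous F) {C : ℝ}
    (hC : ∀ y, |F y| ≤ C) (he : EMono F) (hnc : ∃ t, F 0 < F t) (a : ℝ) :
    ∃ t, sF m a V F 0 < sF m a V F t := by
  obtain ⟨t, ht⟩ := hnc
  rcases le_or_gt a 0 with ha | ha
  · exact ⟨t, by rw [sF_zero h.pos ha, sF_zero h.pos ha]; exact ht⟩
  have hs := sqrt_pos.2 ha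
  refine ⟨√a, ?_⟩
  rw [h.sF_even h0 h1 hF hC he.even ha, h.sF_even h0 h1 hF hC he.even ha, zero_div, div_self hs.ne']
  have hgc : ∀ c, Continuous (wgt m a V c) := fun c =>
    ((h.eg_rpow h0 h1).1.comp (continuous_const.mul continuous_id)).mul
      (continuous_cosh.comp (continuous_const.mul continuous_id))
  refine wmean_lt (hgc _) (hgc _) (hF.comp (continuous_const.mul continuous_id)) (h.int_wgt_one h0 h1 a _)
    (h.int_wgt_one h0 h1 a _) (h.int_wgt h0 h1 hF hC a _) (h.int_wgt h0 h1 hF hC a _)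
    (h.wgt_pos h0 h1 a _) (h.wgt_pos h0 h1 a _) (fun u v => ?_) (x₀ := t / √a) (z₀ := 0) ?_
  · have g1 := rpow_nonneg (h.pos (√a * u)).le m
    have g2 := rpow_nonneg (h.pos (√a * v)).le m
    have hu : |(0 : ℝ)| ≤ |(1 : ℝ)| := by simp
    rcases le_total |u| |v| with k | k
    · refine mul_nonneg_of_nonpos_of_nonpos (sub_nonpos.2 (he _ _ ?_)) ?_
      · rw [abs_mul, abs_mul]; exact mul_le_mul_of_nonneg_left k (abs_nonneg _)
      · simp only [wgt]; nlinarith [mul_le_mul_of_nonneg_left (cosh_tp k hu) (mul_nonneg g1 g2)]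
    · refine mul_nonneg (sub_nonneg.2 (he _ _ ?_)) ?_
      · rw [abs_mul, abs_mul]; exact mul_le_mul_of_nonneg_left k (abs_nonneg _)
      · simp only [wgt]; nlinarith [mul_le_mul_of_nonneg_left (cosh_tp k hu) (mul_nonneg g1 g2)]
  · have ht0 : t ≠ 0 := by rintro rfl; exact lt_irrefl _ ht
    simp only [mul_zero, mul_div_cancel₀ _ hs.ne', wgt, cosh_zero, mul_one, zero_mul, one_mul]
    refine mul_ne_zero (sub_ne_zero.2 ht.ne') (sub_ne_zero.2 ?_)
    have := one_lt_cosh.2 (div_ne_zero ht0 hs.ne')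
    have g1 := rpow_pos_of_pos (h.pos t) m
    have g2 := rpow_pos_of_pos (h.pos 0) m
    intro hc
    nlinarith [mul_pos g1 g2]

/-- a nonzero magnetisation stays nonzero -/
lemma Good.mag_nc (h : Good V M) (h0 : 0 ≤ m) (h1 : m ≤ 1) (hnc : ∃ t, 0 < t ∧ 0 < M t) (a : ℝ) :
    ∃ t, 0 < t ∧ 0 < sF m a V M t := by
  obtain ⟨t, ht, hMt⟩ := hnc
  rcases le_or_gt a 0 with ha | ha
  · exact ⟨t, ht, by rw [sF_zero h.pos ha]; exact hMt⟩
  have := isOpenPos_gauss
  have hs := sqrt_pos.2 ha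
  refine ⟨√a, hs, ?_⟩
  rw [h.sF_odd h0 h1 h.cont h.le_one h.odd ha, div_self hs.ne']
  refine div_pos (integral_pos_of_integrable_nonneg_nonzero (x := t / √a) ?_ ?_ (fun z => mul_nonneg
    (mul_nonneg (rpow_nonneg (h.pos _).le _) (cosh_pos _).le) ?_) ?_) (h.wgt_pos h0 h1 a _)
  · exact (((h.eg_rpow h0 h1).1.comp (continuous_const.mul continuous_id)).mul
      (continuous_cosh.comp (continuous_const.mul continuous_id))).mul
      ((h.cont.comp (continuous_const.mul continuous_id)).mul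
        (continuous_tanh'.comp (continuous_const.mul continuous_id)))
  · refine (h.int_wgt_one h0 h1 a 1).mul_bdd (c := 1)
      ((h.cont.comp (continuous_const.mul continuous_id)).mul
        (continuous_tanh'.comp (continuous_const.mul continuous_id))).aestronglyMeasurable
      (Eventually.of_forall fun z => ?_)
    rw [Real.norm_eq_abs, abs_mul]
    exact mul_le_one₀ (h.le_one _) (abs_nonneg _) (abs_tanh_lt_one _).le
  · have := emono_mag h.odd h.nn h.mono zero_le_one (sqrt_nonneg a) 0 z (by simp)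
    simpa using this
  · have htt : 0 < tanh (1 * (t / √a)) := by
      rw [tanh_eq_sinh_div_cosh]; exact div_pos (sinh_pos_iff.2 (by positivity)) (cosh_pos _)
    rw [mul_div_cancel₀ _ hs.ne']
    exact (mul_pos (mul_pos (rpow_pos_of_pos (h.pos _) _) (cosh_pos _)) (mul_pos hMt htt)).ne'

/-! ### the chain -/

variable {R : ℕ} {μ h h' : ℕ → ℝ}

/-- magnetisation `k` levels below the top -/
noncomputable def Mg (R : ℕ) (μ h : ℕ → ℝ) (k : ℕ) : ℝ → ℝ := tlN cosh R μ h 0 k tanh

/-- overlaps of the site functional -/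
noncomputable def rs (R : ℕ) (μ h : ℕ → ℝ) (l : ℕ) : ℝ := Par.Gamma cosh tanh R μ h l

/-- squared magnetisation of level `R - i`, pulled `j` levels down -/
noncomputable def Ob (R : ℕ) (μ h : ℕ → ℝ) (i j : ℕ) : ℝ → ℝ :=
  tlN cosh R μ h i j fun y => Mg R μ h i y ^ 2

lemma Vn_succ (e : ℝ → ℝ) (k : ℕ) :
    Vn e R μ h (k + 1) = sV (μ (R - k)) (h (R - k) - h (R - (k + 1))) (Vn e R μ h k) := rfl

lemma tl_eq (e : ℝ → ℝ) (k : ℕ) (F : ℝ → ℝ) :
    tl e R μ h k F = sF (μ (R - k)) (h (R - k) - h (R - (k + 1))) (Vn e R μ h k) F := rfl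

lemma Mg_succ (k : ℕ) :
    Mg R μ h (k + 1) = sF (μ (R - k)) (h (R - k) - h (R - (k + 1))) (Vn cosh R μ h k) (Mg R μ h k) := by
  rw [Mg, tlN, zero_add, tl_eq]
  rfl

lemma Ob_succ (i j : ℕ) : Ob R μ h i (j + 1) = sF (μ (R - (i + j))) (h (R - (i + j)) - h (R - (i + j + 1)))
    (Vn cosh R μ h (i + j)) (Ob R μ h i j) := by
  rw [Ob, tlN, tl_eq]
  rfl

lemma good_chain (hm : Ex R μ) (h : ℕ → ℝ) : ∀ k, k ≤ R → Good (Vn cosh R μ h k) (Mg R μ h k) ∧
    ∃ t, 0 < t ∧ 0 < Mg R μ h k t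
  | 0, _ => ⟨good_cosh, 1, one_pos, by
      show 0 < tanh (1 : ℝ)
      rw [tanh_eq_sinh_div_cosh]; exact div_pos (sinh_pos_iff.2 one_pos) (cosh_pos _)⟩
  | k + 1, hk => by
    obtain ⟨g, n⟩ := good_chain hm h k (by omega)
    have hh := hm.mem (show k < R by omega)
    rw [Vn_succ, Mg_succ]
    exact ⟨g.step hh.1 hh.2 _, g.mag_nc hh.1.le hh.2 n _⟩

lemma ob_spec (hm : Ex R μ) (h : ℕ → ℝ) (i : ℕ) : ∀ j, i + j ≤ R → Continuous (Ob R μ h i j) ∧
    (∀ y, |Ob R μ h i j y| ≤ 1) ∧ EMono (Ob R μ h i j) ∧ ∃ t, Ob R μ h i j 0 < Ob R μ h i j t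
  | 0, hi => by
    obtain ⟨g, t, ht, hMt⟩ := good_chain hm h i (by omega)
    show Continuous (fun y => Mg R μ h i y ^ 2) ∧ (∀ y, |Mg R μ h i y ^ 2| ≤ 1) ∧ EMono (fun y => Mg R μ h i y ^ 2) ∧ _
    refine ⟨g.cont.pow 2, fun y => by rw [abs_pow]; exact pow_le_one₀ (abs_nonneg _) (g.le_one y),
      EMono.of_nonneg (fun y => by rw [g.odd]; ring) fun x hx z hz hxz => pow_le_pow_left₀ (g.nn x hx) (g.mono hx hz hxz) 2,
      t, ?_⟩
    have h0 : Mg R μ h i 0 = 0 := by have := g.odd 0; rw [neg_zero] at this; linarith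
    show Mg R μ h i 0 ^ 2 < Mg R μ h i t ^ 2
    rw [h0]; simpa using pow_pos hMt 2
  | j + 1, hj => by
    obtain ⟨c, b, e, n⟩ := ob_spec hm h i j (by omega)
    have g := (good_chain hm h (i + j) (by omega)).1
    have hh := hm.mem (show i + j < R by omega)
    rw [Ob_succ]
    exact ⟨g.cont_sF hh.1.le hh.2 c b _, g.abs_sF hh.1.le hh.2 c b _, g.pull_mono hh.1.le hh.2 c b e _,
      g.pull_nc hh.1.le hh.2 c b e n _⟩

lemma rs_eq {l : ℕ} (_ : l ≤ R) :
    rs R μ h l = ∫ z, Ob R μ h (R - l) l (√(h 0) * z) ∂gaussianReal 0 1 := rfl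

lemma int_ob (hm : Ex R μ) (h : ℕ → ℝ) {l : ℕ} (hl : l ≤ R) (c : ℝ) :
    Integrable (fun z => Ob R μ h (R - l) l (c * z)) (gaussianReal 0 1) :=
  Integrable.of_bound ((ob_spec hm h _ l (by omega)).1.comp (continuous_const.mul continuous_id)).aestronglyMeasurable 1
    (Eventually.of_forall fun z => (Real.norm_eq_abs _).trans_le ((ob_spec hm h _ l (by omega)).2.1 _))

/-- the chains agree while the increments agree -/
lemma chain_congr {K : ℕ} (hinc : ∀ k < K, h' (R - k) - h' (R - (k + 1)) = h (R - k) - h (R - (k + 1))) :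
    ∀ k ≤ K, Vn cosh R μ h' k = Vn cosh R μ h k ∧ Mg R μ h' k = Mg R μ h k := by
  intro k
  induction k with
  | zero => exact fun _ => ⟨rfl, rfl⟩
  | succ k ih =>
    intro hk
    obtain ⟨e1, e2⟩ := ih (by omega)
    rw [Vn_succ, Vn_succ, Mg_succ, Mg_succ, e1, e2, hinc k (by omega)]
    exact ⟨rfl, rfl⟩

lemma ob_congr {K : ℕ} (hinc : ∀ k < K, h' (R - k) - h' (R - (k + 1)) = h (R - k) - h (R - (k + 1)))
    (i : ℕ) : ∀ j, i + j ≤ K → Ob R μ h' i j = Ob R μ h i j := by
  intro j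
  induction j with
  | zero =>
    intro hi
    show (fun y => Mg R μ h' i y ^ 2) = fun y => Mg R μ h i y ^ 2
    rw [(chain_congr hinc i (by omega)).2]
  | succ j ih =>
    intro hj
    rw [Ob_succ, Ob_succ, ih (by omega), (chain_congr hinc (i + j) (by omega)).1, hinc (i + j) (by omega)]

/-- raising one level lowers the other overlaps -/
theorem rs_antitone (hm : Ex R μ) {W W' : ℝ} (hh : Prof R h W) (hh' : Prof R h' W') {p : ℕ} (hp : p < R)
    (heq : ∀ l, l ≤ R → l ≠ p → h' l = h l) (hle : h p ≤ h' p) {l : ℕ} (hl : l < R) (hlp : l ≠ p) :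
    rs R μ h' l ≤ rs R μ h l := by
  obtain ⟨K, hK⟩ : ∃ K, R - p = K + 1 := ⟨R - p - 1, by omega⟩
  have hpre : ∀ k < K, h' (R - k) - h' (R - (k + 1)) = h (R - k) - h (R - (k + 1)) := fun k hk => by
    rw [heq _ (by omega) (by omega), heq _ (by omega) (by omega)]
  obtain ⟨eV, eM⟩ := chain_congr (μ := μ) hpre K le_rfl
  set V0 := Vn cosh R μ h K with hV0
  set M0 := Mg R μ h K with hM0
  have g0 : Good V0 M0 := (good_chain hm h K (by omega)).1
  set m2 := μ (p + 1) with hm2
  have m2p : 0 < m2 ∧ m2 ≤ 1 := ⟨hm.pos _ (by omega) (by omega), hm.le_one _ (by omega) (by omega)⟩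
  set δ := h' p - h p with hδ
  set b' := h (p + 1) - h' p with hb'
  have hδ0 : 0 ≤ δ := sub_nonneg.2 hle
  have hb0 : 0 ≤ b' := by
    have := hh'.mono p hp
    rw [heq (p + 1) (by omega) (by omega)] at this
    exact sub_nonneg.2 this
  have eK : R - K = p + 1 := by omega
  have eK1 : R - (K + 1) = p := by omega
  set W0 := sV m2 b' V0
  set MW := sF m2 b' V0 M0
  have gW : Good W0 MW := g0.step m2p.1 m2p.2 b'
  have n1 : Vn cosh R μ h' (K + 1) = W0 ∧ Mg R μ h' (K + 1) = MW := by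
    rw [Vn_succ, Mg_succ, eV, eM, eK, eK1, heq (p + 1) (by omega) (by omega)]; exact ⟨rfl, rfl⟩
  have o1 : Vn cosh R μ h (K + 1) = sV m2 δ W0 ∧ Mg R μ h (K + 1) = sF m2 δ W0 MW := by
    rw [Vn_succ, Mg_succ, eK, eK1, show h (p + 1) - h p = δ + b' by rw [hδ, hb']; ring,
      g0.sV_add m2p.1 m2p.2 hδ0 hb0, g0.sF_add m2p.1 m2p.2 g0.cont g0.le_one hδ0 hb0]
    exact ⟨rfl, rfl⟩
  have obW : ∀ i j, i + j = K → Ob R μ h' i (j + 1) = sF m2 b' V0 (Ob R μ h i j) ∧
      Ob R μ h i (j + 1) = sF m2 δ W0 (sF m2 b' V0 (Ob R μ h i j)) := fun i j hij => by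
    obtain ⟨c, b, -, -⟩ := ob_spec hm h i j (by omega)
    rw [Ob_succ, Ob_succ, hij, ob_congr hpre i j (by omega), eV, eK, eK1, heq (p + 1) (by omega) (by omega),
      show h (p + 1) - h p = δ + b' by rw [hδ, hb']; ring, g0.sF_add m2p.1 m2p.2 c b hδ0 hb0]
    exact ⟨rfl, rfl⟩
  rcases Nat.eq_zero_or_pos p with rfl | hp0
  · obtain ⟨j, rfl⟩ : ∃ j, l = j + 1 := ⟨l - 1, by omega⟩
    obtain ⟨en, eo⟩ := obW (R - (j + 1)) j (by omega)
    rw [rs_eq hl.le, rs_eq hl.le, en, eo]
    obtain ⟨c, b, e, -⟩ := ob_spec hm h (R - (j + 1)) j (by omega)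
    set Fb := sF m2 b' V0 (Ob R μ h (R - (j + 1)) j)
    have cF : Continuous Fb := g0.cont_sF m2p.1.le m2p.2 c b _
    have bF : ∀ y, |Fb y| ≤ 1 := g0.abs_sF m2p.1.le m2p.2 c b _
    have eF : EMono Fb := g0.pull_mono m2p.1.le m2p.2 c b e _
    rw [show h' 0 = h 0 + δ by rw [hδ]; ring, ← zero_add (√(h 0 + δ))]
    have hadd := gauss_add (EG.of_bound cF bF) 0 hh.zero hδ0
    simp only [zero_add] at hadd ⊢
    rw [← hadd]
    refine integral_mono_of_nonneg (Eventually.of_forall fun z => integral_nonneg fun w => ?_)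
      (Integrable.of_bound ((gW.cont_sF m2p.1.le m2p.2 cF bF δ).comp
        (continuous_const.mul continuous_id)).aestronglyMeasurable 1
        (Eventually.of_forall fun z => (Real.norm_eq_abs _).trans_le (gW.abs_sF m2p.1.le m2p.2 cF bF δ _)))
      (Eventually.of_forall fun z => ?_)
    · exact le_trans (by
        show (0 : ℝ) ≤ Fb 0
        obtain ⟨g, -⟩ := good_chain hm h (R - (j + 1)) (by omega)
        have : ∀ j', j' ≤ j → ∀ y, 0 ≤ Ob R μ h (R - (j + 1)) j' y := by
          intro j'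
          induction j' with
          | zero => exact fun _ y => sq_nonneg _
          | succ j' ih =>
            intro hj y
            rw [Ob_succ]
            have gg := (good_chain hm h (R - (j + 1) + j') (by omega)).1
            exact div_nonneg (integral_nonneg fun u => mul_nonneg (rpow_nonneg (gg.pos _).le _) (ih (by omega) _))
              (integral_nonneg fun u => rpow_nonneg (gg.pos _).le _)
        exact div_nonneg (integral_nonneg fun u => mul_nonneg (rpow_nonneg (g0.pos _).le _) (this j le_rfl _))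
          (integral_nonneg fun u => rpow_nonneg (g0.pos _).le _)) (eF 0 _ (by simp))
    · have hle' := pull_le good_one gW m2p.1.le le_rfl m2p.2 gW.nn cF cF bF bF eF eF.even (fun _ => le_rfl)
        δ (√(h 0) * z)
      simpa [sF] using hle'
  set m1 := μ p with hm1
  have m1p : 0 < m1 ∧ m1 ≤ 1 := ⟨hm.pos _ (by omega) hp.le, hm.le_one _ (by omega) hp.le⟩
  have hm12 : m1 ≤ m2 := hm.mono p (by omega) hp
  set a := h p - h (p - 1) with hadef
  have ha0 : 0 ≤ a := by
    have := hh.mono (p - 1) (by omega)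
    rw [show p - 1 + 1 = p by omega] at this
    exact sub_nonneg.2 this
  have eK2 : R - (K + 1 + 1) = p - 1 := by omega
  have hd' : h' p - h' (p - 1) = a + δ := by rw [heq (p - 1) (by omega) (by omega), hadef, hδ]; ring
  have gd1 := gW.step m1p.1 m1p.2 δ
  have gd2 := gW.step m2p.1 m2p.2 δ
  have hMd : ∀ y, 0 ≤ y → sF m1 δ W0 MW y ≤ sF m2 δ W0 MW y := fun y hy =>
    mag_le gW gW m1p.1.le hm12 m2p.2 (fun _ _ => le_rfl) δ hy
  have inv : ∀ k, K + 2 ≤ k → k ≤ R → (∀ y, 0 ≤ y → Mg R μ h' k y ≤ Mg R μ h k y) ∧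
      ∀ i j, i ≠ K + 1 → i + j = k → ∀ y, Ob R μ h' i j y ≤ Ob R μ h i j y := by
    intro k hk
    induction k, hk using Nat.le_induction with
    | base =>
      intro _
      have hM : ∀ y, 0 ≤ y → Mg R μ h' (K + 2) y ≤ Mg R μ h (K + 2) y := fun y hy => by
        rw [show K + 2 = K + 1 + 1 from rfl, Mg_succ (K + 1), Mg_succ (K + 1), eK1, eK2, hd', n1.1, n1.2, o1.1, o1.2, ← hm1,
          ← gW.sF_add m1p.1 m1p.2 gW.cont gW.le_one ha0 hδ0]
        exact mag_le gd1 gd2 m1p.1.le le_rfl m1p.2 hMd a hy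
      refine ⟨hM, fun i j hi hij y => ?_⟩
      rcases Nat.eq_zero_or_pos j with rfl | hj
      · show Mg R μ h' i y ^ 2 ≤ Mg R μ h i y ^ 2
        rw [show i = K + 2 by omega]
        have g' := (good_chain hm h' (K + 2) (by omega)).1
        have g := (good_chain hm h (K + 2) (by omega)).1
        rcases le_total 0 y with hy | hy
        · exact pow_le_pow_left₀ (g'.nn y hy) (hM y hy) 2
        · have e1 := g'.nn (-y) (neg_nonneg.2 hy)
          have e2 := hM (-y) (neg_nonneg.2 hy)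
          rw [g'.odd] at e1 e2
          rw [g.odd] at e2
          nlinarith
      · obtain ⟨j', rfl⟩ : ∃ j', j = j' + 2 := ⟨j - 2, by omega⟩
        obtain ⟨en, eo⟩ := obW i j' (by omega)
        rw [Ob_succ i (j' + 1), Ob_succ i (j' + 1), show i + (j' + 1) = K + 1 by omega, eK1, eK2, hd', n1.1, o1.1,
          en, eo, ← hm1]
        obtain ⟨c, b, e, -⟩ := ob_spec hm h i j' (by omega)
        set Fb := sF m2 b' V0 (Ob R μ h i j')
        have cF : Continuous Fb := g0.cont_sF m2p.1.le m2p.2 c b _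
        have bF : ∀ y, |Fb y| ≤ 1 := g0.abs_sF m2p.1.le m2p.2 c b _
        have eF : EMono Fb := g0.pull_mono m2p.1.le m2p.2 c b e _
        rw [← gW.sF_add m1p.1 m1p.2 cF bF ha0 hδ0]
        exact pull_le gd1 gd2 m1p.1.le le_rfl m1p.2 hMd (gW.cont_sF m1p.1.le m1p.2 cF bF _)
          (gW.cont_sF m2p.1.le m2p.2 cF bF _) (gW.abs_sF m1p.1.le m1p.2 cF bF _)
          (gW.abs_sF m2p.1.le m2p.2 cF bF _) (gW.pull_mono m1p.1.le m1p.2 cF bF eF _)
          (gW.pull_mono m2p.1.le m2p.2 cF bF eF _).even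
          (fun x => pull_le gW gW m1p.1.le hm12 m2p.2 (fun _ _ => le_rfl) cF cF bF bF eF eF.even (fun _ => le_rfl) δ x) a y
    | succ k hk ih =>
      intro hkR
      obtain ⟨iM, iO⟩ := ih (by omega)
      have g' := (good_chain hm h' k (by omega)).1
      have g := (good_chain hm h k (by omega)).1
      have hh2 := hm.mem (show k < R by omega)
      have hd : h' (R - k) - h' (R - (k + 1)) = h (R - k) - h (R - (k + 1)) := by
        rw [heq _ (by omega) (by omega), heq _ (by omega) (by omega)]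
      have hM : ∀ y, 0 ≤ y → Mg R μ h' (k + 1) y ≤ Mg R μ h (k + 1) y := fun y hy => by
        rw [Mg_succ, Mg_succ, hd]
        exact mag_le g' g hh2.1.le le_rfl hh2.2 iM _ hy
      refine ⟨hM, fun i j hi hij y => ?_⟩
      rcases Nat.eq_zero_or_pos j with rfl | hj
      · show Mg R μ h' i y ^ 2 ≤ Mg R μ h i y ^ 2
        rw [show i = k + 1 by omega]
        have g1' := (good_chain hm h' (k + 1) hkR).1
        have g1 := (good_chain hm h (k + 1) hkR).1
        rcases le_total 0 y with hy | hy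
        · exact pow_le_pow_left₀ (g1'.nn y hy) (hM y hy) 2
        · have e1 := g1'.nn (-y) (neg_nonneg.2 hy)
          have e2 := hM (-y) (neg_nonneg.2 hy)
          rw [g1'.odd] at e1 e2
          rw [g1.odd] at e2
          nlinarith
      · obtain ⟨j', rfl⟩ : ∃ j', j = j' + 1 := ⟨j - 1, by omega⟩
        rw [Ob_succ, Ob_succ, show i + j' = k by omega, hd]
        obtain ⟨c', b1, e', -⟩ := ob_spec hm h' i j' (by omega)
        obtain ⟨c, b, e, -⟩ := ob_spec hm h i j' (by omega)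
        exact pull_le g' g hh2.1.le le_rfl hh2.2 iM c' c b1 b e' e.even (iO i j' hi (by omega)) _ y
  rw [rs_eq hl.le, rs_eq hl.le, heq 0 (by omega) (by omega)]
  exact integral_mono (int_ob hm h' hl.le _) (int_ob hm h hl.le _) fun z =>
    (inv R (by omega) le_rfl).2 (R - l) l (by omega) (by omega) _

/-- a common shift raises every overlap strictly -/
theorem rs_shift (hm : Ex R μ) {c : ℝ} (hc : 0 < c) {W : ℝ} (hh : Prof R h W) {l : ℕ} (hl : l ≤ R) :
    rs R μ h l < rs R μ (fun i => h i + c) l := by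
  have := isOpenPos_gauss
  have hinc : ∀ k < R, (h (R - k) + c) - (h (R - (k + 1)) + c) = h (R - k) - h (R - (k + 1)) := fun k _ => by ring
  rw [rs_eq hl, rs_eq hl, ob_congr (h' := fun i => h i + c) (h := h) (K := R) hinc (R - l) l (by omega)]
  obtain ⟨hcn, hb, he, t, ht⟩ := ob_spec hm h (R - l) l (by omega)
  set G := Ob R μ h (R - l) l
  set u := √(h 0)
  set v := √(h 0 + c)
  have hu : 0 ≤ u := sqrt_nonneg _
  have huv : u < v := sqrt_lt_sqrt hh.zero (by linarith)
  have hv : 0 < v := hu.trans_lt huv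
  have hle : ∀ z, G (u * z) ≤ G (v * z) := fun z => he _ _ (by
    rw [abs_mul, abs_mul, abs_of_nonneg hu, abs_of_pos hv]
    exact mul_le_mul_of_nonneg_right huv.le (abs_nonneg _))
  obtain ⟨x, hx⟩ : ∃ x, G (u * x) ≠ G (v * x) := by
    by_contra hall
    push Not at hall
    have e : ∀ s, G s = G (u / v * s) := fun s => by
      have := hall (s / v)
      rw [mul_div_cancel₀ _ hv.ne'] at this
      rw [← this]; congr 1; ring
    have hn : ∀ n : ℕ, G t = G ((u / v) ^ n * t) := fun n => by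
      induction n with
      | zero => simp
      | succ n ih => rw [ih, e ((u / v) ^ n * t)]; congr 1; ring
    have ht0 : Tendsto (fun n : ℕ => G ((u / v) ^ n * t)) atTop (nhds (G 0)) := by
      refine hcn.continuousAt.tendsto.comp ?_
      simpa using (tendsto_pow_atTop_nhds_zero_of_lt_one (div_nonneg hu hv.le)
        ((div_lt_one hv).2 huv)).mul_const t
    have := tendsto_nhds_unique ht0 (tendsto_const_nhds.congr hn)
    linarith
  have hpos := integral_pos_of_integrable_nonneg_nonzero (μ := gaussianReal 0 1)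
    (f := fun z => G (v * z) - G (u * z))
    ((hcn.comp (continuous_const.mul continuous_id)).sub (hcn.comp (continuous_const.mul continuous_id)))
    ((int_ob hm h hl v).sub' (int_ob hm h hl u)) (fun z => sub_nonneg.2 (hle z)) (sub_ne_zero.2 (Ne.symm hx))
  rw [integral_sub (int_ob hm h hl v) (int_ob hm h hl u)] at hpos
  linarith

/-- flat levels have equal overlaps -/
theorem rs_flat (hm : Ex R μ) {l : ℕ} (hl : l < R) (heq : h (l + 1) = h l) :
    rs R μ h l = rs R μ h (l + 1) := by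
  obtain ⟨i, hi⟩ : ∃ i, R - l = i + 1 := ⟨R - l - 1, by omega⟩
  have g := (good_chain hm h i (by omega)).1
  have hzero : h (R - i) - h (R - (i + 1)) ≤ 0 := by
    rw [show R - i = l + 1 by omega, show R - (i + 1) = l by omega, heq, sub_self]
  have eF : ∀ F : ℝ → ℝ, tl cosh R μ h i F = F := fun F => funext fun y => by
    rw [tl_eq, sF_zero g.pos hzero]
  show ∫ z, tlN cosh R μ h (R - l) l _ _ ∂gaussianReal 0 1 = ∫ z, tlN cosh R μ h (R - (l + 1)) (l + 1) _ _ ∂gaussianReal 0 1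
  rw [hi, show R - (l + 1) = i by omega, Par.Br.tlN_shift (k := i) (j := l), eF]
  simp only [tlN, zero_add, eF]

end Vale.Agent.P157.Full
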