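import Vale.Agent.P157.Par.Node

/-! One tilted Gaussian step of the site functional: magnetisation and pulled-back observables are monotone in the
absolute field, in the exponent and in the magnetisation. -/

open MeasureTheory ProbabilityTheory Real Filter Set
open Vale.Agent.P157.Par (EG)

namespace Vale.Agent.P157.Full

/-- value step -/
noncomputable def sV (m a : ℝ) (V : ℝ → ℝ) (y : ℝ) : ℝ :=
  (∫ z, V (y + √a * z) ^ m ∂gaussianReal 0 1) ^ (1 / m)

/-- tilted step -/
noncomputable def sF (m a : ℝ) (V F : ℝ → ℝ) (y : ℝ) : ℝ :=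
  (∫ z, V (y + √a * z) ^ m * F (y + √a * z) ∂gaussianReal 0 1) /
    ∫ z, V (y + √a * z) ^ m ∂gaussianReal 0 1

/-- nondecreasing in `|y|` -/
def EMono (G : ℝ → ℝ) : Prop := ∀ x y, |x| ≤ |y| → G x ≤ G y

lemma EMono.even {G : ℝ → ℝ} (h : EMono G) (y : ℝ) : G (-y) = G y :=
  le_antisymm (h _ _ (abs_neg y).le) (h _ _ (abs_neg y).ge)

lemma EMono.of_nonneg {G : ℝ → ℝ} (he : ∀ y, G (-y) = G y) (hm : MonotoneOn G (Ici 0)) : EMono G := by
  have e : ∀ y, G y = G |y| := fun y => by
    rcases abs_choice y with h | h <;> rw [h]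
    rw [he]
  intro x y h
  rw [e x, e y]
  exact hm (abs_nonneg x) (abs_nonneg y) h

/-- a value and its magnetisation -/
structure Good (V M : ℝ → ℝ) : Prop where
  cont : Continuous M
  one : ∀ y, 1 ≤ V y
  even : ∀ y, V (-y) = V y
  odd : ∀ y, M (-y) = -M y
  deriv : ∀ y, HasDerivAt V (V y * M y) y
  nn : ∀ y, 0 ≤ y → 0 ≤ M y
  mono : MonotoneOn M (Ici 0)
  le_one : ∀ y, |M y| ≤ 1

variable {V M V' M' F F' : ℝ → ℝ} {m m' a b y : ℝ}

lemma Good.pos (h : Good V M) (y : ℝ) : 0 < V y := zero_lt_one.trans_le (h.one y)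

lemma Good.contV (h : Good V M) : Continuous V :=
  continuous_iff_continuousAt.2 fun y => (h.deriv y).continuousAt

lemma Good.log_deriv (h : Good V M) (y : ℝ) : HasDerivAt (fun x => log (V x)) (M y) y := by
  have := (h.deriv y).log (h.pos y).ne'
  rwa [mul_div_cancel_left₀ _ (h.pos y).ne'] at this

lemma Good.rpow_deriv (h : Good V M) (m y : ℝ) :
    HasDerivAt (fun x => V x ^ m) (m * (V y ^ m * M y)) y := by
  have := (h.deriv y).rpow_const (p := m) (Or.inl (h.pos y).ne')
  refine this.congr_deriv ?_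
  rw [rpow_sub_one (h.pos y).ne']
  field_simp [(h.pos y).ne']

lemma Good.growth (h : Good V M) (y : ℝ) : V y ≤ V 0 * exp |y| := by
  have := Convex.norm_image_sub_le_of_norm_hasDerivWithin_le (s := Set.univ) (f := fun x => log (V x))
    (f' := M) (C := 1) (fun x _ => (h.log_deriv x).hasDerivWithinAt) (fun x _ => h.le_one x) convex_univ
    (Set.mem_univ 0) (Set.mem_univ y)
  simp only [sub_zero, one_mul, Real.norm_eq_abs] at this
  rw [← exp_log (h.pos y), ← exp_log (h.pos 0), ← exp_add]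
  exact exp_le_exp.2 (by linarith [le_abs_self (log (V y) - log (V 0))])

lemma Good.eg_rpow (h : Good V M) (_ : 0 ≤ m) (h1 : m ≤ 1) : EG fun y => V y ^ m := by
  refine ⟨h.contV.rpow_const fun y => Or.inl (h.pos y).ne', V 0, 1, zero_le_one, fun y => ?_⟩
  rw [abs_of_nonneg (rpow_nonneg (h.pos y).le _), one_mul]
  exact ((rpow_le_rpow_of_exponent_le (h.one y) h1).trans_eq (rpow_one _)).trans (h.growth y)

lemma Good.int (h : Good V M) (h0 : 0 ≤ m) (h1 : m ≤ 1) (hF : Continuous F) {C : ℝ}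
    (hC : ∀ y, |F y| ≤ C) (c y : ℝ) :
    Integrable (fun z => V (y + c * z) ^ m * F (y + c * z)) (gaussianReal 0 1) :=
  ((h.eg_rpow h0 h1).mul_bdd hF hC).int c y

lemma Good.int_pos (h : Good V M) (h0 : 0 ≤ m) (h1 : m ≤ 1) (c y : ℝ) :
    1 ≤ ∫ z, V (y + c * z) ^ m ∂gaussianReal 0 1 := by
  simpa using integral_mono (μ := gaussianReal 0 1) (integrable_const (1 : ℝ))
    ((h.eg_rpow h0 h1).int c y) fun z => one_le_rpow (h.one _) h0

/-! ### the kernel -/

lemma gauss_translate (G : ℝ → ℝ) (c : ℝ) :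
    ∫ z, G (z + c) ∂gaussianReal 0 1 = exp (-c ^ 2 / 2) * ∫ z, G z * exp (c * z) ∂gaussianReal 0 1 := by
  rw [integral_gaussianReal_eq_integral_smul one_ne_zero, integral_gaussianReal_eq_integral_smul one_ne_zero,
    ← integral_add_right_eq_self (μ := volume) _ (-c), ← integral_const_mul]
  refine integral_congr_ae (Eventually.of_forall fun z => ?_)
  have e : exp (-(z + -c) ^ 2 / (2 * ((1 : NNReal) : ℝ))) =
      exp (-z ^ 2 / (2 * ((1 : NNReal) : ℝ))) * (exp (-c ^ 2 / 2) * exp (c * z)) := by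
    rw [← exp_add, ← exp_add]; congr 1; push_cast; ring
  simp only [gaussianPDFReal, sub_zero, neg_add_cancel_right, smul_eq_mul, e]
  ring

lemma gauss_neg (G : ℝ → ℝ) : ∫ z, G (-z) ∂gaussianReal 0 1 = ∫ z, G z ∂gaussianReal 0 1 := by
  have h : (gaussianReal 0 1).map (fun z : ℝ => -z) = gaussianReal 0 1 := by
    simpa using gaussianReal_map_neg (μ := 0) (v := 1)
  conv_rhs => rw [← h]
  exact (measurableEmbedding_neg.integral_map G).symm

/-- an even weight against the shifted Gaussian -/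
lemma fold_even {P : ℝ → ℝ} (hP : ∀ y, P (-y) = P y) (ha : 0 < a) (y : ℝ)
    (hi : ∀ c, Integrable (fun z => P (√a * z) * exp (c * z)) (gaussianReal 0 1)) :
    ∫ z, P (y + √a * z) ∂gaussianReal 0 1 =
      exp (-(y / √a) ^ 2 / 2) * ∫ z, P (√a * z) * cosh (y / √a * z) ∂gaussianReal 0 1 := by
  have hs : √a ≠ 0 := (sqrt_pos.2 ha).ne'
  have h := gauss_translate (fun z => P (√a * z)) (y / √a)
  have e : ∀ z : ℝ, √a * (z + y / √a) = y + √a * z := fun z => by field_simp; ring
  simp only [e] at h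
  rw [h]
  congr 1
  set c := y / √a
  have hn : ∫ z, P (√a * z) * exp (-(c * z)) ∂gaussianReal 0 1 =
      ∫ z, P (√a * z) * exp (c * z) ∂gaussianReal 0 1 := by
    rw [← gauss_neg fun z => P (√a * z) * exp (c * z)]
    simp only [mul_neg, hP]
  have hi' : Integrable (fun z => P (√a * z) * exp (-(c * z))) (gaussianReal 0 1) := by
    simpa only [neg_mul] using hi (-c)
  simp only [cosh_eq, mul_div_assoc', mul_add]
  rw [integral_div, integral_add (hi c) hi', hn]
  ring

/-- an odd weight against the shifted Gaussian -/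
lemma fold_odd {P : ℝ → ℝ} (hP : ∀ y, P (-y) = -P y) (ha : 0 < a) (y : ℝ)
    (hi : ∀ c, Integrable (fun z => P (√a * z) * exp (c * z)) (gaussianReal 0 1)) :
    ∫ z, P (y + √a * z) ∂gaussianReal 0 1 =
      exp (-(y / √a) ^ 2 / 2) * ∫ z, P (√a * z) * sinh (y / √a * z) ∂gaussianReal 0 1 := by
  have hs : √a ≠ 0 := (sqrt_pos.2 ha).ne'
  have h := gauss_translate (fun z => P (√a * z)) (y / √a)
  have e : ∀ z : ℝ, √a * (z + y / √a) = y + √a * z := fun z => by field_simp; ring
  simp only [e] at h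
  rw [h]
  congr 1
  set c := y / √a
  have hn : ∫ z, P (√a * z) * exp (-(c * z)) ∂gaussianReal 0 1 =
      -∫ z, P (√a * z) * exp (c * z) ∂gaussianReal 0 1 := by
    rw [← gauss_neg fun z => P (√a * z) * exp (c * z)]
    simp only [mul_neg, hP, neg_mul, integral_neg, neg_neg]
  have hi' : Integrable (fun z => P (√a * z) * exp (-(c * z))) (gaussianReal 0 1) := by
    simpa only [neg_mul] using hi (-c)
  simp only [sinh_eq, mul_div_assoc', mul_sub]
  rw [integral_div, integral_sub (hi c) hi', hn]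
  ring

/-! ### correlation inequality -/

/-- weighted means increase when the weights are tilted along the observable -/
lemma mean_le {W1 W2 A : ℝ → ℝ} (h1 : Integrable W1 (gaussianReal 0 1)) (h2 : Integrable W2 (gaussianReal 0 1))
    (h1A : Integrable (fun z => W1 z * A z) (gaussianReal 0 1))
    (h2A : Integrable (fun z => W2 z * A z) (gaussianReal 0 1))
    (p1 : 0 < ∫ z, W1 z ∂gaussianReal 0 1) (p2 : 0 < ∫ z, W2 z ∂gaussianReal 0 1)
    (h : ∀ x z, 0 ≤ (A x - A z) * (W2 x * W1 z - W2 z * W1 x)) :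
    (∫ z, W1 z * A z ∂gaussianReal 0 1) / (∫ z, W1 z ∂gaussianReal 0 1) ≤
      (∫ z, W2 z * A z ∂gaussianReal 0 1) / (∫ z, W2 z ∂gaussianReal 0 1) := by
  set I1 := ∫ z, W1 z ∂gaussianReal 0 1
  set I2 := ∫ z, W2 z ∂gaussianReal 0 1
  set J1 := ∫ z, W1 z * A z ∂gaussianReal 0 1 with hJ1
  set J2 := ∫ z, W2 z * A z ∂gaussianReal 0 1 with hJ2
  have e : ∀ x, ∫ z, (A x - A z) * (W2 x * W1 z - W2 z * W1 x) ∂gaussianReal 0 1 =
      W2 x * A x * I1 - W2 x * J1 - (W1 x * A x * I2 - W1 x * J2) := fun x => by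
    rw [show (fun z => (A x - A z) * (W2 x * W1 z - W2 z * W1 x)) = fun z =>
        W2 x * A x * W1 z - W2 x * (W1 z * A z) - (W1 x * A x * W2 z - W1 x * (W2 z * A z)) by funext z; ring,
      integral_sub ((h1.const_mul _).sub' (h1A.const_mul _)) ((h2.const_mul _).sub' (h2A.const_mul _)),
      integral_sub (h1.const_mul _) (h1A.const_mul _), integral_sub (h2.const_mul _) (h2A.const_mul _)]
    simp only [integral_const_mul]
    rfl
  have key : 0 ≤ ∫ x, (∫ z, (A x - A z) * (W2 x * W1 z - W2 z * W1 x) ∂gaussianReal 0 1) ∂gaussianReal 0 1 :=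
    integral_nonneg fun x => integral_nonneg fun z => h x z
  simp only [e] at key
  rw [integral_sub ((h2A.mul_const _).sub' (h2.mul_const _)) ((h1A.mul_const _).sub' (h1.mul_const _)),
    integral_sub (h2A.mul_const _) (h2.mul_const _), integral_sub (h1A.mul_const _) (h1.mul_const _)] at key
  simp only [integral_mul_const] at key
  rw [← hJ1, ← hJ2] at key
  rw [div_le_div_iff₀ p1 p2]
  change (0 : ℝ) ≤ J2 * I1 - I2 * J1 - (J1 * I2 - I1 * J2) at key
  nlinarith

lemma cosh_tp {x z u v : ℝ} (hxz : |x| ≤ |z|) (huv : |u| ≤ |v|) :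
    cosh (v * x) * cosh (u * z) ≤ cosh (v * z) * cosh (u * x) := by
  have e : ∀ s t : ℝ, cosh s * cosh t = (cosh (|s| + |t|) + cosh (|s| - |t|)) / 2 := fun s t => by
    rw [cosh_add, cosh_sub, cosh_abs, cosh_abs]; ring
  have h0 := abs_nonneg u
  have h1 := abs_nonneg x
  rw [e (v * x) (u * z), e (v * z) (u * x), abs_mul, abs_mul, abs_mul, abs_mul]
  refine div_le_div_of_nonneg_right (add_le_add (cosh_le_cosh.2 (abs_le_abs_of_nonneg (by positivity) ?_))
    (cosh_le_cosh.2 ?_)) two_pos.le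
  · nlinarith [mul_le_mul_of_nonneg_left hxz (sub_nonneg.2 huv)]
  · have hpos : 0 ≤ |v| * |z| - |u| * |x| := by nlinarith [mul_le_mul huv hxz h1 (abs_nonneg v)]
    rw [abs_of_nonneg hpos, abs_le]
    constructor <;> nlinarith [mul_le_mul_of_nonneg_left hxz (abs_nonneg u),
      mul_le_mul_of_nonneg_left hxz (abs_nonneg v), mul_le_mul_of_nonneg_right huv h1,
      mul_le_mul_of_nonneg_right huv (abs_nonneg z)]

lemma tanh_mono {x z : ℝ} (h : x ≤ z) : tanh x ≤ tanh z := by
  rw [tanh_eq_sinh_div_cosh, tanh_eq_sinh_div_cosh, div_le_div_iff₀ (cosh_pos x) (cosh_pos z)]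
  have := sinh_nonneg_iff.2 (sub_nonneg.2 h)
  rw [sinh_sub] at this
  linarith

lemma continuous_tanh' : Continuous tanh := by
  rw [show tanh = fun x => sinh x / cosh x from funext tanh_eq_sinh_div_cosh]
  exact continuous_sinh.div continuous_cosh fun x => (cosh_pos x).ne'

lemma emono_mag {A : ℝ → ℝ} (ho : ∀ y, A (-y) = -A y) (hn : ∀ y, 0 ≤ y → 0 ≤ A y)
    (hm : MonotoneOn A (Ici 0)) {c s : ℝ} (hc : 0 ≤ c) (hs : 0 ≤ s) :
    EMono fun z => A (s * z) * tanh (c * z) := by
  refine EMono.of_nonneg (fun y => ?_) fun x hx z hz h => ?_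
  · simp only [mul_neg, ho, tanh_neg]; ring
  · have hx0 : (0 : ℝ) ≤ x := hx
    have hz0 : (0 : ℝ) ≤ z := hz
    have h2 : 0 ≤ tanh (c * x) := by simpa using tanh_mono (show 0 ≤ c * x by positivity)
    exact mul_le_mul (hm (mul_nonneg hs hx0) (mul_nonneg hs hz0) (mul_le_mul_of_nonneg_left h hs))
      (tanh_mono (mul_le_mul_of_nonneg_left h hc)) h2 (hn _ (mul_nonneg hs hz0))

/-! ### the step -/

/-- the folded weight -/
noncomputable def wgt (m a : ℝ) (V : ℝ → ℝ) (c z : ℝ) : ℝ := V (√a * z) ^ m * cosh (c * z)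

lemma Good.int_exp (h : Good V M) (h0 : 0 ≤ m) (h1 : m ≤ 1) (hF : Continuous F) {C : ℝ}
    (hC : ∀ y, |F y| ≤ C) (a c : ℝ) :
    Integrable (fun z => V (√a * z) ^ m * F (√a * z) * exp (c * z)) (gaussianReal 0 1) := by
  have hc := h.eg_rpow h0 h1
  refine ((Vale.Agent.P157.Par.integrable_exp_abs (√a + |c|)).const_mul (C * V 0)).mono'
    (((hc.1.comp (continuous_const.mul continuous_id)).mul (hF.comp (continuous_const.mul continuous_id))).mul
      (continuous_exp.comp (continuous_const.mul continuous_id))).aestronglyMeasurable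
    (Eventually.of_forall fun z => ?_)
  rw [Real.norm_eq_abs, abs_mul, abs_mul, abs_of_nonneg (rpow_nonneg (h.pos _).le _), abs_exp]
  have e1 : V (√a * z) ^ m ≤ V 0 * exp (√a * |z|) :=
    ((rpow_le_rpow_of_exponent_le (h.one _) h1).trans_eq (rpow_one _)).trans
      ((h.growth _).trans_eq (by rw [abs_mul, abs_of_nonneg (sqrt_nonneg a)]))
  have e2 : exp (c * z) ≤ exp (|c| * |z|) := exp_le_exp.2 ((le_abs_self _).trans_eq (abs_mul c z))
  calc V (√a * z) ^ m * |F (√a * z)| * exp (c * z)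
      ≤ V 0 * exp (√a * |z|) * C * exp (|c| * |z|) := by
        refine mul_le_mul (mul_le_mul e1 (hC _) (abs_nonneg _) ?_) e2 (exp_pos _).le ?_
        · have := h.pos 0; positivity
        · have := h.pos 0; have := (abs_nonneg _).trans (hC 0); positivity
    _ = C * V 0 * exp ((√a + |c|) * |z|) := by rw [add_mul, exp_add]; ring

lemma Good.int_wgt (h : Good V M) (h0 : 0 ≤ m) (h1 : m ≤ 1) (hF : Continuous F) {C : ℝ}
    (hC : ∀ y, |F y| ≤ C) (a c : ℝ) :
    Integrable (fun z => wgt m a V c z * F (√a * z)) (gaussianReal 0 1) := by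
  refine (((h.int_exp h0 h1 hF hC a c).add (h.int_exp h0 h1 hF hC a (-c))).div_const 2).congr
    (Eventually.of_forall fun z => ?_)
  simp only [wgt, cosh_eq, Pi.add_apply, neg_mul]; ring

lemma Good.int_wgt_one (h : Good V M) (h0 : 0 ≤ m) (h1 : m ≤ 1) (a c : ℝ) :
    Integrable (wgt m a V c) (gaussianReal 0 1) :=
  (h.int_wgt h0 h1 continuous_const (F := fun _ => 1) (C := 1) (fun _ => by simp) a c).congr
    (Eventually.of_forall fun z => mul_one _)

lemma Good.wgt_pos (h : Good V M) (h0 : 0 ≤ m) (h1 : m ≤ 1) (a c : ℝ) :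
    0 < ∫ z, wgt m a V c z ∂gaussianReal 0 1 := by
  have : (1 : ℝ) ≤ ∫ z, wgt m a V c z ∂gaussianReal 0 1 := by
    simpa using integral_mono (μ := gaussianReal 0 1) (integrable_const (1 : ℝ))
      (h.int_wgt_one h0 h1 a c) fun z => one_le_mul_of_one_le_of_one_le (one_le_rpow (h.one _) h0) (one_le_cosh _)
  linarith

lemma Good.sF_even (h : Good V M) (h0 : 0 ≤ m) (h1 : m ≤ 1) (hF : Continuous F) {C : ℝ}
    (hC : ∀ y, |F y| ≤ C) (he : ∀ y, F (-y) = F y) (ha : 0 < a) (y : ℝ) :
    sF m a V F y = (∫ z, wgt m a V (y / √a) z * F (√a * z) ∂gaussianReal 0 1) /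
      ∫ z, wgt m a V (y / √a) z ∂gaussianReal 0 1 := by
  rw [sF, fold_even (P := fun x => V x ^ m * F x) (fun x => by rw [h.even, he]) ha y
      fun c => h.int_exp h0 h1 hF hC a c,
    fold_even (P := fun x => V x ^ m) (fun x => by rw [h.even]) ha y fun c => by
      simpa using h.int_exp h0 h1 continuous_const (F := fun _ => 1) (C := 1) (fun _ => by simp) a c,
    mul_div_mul_left _ _ (exp_pos _).ne']
  congr 1
  exact integral_congr_ae (Eventually.of_forall fun z => by simp only [wgt]; ring)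

lemma Good.sF_odd (h : Good V M) (h0 : 0 ≤ m) (h1 : m ≤ 1) (hF : Continuous F) {C : ℝ}
    (hC : ∀ y, |F y| ≤ C) (ho : ∀ y, F (-y) = -F y) (ha : 0 < a) (y : ℝ) :
    sF m a V F y = (∫ z, wgt m a V (y / √a) z * (F (√a * z) * tanh (y / √a * z)) ∂gaussianReal 0 1) /
      ∫ z, wgt m a V (y / √a) z ∂gaussianReal 0 1 := by
  rw [sF, fold_odd (P := fun x => V x ^ m * F x) (fun x => by rw [h.even, ho, mul_neg]) ha y
      fun c => h.int_exp h0 h1 hF hC a c,
    fold_even (P := fun x => V x ^ m) (fun x => by rw [h.even]) ha y fun c => by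
      simpa using h.int_exp h0 h1 continuous_const (F := fun _ => 1) (C := 1) (fun _ => by simp) a c,
    mul_div_mul_left _ _ (exp_pos _).ne']
  congr 1
  refine integral_congr_ae (Eventually.of_forall fun z => ?_)
  simp only [wgt, tanh_eq_sinh_div_cosh]
  field_simp [(cosh_pos (y / √a * z)).ne']

lemma sF_zero (hV : ∀ y, 0 < V y) (ha : a ≤ 0) (y : ℝ) : sF m a V F y = F y := by
  simp only [sF, sqrt_eq_zero_of_nonpos ha, zero_mul, add_zero, integral_const, probReal_univ, one_smul]
  field_simp [(rpow_pos_of_pos (hV y) m).ne']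

lemma sV_zero (hV : ∀ y, 0 < V y) (hm : m ≠ 0) (ha : a ≤ 0) (y : ℝ) : sV m a V y = V y := by
  simp only [sV, sqrt_eq_zero_of_nonpos ha, zero_mul, add_zero, integral_const, probReal_univ, one_smul,
    one_div, rpow_rpow_inv (hV y).le hm]

lemma Good.abs_sF (h : Good V M) (h0 : 0 ≤ m) (h1 : m ≤ 1) (hF : Continuous F) {C : ℝ}
    (hC : ∀ y, |F y| ≤ C) (a y : ℝ) : |sF m a V F y| ≤ C := by
  have hp := zero_lt_one.trans_le (h.int_pos h0 h1 (√a) y)
  rw [sF, abs_div, abs_of_pos hp, div_le_iff₀ hp, ← integral_const_mul]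
  refine abs_integral_le_integral_abs.trans (integral_mono (h.int h0 h1 hF hC _ _).abs
    (((h.eg_rpow h0 h1).int _ _).const_mul _) fun z => ?_)
  show |_ * _| ≤ _
  rw [abs_mul, abs_of_nonneg (rpow_nonneg (h.pos _).le _), mul_comm]
  exact mul_le_mul_of_nonneg_right (hC _) (rpow_nonneg (h.pos _).le _)

lemma Good.cont_sF (h : Good V M) (h0 : 0 ≤ m) (h1 : m ≤ 1) (hF : Continuous F) {C : ℝ}
    (hC : ∀ y, |F y| ≤ C) (a : ℝ) : Continuous (sF m a V F) :=
  (((h.eg_rpow h0 h1).mul_bdd hF hC).conv (√a)).1.div ((h.eg_rpow h0 h1).conv (√a)).1 fun y =>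
    (zero_lt_one.trans_le (h.int_pos h0 h1 (√a) y)).ne'

/-- the new value has the tilted magnetisation as logarithmic derivative -/
lemma Good.hasDeriv_sV (h : Good V M) (h0 : 0 < m) (h1 : m ≤ 1) (a y : ℝ) :
    HasDerivAt (sV m a V) (sV m a V y * sF m a V M y) y := by
  set c := √a
  have hc := h.eg_rpow h0.le h1
  have hb : Integrable (fun z => V 0 * exp (|y| + 1) * exp (c * |z|)) (gaussianReal 0 1) :=
    (Vale.Agent.P157.Par.integrable_exp_abs c).const_mul _
  have hd := (hasDerivAt_integral_of_dominated_loc_of_deriv_le (𝕜 := ℝ) (μ := gaussianReal 0 1)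
    (F := fun x z => V (x + c * z) ^ m) (F' := fun x z => m * (V (x + c * z) ^ m * M (x + c * z)))
    (x₀ := y) (Metric.ball_mem_nhds y one_pos)
    (Eventually.of_forall fun x => (hc.1.comp (continuous_const.add (continuous_const.mul continuous_id))).aestronglyMeasurable)
    (hc.int c y)
    (((hc.1.mul h.cont).comp (continuous_const.add (continuous_const.mul continuous_id))).const_mul m).aestronglyMeasurable
    (Eventually.of_forall fun z x hx => ?_) hb
    (Eventually.of_forall fun z x _ => (h.rpow_deriv m (x + c * z)).comp_add_const x (c * z))).2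
  · have hI := zero_lt_one.trans_le (h.int_pos h0.le h1 c y)
    refine (hd.rpow_const (p := 1 / m) (Or.inl hI.ne')).congr_deriv ?_
    rw [integral_const_mul, rpow_sub_one hI.ne', sV, sF, show √a = c from rfl]
    field_simp
  · rw [Real.norm_eq_abs, abs_mul, abs_mul, abs_of_pos h0, abs_of_nonneg (rpow_nonneg (h.pos _).le _)]
    have hx' : |x| ≤ |y| + 1 := by
      rw [Metric.mem_ball, Real.dist_eq] at hx
      linarith [abs_sub_abs_le_abs_sub x y]
    have e1 : V (x + c * z) ^ m ≤ V 0 * exp (|y| + 1) * exp (c * |z|) := by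
      refine ((rpow_le_rpow_of_exponent_le (h.one _) h1).trans_eq (rpow_one _)).trans ((h.growth _).trans ?_)
      rw [mul_assoc, ← exp_add]
      refine mul_le_mul_of_nonneg_left (exp_le_exp.2 ((abs_add_le _ _).trans ?_)) (h.pos 0).le
      rw [abs_mul, abs_of_nonneg (sqrt_nonneg a)]
      linarith
    calc m * (V (x + c * z) ^ m * |M (x + c * z)|) ≤ 1 * (V (x + c * z) ^ m * 1) :=
          mul_le_mul h1 (mul_le_mul_of_nonneg_left (h.le_one _) (rpow_nonneg (h.pos _).le _)) (by
            exact mul_nonneg (rpow_nonneg (h.pos _).le _) (abs_nonneg _)) zero_le_one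
      _ ≤ _ := by rw [one_mul, mul_one]; exact e1

/-- pulled back observables stay monotone -/
lemma Good.pull_mono (h : Good V M) (h0 : 0 ≤ m) (h1 : m ≤ 1) (hF : Continuous F) {C : ℝ}
    (hC : ∀ y, |F y| ≤ C) (he : EMono F) (a : ℝ) : EMono (sF m a V F) := by
  intro x y hxy
  rcases le_or_gt a 0 with ha | ha
  · rw [sF_zero h.pos ha, sF_zero h.pos ha]; exact he x y hxy
  rw [h.sF_even h0 h1 hF hC he.even ha, h.sF_even h0 h1 hF hC he.even ha]
  refine mean_le (h.int_wgt_one h0 h1 a _) (h.int_wgt_one h0 h1 a _) (h.int_wgt h0 h1 hF hC a _)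
    (h.int_wgt h0 h1 hF hC a _) (h.wgt_pos h0 h1 a _) (h.wgt_pos h0 h1 a _) fun u v => ?_
  have hu : |x / √a| ≤ |y / √a| := by
    rw [abs_div, abs_div]; exact div_le_div_of_nonneg_right hxy (abs_nonneg _)
  have g1 := rpow_nonneg (h.pos (√a * u)).le m
  have g2 := rpow_nonneg (h.pos (√a * v)).le m
  rcases le_total |u| |v| with k | k
  · refine mul_nonneg_of_nonpos_of_nonpos (sub_nonpos.2 (he _ _ ?_)) ?_
    · rw [abs_mul, abs_mul]; exact mul_le_mul_of_nonneg_left k (abs_nonneg _)
    · simp only [wgt]; nlinarith [mul_le_mul_of_nonneg_left (cosh_tp k hu) (mul_nonneg g1 g2)]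
  · refine mul_nonneg (sub_nonneg.2 (he _ _ ?_)) ?_
    · rw [abs_mul, abs_mul]; exact mul_le_mul_of_nonneg_left k (abs_nonneg _)
    · simp only [wgt]; nlinarith [mul_le_mul_of_nonneg_left (cosh_tp k hu) (mul_nonneg g1 g2)]

lemma Good.sF_odd_neg (h : Good V M) (ho : ∀ y, F (-y) = -F y) (m a y : ℝ) :
    sF m a V F (-y) = -sF m a V F y := by
  simp only [sF]
  rw [← gauss_neg fun z => V (-y + √a * z) ^ m * F (-y + √a * z), ← gauss_neg fun z => V (-y + √a * z) ^ m,
    ← neg_div, ← integral_neg]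
  congr 1 <;> refine integral_congr_ae (Eventually.of_forall fun z => ?_) <;>
    simp only [mul_neg, show -y + -(√a * z) = -(y + √a * z) by ring, h.even, ho]

lemma Good.sV_neg (h : Good V M) (m a y : ℝ) : sV m a V (-y) = sV m a V y := by
  simp only [sV]
  rw [← gauss_neg fun z => V (-y + √a * z) ^ m]
  congr 1
  refine integral_congr_ae (Eventually.of_forall fun z => ?_)
  simp only [mul_neg, show -y + -(√a * z) = -(y + √a * z) by ring, h.even]

/-- the step preserves the class -/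
theorem Good.step (h : Good V M) (h0 : 0 < m) (h1 : m ≤ 1) (a : ℝ) : Good (sV m a V) (sF m a V M) where
  cont := h.cont_sF h0.le h1 h.cont h.le_one a
  one y := one_le_rpow (h.int_pos h0.le h1 (√a) y) (by positivity)
  even := h.sV_neg m a
  odd := h.sF_odd_neg h.odd m a
  deriv := h.hasDeriv_sV h0 h1 a
  nn y hy := by
    rcases le_or_gt a 0 with ha | ha
    · rw [sF_zero h.pos ha]; exact h.nn y hy
    rw [h.sF_odd h0.le h1 h.cont h.le_one h.odd ha]
    refine div_nonneg (integral_nonneg fun z => mul_nonneg ?_ ?_) (h.wgt_pos h0.le h1 a _).le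
    · exact mul_nonneg (rpow_nonneg (h.pos _).le _) (cosh_pos _).le
    · have := emono_mag h.odd h.nn h.mono (div_nonneg hy (sqrt_nonneg a)) (sqrt_nonneg a) 0 z (by simp)
      simpa using this
  mono := by
    intro x hx y hy hxy
    rcases le_or_gt a 0 with ha | ha
    · rw [sF_zero h.pos ha, sF_zero h.pos ha]; exact h.mono hx hy hxy
    have hx0 : (0 : ℝ) ≤ x := hx
    have hy0 : (0 : ℝ) ≤ y := hy
    rw [h.sF_odd h0.le h1 h.cont h.le_one h.odd ha, h.sF_odd h0.le h1 h.cont h.le_one h.odd ha]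
    set cx := x / √a
    set cy := y / √a
    have hcx : 0 ≤ cx := by positivity
    have hc : cx ≤ cy := div_le_div_of_nonneg_right hxy (sqrt_nonneg a)
    have hT : ∀ c, Continuous fun z => M (√a * z) * tanh (c * z) := fun c =>
      (h.cont.comp (continuous_const.mul continuous_id)).mul (continuous_tanh'.comp (continuous_const.mul continuous_id))
    have hb : ∀ c z, |M (√a * z) * tanh (c * z)| ≤ 1 := fun c z => by
      rw [abs_mul]; exact mul_le_one₀ (h.le_one _) (abs_nonneg _) (abs_tanh_lt_one _).le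
    have hI : ∀ c c', Integrable (fun z => wgt m a V c z * (M (√a * z) * tanh (c' * z))) (gaussianReal 0 1) :=
      fun c c' => (h.int_wgt_one h0.le h1 a c).mul_bdd (hT c').aestronglyMeasurable
        (Eventually.of_forall fun z => (Real.norm_eq_abs _).trans_le (hb c' z))
    refine le_trans ?_ (mean_le (W1 := wgt m a V cx) (W2 := wgt m a V cy)
      (A := fun z => M (√a * z) * tanh (cy * z)) (h.int_wgt_one h0.le h1 a _) (h.int_wgt_one h0.le h1 a _)
      (hI _ _) (hI _ _) (h.wgt_pos h0.le h1 a _) (h.wgt_pos h0.le h1 a _) fun u v => ?_)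
    · refine div_le_div_of_nonneg_right (integral_mono (hI _ _) (hI _ _) fun z =>
        mul_le_mul_of_nonneg_left ?_ (mul_nonneg (rpow_nonneg (h.pos _).le _) (cosh_pos _).le))
        (h.wgt_pos h0.le h1 a _).le
      rcases le_total 0 z with hz | hz
      · exact mul_le_mul_of_nonneg_left (tanh_mono (mul_le_mul_of_nonneg_right hc hz))
          (h.nn _ (mul_nonneg (sqrt_nonneg a) hz))
      · refine mul_le_mul_of_nonpos_left (tanh_mono (mul_le_mul_of_nonpos_right hc hz)) ?_
        have := h.nn (√a * -z) (mul_nonneg (sqrt_nonneg a) (neg_nonneg.2 hz))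
        rw [mul_neg, h.odd] at this
        linarith
    · have he := emono_mag h.odd h.nn h.mono (hcx.trans hc) (sqrt_nonneg a)
      have hu : |cx| ≤ |cy| := by rw [abs_of_nonneg hcx, abs_of_nonneg (hcx.trans hc)]; exact hc
      have g1 := rpow_nonneg (h.pos (√a * u)).le m
      have g2 := rpow_nonneg (h.pos (√a * v)).le m
      rcases le_total |u| |v| with k | k
      · exact mul_nonneg_of_nonpos_of_nonpos (sub_nonpos.2 (he _ _ k))
          (by simp only [wgt]; nlinarith [mul_le_mul_of_nonneg_left (cosh_tp k hu) (mul_nonneg g1 g2)])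
      · exact mul_nonneg (sub_nonneg.2 (he _ _ k))
          (by simp only [wgt]; nlinarith [mul_le_mul_of_nonneg_left (cosh_tp k hu) (mul_nonneg g1 g2)])
  le_one := h.abs_sF h0.le h1 h.cont h.le_one a

/-! ### comparisons -/

/-- a larger exponent and magnetisation tilt towards larger `|z|` -/
lemma ratio_mono (h : Good V M) (h' : Good V' M') (h0 : 0 ≤ m) (hm : m ≤ m')
    (hM : ∀ y, 0 ≤ y → M y ≤ M' y) {x z : ℝ} (hxz : |x| ≤ |z|) :
    V' x ^ m' * V z ^ m ≤ V' z ^ m' * V x ^ m := by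
  have he : EMono fun y => m' * log (V' y) - m * log (V y) := by
    refine EMono.of_nonneg (fun y => by rw [h.even, h'.even]) ?_
    refine monotoneOn_of_deriv_nonneg (convex_Ici 0) ?_ ?_ fun y hy => ?_
    · exact ((continuous_const.mul (h'.contV.log fun y => (h'.pos y).ne')).sub
        (continuous_const.mul (h.contV.log fun y => (h.pos y).ne'))).continuousOn
    · exact fun y _ => (((h'.log_deriv y).const_mul m').sub ((h.log_deriv y).const_mul m)).differentiableAt.differentiableWithinAt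
    · have hd : HasDerivAt (fun y => m' * log (V' y) - m * log (V y)) (m' * M' y - m * M y) y :=
        ((h'.log_deriv y).const_mul m').sub ((h.log_deriv y).const_mul m)
      rw [hd.deriv]
      rw [interior_Ici] at hy
      have := mul_le_mul hm (hM y (le_of_lt hy)) (h.nn y (le_of_lt hy)) (h0.trans hm)
      linarith
  have := he x z hxz
  rw [rpow_def_of_pos (h'.pos x), rpow_def_of_pos (h.pos z), rpow_def_of_pos (h'.pos z),
    rpow_def_of_pos (h.pos x), ← exp_add, ← exp_add]
  exact exp_le_exp.2 (by linarith)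

/-- comparison of pulled back observables -/
theorem pull_le (h : Good V M) (h' : Good V' M') (h0 : 0 ≤ m) (hm : m ≤ m') (h1 : m' ≤ 1)
    (hM : ∀ y, 0 ≤ y → M y ≤ M' y) (hF : Continuous F) (hF' : Continuous F') {C : ℝ}
    (hC : ∀ y, |F y| ≤ C) (hC' : ∀ y, |F' y| ≤ C) (he : EMono F) (he' : ∀ y, F' (-y) = F' y)
    (hle : ∀ y, F y ≤ F' y) (a y : ℝ) : sF m a V F y ≤ sF m' a V' F' y := by
  rcases le_or_gt a 0 with ha | ha
  · rw [sF_zero h.pos ha, sF_zero h'.pos ha]; exact hle y
  rw [h.sF_even h0 (hm.trans h1) hF hC he.even ha, h'.sF_even (h0.trans hm) h1 hF' hC' he' ha]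
  set c := y / √a
  refine (mean_le (W1 := wgt m a V c) (W2 := wgt m' a V' c) (A := fun z => F (√a * z))
    (h.int_wgt_one h0 (hm.trans h1) a _) (h'.int_wgt_one (h0.trans hm) h1 a _)
    (h.int_wgt h0 (hm.trans h1) hF hC a _) (h'.int_wgt (h0.trans hm) h1 hF hC a _)
    (h.wgt_pos h0 (hm.trans h1) a _) (h'.wgt_pos (h0.trans hm) h1 a _) fun u v => ?_).trans ?_
  · have k0 : ∀ u v : ℝ, |u| ≤ |v| → |√a * u| ≤ |√a * v| := fun u v k => by
      rw [abs_mul, abs_mul]; exact mul_le_mul_of_nonneg_left k (abs_nonneg _)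
    have hc := mul_nonneg (cosh_pos (c * u)).le (cosh_pos (c * v)).le
    rcases le_total |u| |v| with k | k
    · refine mul_nonneg_of_nonpos_of_nonpos (sub_nonpos.2 (he _ _ (k0 _ _ k))) ?_
      have := mul_le_mul_of_nonneg_left (ratio_mono h h' h0 hm hM (k0 _ _ k)) hc
      simp only [wgt]; linarith
    · refine mul_nonneg (sub_nonneg.2 (he _ _ (k0 _ _ k))) ?_
      have := mul_le_mul_of_nonneg_left (ratio_mono h h' h0 hm hM (k0 _ _ k)) hc
      simp only [wgt]; linarith
  · refine div_le_div_of_nonneg_right (integral_mono (h'.int_wgt (h0.trans hm) h1 hF hC a _)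
      (h'.int_wgt (h0.trans hm) h1 hF' hC' a _) fun z => mul_le_mul_of_nonneg_left (hle _) ?_)
      (h'.wgt_pos (h0.trans hm) h1 a _).le
    exact mul_nonneg (rpow_nonneg (h'.pos _).le _) (cosh_pos _).le

/-- comparison of magnetisations -/
theorem mag_le (h : Good V M) (h' : Good V' M') (h0 : 0 ≤ m) (hm : m ≤ m') (h1 : m' ≤ 1)
    (hM : ∀ y, 0 ≤ y → M y ≤ M' y) (a : ℝ) (hy : 0 ≤ y) : sF m a V M y ≤ sF m' a V' M' y := by
  rcases le_or_gt a 0 with ha | ha
  · rw [sF_zero h.pos ha, sF_zero h'.pos ha]; exact hM y hy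
  rw [h.sF_odd h0 (hm.trans h1) h.cont h.le_one h.odd ha, h'.sF_odd (h0.trans hm) h1 h'.cont h'.le_one h'.odd ha]
  set c := y / √a
  have hc : 0 ≤ c := by positivity
  have hb : ∀ {V₀ M₀ : ℝ → ℝ}, Good V₀ M₀ → ∀ z, ‖M₀ (√a * z) * tanh (c * z)‖ ≤ 1 := fun g z => by
    rw [Real.norm_eq_abs, abs_mul]; exact mul_le_one₀ (g.le_one _) (abs_nonneg _) (abs_tanh_lt_one _).le
  have hT : ∀ {V₀ M₀ : ℝ → ℝ}, Good V₀ M₀ → AEStronglyMeasurable (fun z => M₀ (√a * z) * tanh (c * z))
      (gaussianReal 0 1) := fun g => ((g.cont.comp (continuous_const.mul continuous_id)).mul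
      (continuous_tanh'.comp (continuous_const.mul continuous_id))).aestronglyMeasurable
  have i1 := (h.int_wgt_one h0 (hm.trans h1) a c).mul_bdd (hT h) (Eventually.of_forall (hb h))
  have i2 := (h'.int_wgt_one (h0.trans hm) h1 a c).mul_bdd (hT h) (Eventually.of_forall (hb h))
  have i3 := (h'.int_wgt_one (h0.trans hm) h1 a c).mul_bdd (hT h') (Eventually.of_forall (hb h'))
  refine (mean_le (W1 := wgt m a V c) (W2 := wgt m' a V' c) (A := fun z => M (√a * z) * tanh (c * z))
    (h.int_wgt_one h0 (hm.trans h1) a _) (h'.int_wgt_one (h0.trans hm) h1 a _) i1 i2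
    (h.wgt_pos h0 (hm.trans h1) a _) (h'.wgt_pos (h0.trans hm) h1 a _) fun u v => ?_).trans ?_
  · have k0 : ∀ u v : ℝ, |u| ≤ |v| → |√a * u| ≤ |√a * v| := fun u v k => by
      rw [abs_mul, abs_mul]; exact mul_le_mul_of_nonneg_left k (abs_nonneg _)
    have he := emono_mag h.odd h.nn h.mono hc (sqrt_nonneg a)
    have hcc := mul_nonneg (cosh_pos (c * u)).le (cosh_pos (c * v)).le
    rcases le_total |u| |v| with k | k
    · refine mul_nonneg_of_nonpos_of_nonpos (sub_nonpos.2 (he _ _ k)) ?_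
      have := mul_le_mul_of_nonneg_left (ratio_mono h h' h0 hm hM (k0 _ _ k)) hcc
      simp only [wgt]; linarith
    · refine mul_nonneg (sub_nonneg.2 (he _ _ k)) ?_
      have := mul_le_mul_of_nonneg_left (ratio_mono h h' h0 hm hM (k0 _ _ k)) hcc
      simp only [wgt]; linarith
  · refine div_le_div_of_nonneg_right (integral_mono i2 i3 fun z => mul_le_mul_of_nonneg_left ?_
      (mul_nonneg (rpow_nonneg (h'.pos _).le _) (cosh_pos _).le)) (h'.wgt_pos (h0.trans hm) h1 a _).le
    rcases le_total 0 z with hz | hz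
    · exact mul_le_mul_of_nonneg_right (hM _ (mul_nonneg (sqrt_nonneg a) hz))
        (by simpa using tanh_mono (mul_nonneg hc hz))
    · have := hM (√a * -z) (mul_nonneg (sqrt_nonneg a) (neg_nonneg.2 hz))
      rw [mul_neg, h.odd, h'.odd] at this
      exact mul_le_mul_of_nonpos_right (by linarith)
        (by simpa using tanh_mono (mul_nonpos_of_nonneg_of_nonpos hc hz))

/-! ### the base and the semigroup -/

lemma good_cosh : Good cosh tanh where
  cont := continuous_tanh'
  one := one_le_cosh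
  even := cosh_neg
  odd := tanh_neg
  deriv y := (hasDerivAt_cosh y).congr_deriv (by rw [tanh_eq_sinh_div_cosh]; field_simp [(cosh_pos y).ne'])
  nn y hy := by simpa using tanh_mono hy
  mono := fun x _ y _ h => tanh_mono h
  le_one y := (abs_tanh_lt_one y).le

lemma good_one : Good (fun _ => 1) (fun _ => 0) where
  cont := continuous_const
  one _ := le_rfl
  even _ := rfl
  odd _ := by simp
  deriv y := by simpa using hasDerivAt_const y (1 : ℝ)
  nn _ _ := le_rfl
  mono := monotoneOn_const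
  le_one _ := by simp

lemma gauss_add {G : ℝ → ℝ} (hG : EG G) (y : ℝ) {a d : ℝ} (ha : 0 ≤ a) (hd : 0 ≤ d) :
    ∫ z, ∫ w, G (y + √a * z + √d * w) ∂gaussianReal 0 1 ∂gaussianReal 0 1 =
      ∫ x, G (y + √(a + d) * x) ∂gaussianReal 0 1 := by
  have h : ((gaussianReal 0 1).prod (gaussianReal 0 1)).map (fun p : ℝ × ℝ => √a * p.1 + √d * p.2) =
      (gaussianReal 0 1).map (fun z => √(a + d) * z) := by
    have e : (fun p : ℝ × ℝ => √a * p.1 + √d * p.2) =
        (fun p : ℝ × ℝ => p.1 + p.2) ∘ Prod.map (√a * ·) (√d * ·) := rfl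
    rw [e, ← Measure.map_map (by fun_prop) (by fun_prop), ← Measure.map_prod_map _ _ (by fun_prop) (by fun_prop),
      gaussianReal_map_const_mul, gaussianReal_map_const_mul, gaussianReal_map_const_mul]
    rw [← Measure.conv, gaussianReal_conv_gaussianReal]
    congr 1
    · simp
    · ext; push_cast; rw [sq_sqrt ha, sq_sqrt hd, sq_sqrt (add_nonneg ha hd)]; ring
  have hm : Continuous fun t : ℝ => G (y + t) := hG.1.comp (continuous_const.add continuous_id)
  have hi : Integrable (fun t : ℝ => G (y + t)) ((gaussianReal 0 1).map fun z => √(a + d) * z) := by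
    rw [integrable_map_measure hm.aestronglyMeasurable (by fun_prop)]
    exact hG.int _ y
  rw [← h, integrable_map_measure hm.aestronglyMeasurable (by fun_prop)] at hi
  have hp := integral_prod (μ := gaussianReal 0 1) (ν := gaussianReal 0 1)
    (fun p : ℝ × ℝ => G (y + (√a * p.1 + √d * p.2))) hi
  simp only [← add_assoc] at hp
  rw [← hp, ← integral_map (φ := fun z => √(a + d) * z) (f := fun t => G (y + t)) (by fun_prop)
    hm.aestronglyMeasurable, ← h, integral_map (by fun_prop) hm.aestronglyMeasurable]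
  simp only [← add_assoc]

lemma Good.sV_add (h : Good V M) (h0 : 0 < m) (h1 : m ≤ 1) (ha : 0 ≤ a) {d : ℝ} (hd : 0 ≤ d) :
    sV m a (sV m d V) = sV m (a + d) V := by
  funext y
  simp only [sV]
  congr 1
  rw [← gauss_add (h.eg_rpow h0.le h1) y ha hd]
  refine integral_congr_ae (Eventually.of_forall fun z => ?_)
  simp only [one_div]
  rw [rpow_inv_rpow (zero_le_one.trans (h.int_pos h0.le h1 _ _)) h0.ne']

lemma Good.sF_add (h : Good V M) (h0 : 0 < m) (h1 : m ≤ 1) (hF : Continuous F) {C : ℝ}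
    (hC : ∀ y, |F y| ≤ C) (ha : 0 ≤ a) {d : ℝ} (hd : 0 ≤ d) :
    sF m a (sV m d V) (sF m d V F) = sF m (a + d) V F := by
  funext y
  have e : ∀ x, sV m d V x ^ m = ∫ w, V (x + √d * w) ^ m ∂gaussianReal 0 1 := fun x => by
    rw [sV, one_div, rpow_inv_rpow (zero_le_one.trans (h.int_pos h0.le h1 _ _)) h0.ne']
  simp only [sF, e]
  rw [← gauss_add (h.eg_rpow h0.le h1) y ha hd,
    ← gauss_add ((h.eg_rpow h0.le h1).mul_bdd hF hC) y ha hd]
  congr 1
  refine integral_congr_ae (Eventually.of_forall fun z => ?_)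
  simp only
  rw [mul_div_cancel₀ _ (zero_lt_one.trans_le (h.int_pos h0.le h1 _ _)).ne']

end Vale.Agent.P157.Full
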