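import Vale.Agent.P157.Full.ProdW
import Vale.Agent.P157.Par.InterpBase
import Vale.Agent.P168.MP.Conc
import Vale.Agent.P168.MP.Node

/-! The new spin at the leaves: given the base paths, the spins of different replicas are independent, and an
exponential factor close to `1` moves replica expectations little. -/

open MeasureTheory Real Finset
open Vale.Agent.P168 (sg)
open Vale.Agent.P168.MP (ET ext Z att Valid avg tilt lin ok_lin)

namespace Vale.Agent.P157.Full

variable {Ω : Type} [Fintype Ω] [Nonempty Ω] {R : ℕ} {w : List Ω → ℝ} {Y : List Ω → Bool → ℝ}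

/-- the base weight with the spin summed out -/
noncomputable def wbar (w : List Ω → ℝ) (Y : List Ω → Bool → ℝ) (p : List Ω) : ℝ := w p * avg (Y p)

/-- the mean over the spin given the base path -/
noncomputable def spinMean (Y : List Ω → Bool → ℝ) (G : List Ω → Bool → ℝ) (p : List Ω) : ℝ :=
  avg (fun s => Y p s * G p s) / avg (Y p)

lemma prodW_pos (hw : ∀ p, 0 < w p) (hY : ∀ p s, 0 < Y p s) (p : List (Ω × Bool)) : 0 < prodW R w Y p :=
  mul_pos (hw _) (hY _ _)

lemma wbar_pos (hw : ∀ p, 0 < w p) (hY : ∀ p s, 0 < Y p s) (p : List Ω) : 0 < wbar w Y p :=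
  mul_pos (hw _) (Vale.Agent.P168.MP.avg_pos (hY p))

lemma leafB_snoc {pre : List (Ω × Bool)} (h : pre.length + 1 = R) (o : Ω × Bool) :
    leafB R (pre ++ [o]) = o.2 := by
  rw [leafB, List.map_append, List.getD_append_right _ _ _ _ (by simp; omega)]
  simp [show R - 1 - pre.length = 0 by omega]

lemma lin_topS (hR : 1 ≤ R) : lin R R = 1 := by
  rw [lin, if_pos le_rfl, div_self]; positivity

lemma avg_bool_prod (f : Ω × Bool → ℝ) : avg f = avg fun a => avg fun b => f (a, b) := by
  simp only [avg, Fintype.sum_prod_type, Fintype.card_prod, ← Finset.sum_div]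
  push_cast
  rw [div_div, mul_comm]

lemma Z_prodW : ∀ (k : ℕ) (pre : List (Ω × Bool)), pre.length + (k + 1) = R →
    Z (lin R) (prodW R w Y) (k + 1) pre = Z (lin R) (wbar w Y) (k + 1) (pre.map Prod.fst)
  | 0, pre, h => by
    simp only [Z, List.length_map, show pre.length + 1 = R from h, lin_topS (show 1 ≤ R by omega),
      one_div, inv_one, Real.rpow_one]
    rw [avg_bool_prod]
    simp only [prodW, List.map_append, List.map_cons, List.map_nil, leafB_snoc h, wbar, avg, mul_div_assoc',
      Finset.mul_sum]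
  | k + 1, pre, h => by
    have e : ∀ o, Z (lin R) (prodW R w Y) (k + 1) (pre ++ [o]) =
        Z (lin R) (wbar w Y) (k + 1) (pre.map Prod.fst ++ [o.1]) := fun o => by
      rw [Z_prodW k _ (by simp; omega), List.map_append]; rfl
    rw [Z, Z]
    simp only [e, List.length_map]
    rw [avg_bool_prod]
    simp only [Vale.Agent.P168.MP.avg_const]

/-- **the spin given the base path** -/
theorem ext_prodW (hw : ∀ p, 0 < w p) (hY : ∀ p s, 0 < Y p s) (G : List Ω → Bool → ℝ) :
    ∀ (k : ℕ) (pre : List (Ω × Bool)), pre.length + (k + 1) = R →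
      ext (lin R) (prodW R w Y) (k + 1) pre (fun q => G (q.map Prod.fst) (leafB R q)) =
        ext (lin R) (wbar w Y) (k + 1) (pre.map Prod.fst) (spinMean Y G)
  | 0, pre, h => by
    simp only [Vale.Agent.P168.MP.ext_succ, Vale.Agent.P168.MP.ext_zero, Vale.Agent.P168.MP.trans, Z, List.length_map,
      show pre.length + 1 = R from h, lin_topS (show 1 ≤ R by omega), Real.rpow_one, Fintype.sum_prod_type]
    simp only [prodW, List.map_append, List.map_cons, List.map_nil, leafB_snoc h, wbar, spinMean]
    have hp : ∀ a, avg (Y (pre.map Prod.fst ++ [a])) ≠ 0 := fun a => (Vale.Agent.P168.MP.avg_pos (hY _)).ne'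
    refine Finset.sum_congr rfl fun a _ => ?_
    have hden : ∑ a : Ω, ∑ b : Bool, w (pre.map Prod.fst ++ [a]) * Y (pre.map Prod.fst ++ [a]) b =
        2 * ∑ a : Ω, w (pre.map Prod.fst ++ [a]) * avg (Y (pre.map Prod.fst ++ [a])) := by
      rw [Finset.mul_sum]
      refine Finset.sum_congr rfl fun a _ => ?_
      simp only [avg, Fintype.card_bool, Fintype.sum_bool]
      push_cast
      ring
    have hpos : 0 < ∑ a : Ω, w (pre.map Prod.fst ++ [a]) * avg (Y (pre.map Prod.fst ++ [a])) :=
      Finset.sum_pos (fun a _ => wbar_pos hw hY _) univ_nonempty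
    rw [hden]
    have := hp a
    simp only [avg, Fintype.card_bool, Fintype.sum_bool] at this ⊢
    push_cast at this ⊢
    field_simp
    rw [mul_div_mul_right _ _ (fun e => this (by rw [e]; simp))]
  | k + 1, pre, h => by
    rw [Vale.Agent.P168.MP.ext_succ, Vale.Agent.P168.MP.ext_succ, Fintype.sum_prod_type]
    refine Finset.sum_congr rfl fun a _ => ?_
    have e : ∀ o : Ω × Bool, Z (lin R) (prodW R w Y) (k + 1) (pre ++ [o]) =
        Z (lin R) (wbar w Y) (k + 1) (pre.map Prod.fst ++ [o.1]) := fun o => by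
      rw [Z_prodW k _ (by simp; omega), List.map_append]; rfl
    have hb : ∀ b, ext (lin R) (prodW R w Y) (k + 1) (pre ++ [(a, b)]) (fun q => G (q.map Prod.fst) (leafB R q)) =
        ext (lin R) (wbar w Y) (k + 1) (pre.map Prod.fst ++ [a]) (spinMean Y G) := fun b => by
      rw [ext_prodW hw hY G k _ (by simp; omega), List.map_append]; rfl
    simp only [hb, Vale.Agent.P168.MP.trans, e, List.length_map, Fintype.sum_prod_type, Fintype.sum_bool, ← Finset.sum_mul,
      ← Finset.sum_div]
    have hpos : 0 < ∑ a : Ω, Z (lin R) (wbar w Y) (k + 1) (pre.map Prod.fst ++ [a]) ^ lin R (pre.length + 1) :=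
      Finset.sum_pos (fun a _ => Real.rpow_pos_of_pos (Vale.Agent.P168.MP.Z_pos (wbar_pos hw hY) _ _) _)
        univ_nonempty
    rw [Finset.sum_add_distrib]
    field_simp

/-- one replica -/
theorem ET_prodW_one (hR : 1 ≤ R) (hw : ∀ p, 0 < w p) (hY : ∀ p s, 0 < Y p s) (G : List Ω → Bool → ℝ) :
    ET R (lin R) (prodW R w Y) [(0, 0)] (fun ps => G ((ps.getD 0 []).map Prod.fst) (leafB R (ps.getD 0 []))) =
      ET R (lin R) (wbar w Y) [(0, 0)] fun ps => spinMean Y G (ps.getD 0 []) := by
  obtain ⟨k, rfl⟩ : ∃ k, R = k + 1 := ⟨R - 1, by omega⟩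
  simp only [Vale.Agent.P168.MP.ET_single, List.getD_cons_zero]
  exact ext_prodW hw hY G k [] (by simp)

/-- two replicas splitting below the top -/
theorem ET_prodW_pair {l : ℕ} (hl : l < R) (hw : ∀ p, 0 < w p) (hY : ∀ p s, 0 < Y p s)
    (Φ : List Ω → Bool → List Ω → Bool → ℝ) :
    ET R (lin R) (prodW R w Y) [(0, l), (0, 0)] (fun ps => Φ ((ps.getD 0 []).map Prod.fst)
        (leafB R (ps.getD 0 [])) ((ps.getD 1 []).map Prod.fst) (leafB R (ps.getD 1 []))) =
      ET R (lin R) (wbar w Y) [(0, l), (0, 0)] fun ps =>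
        spinMean Y (fun p s => spinMean Y (Φ p s) (ps.getD 1 [])) (ps.getD 0 []) := by
  obtain ⟨j, hj⟩ : ∃ j, R - l = j + 1 := ⟨R - l - 1, by omega⟩
  obtain ⟨k, hk⟩ : ∃ k, R = k + 1 := ⟨R - 1, by omega⟩
  have h0 := ext_prodW (R := R) hw hY (fun p s => ext (lin R) (wbar w Y) (R - l) (p.take l) (spinMean Y (Φ p s)))
    k [] (by simp; omega)
  simp only [List.map_nil] at h0
  rw [← hk] at h0
  rw [Vale.Agent.P168.MP.ET_cons, Vale.Agent.P168.MP.ET_cons (T := [(0, 0)]), Vale.Agent.P168.MP.ET_single,
    Vale.Agent.P168.MP.ET_single]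
  simp only [List.getD_cons_zero, List.cons_append, List.nil_append, List.getD_cons_succ]
  refine Eq.trans (Vale.Agent.P168.MP.ext_congr fun q hq => ?_) (h0.trans ?_)
  · simp only [List.nil_append]
    have h1 := ext_prodW (R := R) hw hY (Φ (q.map Prod.fst) (leafB R q)) j (q.take l)
      (by rw [List.length_take, hq]; omega)
    rw [hj, h1, List.map_take]
  · refine Vale.Agent.P168.MP.ext_congr fun p _ => ?_
    simp only [spinMean, List.nil_append]
    simp only [avg, ← Vale.Agent.P168.MP.ext_const_mul, div_eq_mul_inv, ← Vale.Agent.P168.MP.ext_mul_const,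
      ← Vale.Agent.P168.MP.ext_sum]
    simp only [spinMean, avg, div_eq_mul_inv]

/-- a small exponential factor moves expectations little -/
theorem ET_exp_small (hR : 1 ≤ R) (hw : ∀ p, 0 < w p) {U : List Ω → ℝ} {b : ℝ} (hU : ∀ p, |U p| ≤ b)
    {T : List (ℕ × ℕ)} (hT : Valid R T) {F : List (List Ω) → ℝ} {C : ℝ} (hF : ∀ ps, |F ps| ≤ C) :
    |ET R (lin R) (fun p => w p * exp (U p)) T F - ET R (lin R) w T F| ≤
      C * exp (2 * b) * (3 * T.length) * ET R (lin R) w [(0, 0)] fun ps => |U (ps.getD 0 [])| := by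
  have h := ok_lin hR hw
  set M := ET R (lin R) w [(0, 0)] fun ps => |U (ps.getD 0 [])|
  have hC : 0 ≤ C := (abs_nonneg _).trans (hF [])
  have hM : 0 ≤ M := Vale.Agent.P168.MP.ET_nonneg hw fun _ => abs_nonneg _
  have hone : ∀ {G : List Ω → ℝ}, (∀ p, 0 ≤ G p) → ∀ s ∈ Set.Icc (0:ℝ) 1,
      ET R (lin R) (tilt w U s) [(0, 0)] (fun ps => G (ps.getD 0 [])) ≤
        exp (2 * b) * ET R (lin R) w [(0, 0)] fun ps => G (ps.getD 0 []) := fun {G} hG s hs => by
    have hb : ∀ p, |s * U p| ≤ b := fun p => by
      rw [abs_mul, abs_of_nonneg hs.1]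
      exact (mul_le_of_le_one_left (abs_nonneg _) hs.2).trans (hU p)
    refine (Par.ET_mul_le hR hw (exp_pos (-b)) (Y := fun p => exp (s * U p))
      (fun p => exp_le_exp.2 (abs_le.1 (hb p)).1) (T := [(0, 0)]) ⟨rfl, rfl⟩ fun ps => hG _).trans ?_
    rw [← Vale.Agent.P168.MP.ET_const_mul]
    simp only [Vale.Agent.P168.MP.ET_single, List.getD_cons_zero, List.map_cons, List.map_nil,
      List.prod_cons, List.prod_nil, mul_one]
    refine Vale.Agent.P168.MP.ext_mono hw fun q => ?_
    rw [mul_comm]
    refine mul_le_mul_of_nonneg_right ?_ (hG q)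
    rw [div_le_iff₀ (exp_pos _), ← exp_add]
    refine exp_le_exp.2 ?_
    linarith [(abs_le.1 (hb q)).2]
  have hd : ∀ s ∈ Set.Icc (0:ℝ) 1, |((att R (lin R) T).map fun c => c.2 * ET R (lin R) (tilt w U s) (c.1 :: T)
      fun ps => F ps.dropLast * U (ps.getLastD [])).sum| ≤ C * exp (2 * b) * (3 * T.length) * M := fun s hs => by
    have hok := h.tilt U s
    refine (Vale.Agent.P168.MP.abs_sum_map_le _ _).trans ?_
    calc ((att R (lin R) T).map fun c => |c.2 * ET R (lin R) (tilt w U s) (c.1 :: T)
          fun ps => F ps.dropLast * U (ps.getLastD [])|).sum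
        ≤ ((att R (lin R) T).map fun c => |c.2| * (C * exp (2 * b) * M)).sum := by
          refine List.sum_le_sum fun c hc => ?_
          rw [abs_mul]
          refine mul_le_mul_of_nonneg_left ?_ (abs_nonneg _)
          have hv := Vale.Agent.P168.MP.att_valid hT hc
          have hlast : ET R (lin R) (tilt w U s) (c.1 :: T) (fun ps => |U (ps.getLastD [])|) =
              ET R (lin R) (tilt w U s) [(0, 0)] fun ps => |U (ps.getD 0 [])| := by
            refine (Vale.Agent.P168.MP.ET_congr hv fun ps hps => ?_).trans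
              ((Vale.Agent.P168.MP.ET_marginal hok.wpos hv (p := T.length) (by simp) fun q => |U q|).trans
                (Vale.Agent.P168.MP.ET_marginal hok.wpos (T := [(0, 0)]) ⟨rfl, rfl⟩ (p := 0) (by simp)
                  fun q => |U q|).symm)
            have hl : ps.length = T.length + 1 := by simpa using hps.1
            obtain ⟨l, a, rfl⟩ := ps.eq_nil_or_concat.resolve_left (by intro e; simp [e] at hl)
            simp at hl
            simp [List.getD_append_right, hl]
          refine (Vale.Agent.P168.MP.ET_abs_le hok.wpos _ _).trans ?_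
          calc ET R (lin R) (tilt w U s) (c.1 :: T) (fun ps => |F ps.dropLast * U (ps.getLastD [])|)
              ≤ ET R (lin R) (tilt w U s) (c.1 :: T) fun ps => C * |U (ps.getLastD [])| :=
                Vale.Agent.P168.MP.ET_mono hok.wpos fun ps => by
                  rw [abs_mul]; exact mul_le_mul_of_nonneg_right (hF _) (abs_nonneg _)
            _ = C * ET R (lin R) (tilt w U s) [(0, 0)] fun ps => |U (ps.getD 0 [])| := by
                rw [Vale.Agent.P168.MP.ET_const_mul, hlast]
            _ ≤ C * (exp (2 * b) * M) :=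
                mul_le_mul_of_nonneg_left (hone (G := fun p => |U p|) (fun p => abs_nonneg _) s hs) hC
            _ = _ := by ring
      _ = ((att R (lin R) T).map fun c => |c.2|).sum * (C * exp (2 * b) * M) := List.sum_map_mul_right ..
      _ ≤ (3 * T.length) * (C * exp (2 * b) * M) :=
          mul_le_mul_of_nonneg_right (Par.att_abs_sum_le T) (by positivity)
      _ = _ := by ring
  have := Convex.norm_image_sub_le_of_norm_hasDerivWithin_le (s := Set.Icc (0:ℝ) 1)
    (f := fun t => ET R (lin R) (tilt w U t) T F)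
    (fun s _ => (Vale.Agent.P168.MP.hasDerivAt_ET_const (h.tilt U s)
      (Vale.Agent.P168.MP.hasDerivAt_tilt w U s) hT F).hasDerivWithinAt)
    (fun s hs => by rw [Real.norm_eq_abs]; exact hd s hs) (convex_Icc 0 1)
    (Set.left_mem_Icc.2 zero_le_one) (Set.right_mem_Icc.2 zero_le_one)
  have e1 : tilt w U 1 = fun p => w p * exp (U p) := funext fun p => by
    show w p * exp (1 * U p) = _
    rw [one_mul]
  have e0 : tilt w U 0 = w := funext fun p => by
    show w p * exp (0 * U p) = _
    simp
  rw [e1, e0] at this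
  simpa [Real.norm_eq_abs] using this

end Vale.Agent.P157.Full
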